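import Crest.Agent.X212.Loc8.Thin
import Crest.Agent.X212.Abel74.Iso
import Crest.Agent.X212.Dfl49.Par
import Crest.Agent.X212.Hz56.Inst
import Crest.Agent.X212.Nd18.Defs
import Crest.Agent.X212.Dr59.Lat

/-!
# Row 212, LOC (helper8): reductions over an open set and their curvature forms
-/

set_option autoImplicit false
set_option linter.unusedSectionVars false
noncomputable section
open scoped Manifold ContDiff Topology InnerProductSpace
open MeasureTheory Function Filter Finset Module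
open Crest.Agent.R208.F (Ext)

namespace Crest.Agent.X212.Loc8
open An Wz78 Int54 Abel74
open Num57 hiding c1 c2
open Qab60 (c2)
open Dr59 (Cl Dg ip)
open Dfl49 (Sur Flt par_uniq)

theorem r1_of_trace {V : Type*} [NormedAddCommGroup V] [NormedSpace ℝ V] [FiniteDimensional ℝ V]
    {p : V →L[ℝ] V} (h : p * p = p) (ht : LinearMap.trace ℝ V (p : V →ₗ[ℝ] V) = 1) : Hz56.R1 p := by
  have h1 : LinearMap.IsProj (LinearMap.range (p : V →ₗ[ℝ] V)) (p : V →ₗ[ℝ] V) :=
    ⟨fun x => ⟨x, rfl⟩, by rintro _ ⟨x, rfl⟩; exact DFunLike.congr_fun h x⟩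
  rw [h1.trace] at ht
  obtain ⟨v, h0, hv⟩ := finrank_eq_one_iff'.1 (Nat.cast_eq_one.1 ht)
  refine ⟨v, fun e => h0 (Subtype.ext e), h1.map_id _ v.2, fun w => ?_⟩
  obtain ⟨t, e⟩ := hv ⟨_, w, rfl⟩
  exact ⟨t, (congrArg Subtype.val e).symm⟩

variable {E : Type} [NormedAddCommGroup E] [NormedSpace ℝ E] [FiniteDimensional ℝ E]
  [MeasurableSpace E] [BorelSpace E]
  {HM : Type} [TopologicalSpace HM] {I : ModelWithCorners ℝ E HM} [I.Boundaryless]
  {M : Type} [TopologicalSpace M] [ChartedSpace HM M] [IsManifold I ∞ M]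
  [MeasurableSpace M] [BorelSpace M] [SecondCountableTopology M] [T2Space M]
  {ι : Type} [Fintype ι] {lam : Type} [Fintype lam]

/-- a parallel unit section of `g` on the open set `O`, extended by zero -/
structure Rd (F : Fr I M ι) (m : Md M ι lam) (W : m.Cn) (O : Set M) (ξ : M → m.A) : Prop
    extends RedOn F m W O ξ where
  op : IsOpen O
  off : ∀ x, x ∉ O → ξ x = 0

theorem sur_prop {X : Type} [TopologicalSpace X] {O S : Set X} (h : Sur O S) {P : X → Prop}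
    (hP : ∀ x ∈ S, ∀ᶠ y in 𝓝 x, (P y ↔ P x)) (h0 : ∀ x ∈ O, P x) : ∀ x ∈ S, P x := by
  obtain ⟨-, k, -⟩ := h Unit (fun x _ => P x) ⟨fun _ _ _ h _ => h,
    fun _ _ _ _ _ _ _ => .of_forall fun _ => rfl, fun x hx => ⟨_, hP x hx, fun y hy s hs =>
      ⟨s, fun z hz => hz.2 (hy.1 hs), rfl⟩⟩⟩ (fun _ => ()) h0
  exact k

variable {B : Base M ι lam} {G : Geo I M ι lam} {O : Set M}

/-- **reducible and flat connections have a parallel unit section on simply connected sets** -/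
theorem exists_rd {r : ℕ} {c : Cfg M ι lam r} (hB : B.OK I) (hG : G.OK B) (A : c.Adm B G)
    (hO : IsOpen O) {x₀ : M} (hx : x₀ ∈ O) (hs : Sur {x₀} O)
    (h : Nd18.Lin G.F c O ∨ ∀ z ∈ O, c.m.Fg G.F c.W z = 0) : ∃ ξ, Rd G.F c.m c.W O ξ := by
  have cn := con_adW A.conn
  have sk := adW_skw A.conn
  have n := fun x (hx : x ∈ O) => hO.mem_nhds hx
  obtain ⟨Q, hQ, q1, v, v0, hv⟩ : ∃ Q, Flt G.F O (c.m.adW c.W) Q ∧
      (∀ x ∈ O, ∀ v, Q x v = v → v ∈ c.m.gS x) ∧ ∃ v, v ≠ 0 ∧ Q x₀ v = v := by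
    have fl : ∀ Q, (∀ x ∈ O, SA I Q x) → (∀ a, ∀ x ∈ O, nabE I G.F.e (c.m.adW c.W) a Q x = 0) →
        (∀ a b, ∀ x ∈ O, curv I G.F.e G.F.c (c.m.adW c.W) a b x * Q x = 0) →
        Flt G.F O (c.m.adW c.W) Q := fun Q h1 h2 h3 => ⟨hO, fun a x _ => cn.sm a x,
      fun a x _ => by rw [hG.P]; exact cn.proj a x, h1, fun a x hx => by rw [h2 a x hx, zero_mul], h3⟩
    rcases h with ⟨π, hπ, h⟩ | h
    · have R := fun x hx => r1_of_trace (h x hx).2.1 (h x hx).2.2.2.1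
      have s := fun x hx => hπ.contMDiffAt (n x hx)
      obtain ⟨v, v0, v1, -⟩ := R x₀ hx
      refine ⟨π, fl π s (fun a x hx => (h x hx).2.2.2.2 a) fun a b x hx => ?_, fun x hx v e => by
        rw [← e, ← (h x hx).2.2.1]; exact pg_mem x _, v, v0, v1⟩
      obtain ⟨v, v0, v1, hv⟩ := R x hx
      have e := DFunLike.congr_fun ((frm G.F).curv_par (fun a => cn.sm a x) (s x hx)
        (fun a => mem_of_superset (n x hx) fun y hy => (h y hy).2.2.2.2 a) a b) v
      obtain ⟨t, ht⟩ := hv (curv I G.F.e G.F.c (c.m.adW c.W) a b x v)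
      rw [mul_apply_eq_comp, mul_apply_eq_comp, v1, ht] at e
      have e2 := (skew_curv (e := G.F.e) (c := G.F.c) (fun a => cn.sm a x) sk a b).self v
      rw [e, real_inner_smul_left] at e2
      have t0 : t = 0 := by simpa [v0] using e2
      ext1 w
      obtain ⟨t', ht'⟩ := hv w
      rw [mul_apply_eq_comp, ht', map_smul, e, t0, zero_smul, smul_zero, zero_apply]
    · have s := Std94.sm_pg hB A.ok
      obtain ⟨v, v0⟩ : ∃ v : c.m.gS x₀, v ≠ 0 := (finrank_pos_iff_exists_ne_zero (R := ℝ)).1 (by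
        rw [Std94.finrank_g hB (Std94.pmx A.ok x₀)]; norm_num)
      refine ⟨c.m.pg, fl _ (fun x _ => s x) (fun a x _ => pg_par A.ok A.conn s a x)
        fun a b x hx => ?_, fun x _ v e => e ▸ pg_mem x _, v, fun e => v0 (Subtype.ext e),
        pg_of_mem v.2⟩
      ext1 w
      rw [mul_apply_eq_comp, curv_adW_g hB hG A.ok A.conn a b (pg_mem x w), h x hx]
      simp [adc_apply]
  obtain ⟨U, hU, -, -, hl⟩ := hQ.exists_loc hx
  obtain ⟨s, s1, s2⟩ := hl x₀ (mem_of_mem_nhds hU) ((4 / ‖v‖) • v) (by rw [map_smul, hv])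
  obtain ⟨t, t1, t2⟩ := hs _ _ hQ.ls s (by rintro _ rfl; exact mem_of_superset hU s2)
  have t3 := fun x hx => (t1 x hx).self_of_nhds
  have nm := sur_prop hs (P := fun x => ⟪t x, t x⟫_ℝ = 16) (fun x hx => (par_uniq (F := G.F)
    (A := fun _ _ => (0 : ℝ →L[ℝ] ℝ)) (s := fun y => ⟪t y, t y⟫_ℝ) (s' := fun _ => ⟪t x, t x⟫_ℝ)
    (.of_forall fun y a => ⟨contMDiffAt_const, by simp⟩) ((t1 x hx).mono fun y hy =>
      ⟨hy.sm.inner hy.sm, fun a => by
        rw [nab, dv_inner (e := G.F.e) a (sk a y) hy.sm hy.sm, hy.par]; simp⟩)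
    (.of_forall fun y => ⟨contMDiffAt_const, fun a => by simp [nab]⟩) rfl).mono fun y hy =>
      (congrArg (· = 16) hy).to_iff) (by
    rintro _ rfl
    rw [t2 rfl, s1, real_inner_self_eq_norm_sq, norm_smul, norm_div, norm_norm,
      div_mul_cancel₀ _ (norm_ne_zero_iff.2 v0)]
    norm_num)
  have e : ∀ x ∈ O, O.indicator t =ᶠ[𝓝 x] t := fun x hx =>
    mem_of_superset (n x hx) fun _ hy => Set.indicator_of_mem hy _
  have mem := fun x hx => q1 x hx _ (t3 x hx).mem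
  refine ⟨O.indicator t, ⟨fun x hx => (t3 x hx).sm.congr_of_eventuallyEq (e x hx),
    fun x hx => (e x hx).eq_of_nhds ▸ mem x hx, fun x hx => ?_, fun x hx a => by
      rw [nab_congr a (e x hx), (t3 x hx).par]⟩, hO, fun x hx => Set.indicator_of_notMem hx _⟩
  rw [Set.indicator_of_mem hx]
  exact sq_of_norm hB A.ok (mem x hx) (by rw [← real_inner_self_eq_norm_sq, nm x hx])

variable {m : Md M ι lam} {W : m.Cn} {ξ : M → m.A} {x : M}

namespace Rd
variable (R : Rd G.F m W O ξ)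
include R

theorem sm_opL (hx : x ∈ O) : SA I (fun y => opL (ξ y)) x := SA.clm opL (R.sm x hx)

theorem nE (hx : x ∈ O) (a : ι) : nabE I G.F.e W a (fun y => opL (ξ y)) x = 0 := by
  rw [opL_nab a (R.sm x hx), R.par x hx, map_zero]

theorem fF_off (hx : x ∉ O) (a b : ι) : fF G.F m W ξ a b x = 0 := by
  rw [fF, R.off x hx, inner_zero_right, zero_div]

theorem fm_off (hx : x ∉ O) : fm G.F m W ξ x = 0 := by
  simp only [fm, fm2_apply, R.fF_off hx, mul_zero, zero_smul, sum_const_zero]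

variable (hB : B.OK I) (hG : G.OK B) (H : m.OK I B) (C : m.IsConn B G W)
include hG C

theorem cl_fm : Cl I 2 O (fm G.F m W ξ) := by
  have pa : Pa I O (Num57.cn G.F W) (f0 E fun x => opL (ξ x)) :=
    pa_cn G.F (fun x _ a => by rw [hG.P]; exact C.cc.proj a x) (fun x => R.sm_opL)
      fun x => R.nE
  refine Cl.congr R.op (a := (-(1 / 16) : ℝ) • Num57.c1 I (Num57.cn G.F W) (f0 E fun x => opL (ξ x)))
    (Cl.smul _ ⟨fun x hx => ((Red.co C).sm.mono (Set.subset_univ O)).c1 pa.sm hx,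
      fun x _ => deg_c1 G.F _ _ x, fun x hx => Num57.c1_closed R.op
        ((Red.co C).mono (Set.subset_univ O)) pa hx⟩) fun x hx => ?_
  refine (cf G.F x).ext2' (dg_fm x trivial) ((deg_c1 G.F _ _ x).smul _) fun a b => ?_
  change k2 G.F _ a b x = k2 G.F _ a b x
  rw [k2_fm hG C, k2_smul, k2_c1 G.F (fun a => C.cc.sm a x)
    (.of_forall fun y a => by rw [hG.P]; exact C.cc.proj a y), fF_tr (R.mem x hx)]

include hB H

theorem Fg_eq (hx : x ∈ O) (s : ι × ι) : m.Fg G.F W x s = fF G.F m W ξ s.1 s.2 x • ξ x := by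
  refine eq_of_comm hB H (R.mem x hx) (R.sq x hx) (Fg_mem _ s) ?_
  have h := congrArg opL (curv_adW_g hB hG H C s.1 s.2 (R.mem x hx))
  rw [curv_adW fun a => C.cc.sm a x, opL_adc, opL_adc, (frm G.F).curv_par (fun a => C.cc.sm a x)
    (R.sm_opL hx) (fun a => mem_of_superset (R.op.mem_nhds hx) fun y hy => R.nE hy a), sub_self] at h
  exact (sub_eq_zero.1 h.symm).symm

theorem norm_Fg (hx : x ∈ O) : ‖c2 G.F ((2 : ℝ) • fm G.F m W ξ) x‖ ^ 2 = ‖m.Fg G.F W x‖ ^ 2 / 4 := by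
  simp only [PiLp.norm_sq_eq_of_L2, R.Fg_eq hB hG H C hx, norm_smul, mul_pow,
    norm_sq H (R.mem x hx) (R.sq x hx), sum_div, c2, k2_smul, k2_fm hG C, Real.norm_eq_abs, sq_abs]
  exact sum_congr rfl fun a _ => by ring

theorem norm_p2 (hx : x ∈ O) : ‖hs G.F B.o x (c2 G.F ((2 : ℝ) • fm G.F m W ξ) x)‖ ^ 2 =
    ‖m.p2 B x (m.Fg G.F W x)‖ ^ 2 / 4 := by
  rw [show m.Fg G.F W x = WithLp.toLp 2 fun s => fF G.F m W ξ s.1 s.2 x • ξ x from
    PiLp.ext (R.Fg_eq hB hG H C hx), p2_smul (R.mem x hx), norm_hs hG]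
  simp only [PiLp.norm_sq_eq_of_L2, norm_smul, mul_pow, norm_sq H (R.mem x hx) (R.sq x hx), sum_div,
    k2_smul, k2_fm hG C, Real.norm_eq_abs, sq_abs, mul_left_comm _ (2 : ℝ), ← mul_sum]
  rw [mul_sum]
  exact sum_congr rfl fun a _ => by ring

end Rd

end Crest.Agent.X212.Loc8
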