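import Crest.Agent.X212.Rf65.Pl

/-!
# Row 212, WALL at walls of positive scalar curvature: the text of the leaf
-/

set_option autoImplicit false
set_option linter.unusedSectionVars false
noncomputable section
open Set Function

namespace Crest.Agent.X212.Loc8
open An M Nd18 Rf65

variable {Wi : Type} {X : Mf 4} {A κ lam : Type} [Fintype A] [Fintype κ] [Fintype lam]
  [DecidableEq lam] {M : Mark X A κ} {W : World M} {N : ML M lam} {Λ : Lns W N}
  {A' h : Type} [Fintype A'] [DecidableEq A'] [Fintype h] {r n : ℕ} (J : Job Wi Λ A' h r n)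

/-- **LEAF WALL** (row 6713): lens walls, or no neck terms at all; soft coordinates are shared -/
def WallS (a : A') : Prop := J.OK → PJ J (J.cf a) →
  ((∀ x ∈ cylW (J.cf a), PY (J.xs x).D 0) ∨ ∀ x, Nl J x) → ∃ δ₀ > 0, ∀ δ ∈ Ioc 0 δ₀,
    ∀ sh σ n₀, (∀ a', J.hd a' = none → a' ∈ sh) → WallL J a δ sh σ n₀

variable {J} in
/-- the other free coordinates are live on the whole face -/
theorem mem_V (hJ : J.OK) {σ : Cel A'} (hσ : σ ∈ J.𝒦) {sh : Set A'}
    (hs : ∀ a', J.hd a' = none → a' ∈ sh) {a a' : A'} {x : A} (hd : J.hd a = some x)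
    (fr : σ a = none) (fr' : σ a' = none) (ne : a' ≠ a) : a' ∈ (pW J (J.cf a) sh σ x).V := by
  have k : ∀ z, J.hd a' = some z → z ≠ x := fun z e e' => ne (hJ.inj _ _ x (e' ▸ e) hd)
  refine ⟨fr', fun z e e' => k z e (Option.some.inj ((show J.hd a = _ from e').symm.trans hd)), ?_⟩
  cases e : J.hd a' with
  | none => exact .inl (hs a' e)
  | some z =>
    obtain ⟨s₀, l0, l1⟩ := hJ.lin
    let s : A' → ℝ := fun b => (σ b).elim 1 b01
    have c := (hJ.par σ hσ s ⟨fun b v e => by simp [s, e], fun b _ => by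
      rcases e : σ b with _ | _ | _ <;> simp [s, e, b01]⟩).2
    have o : ∀ {b y}, J.hd b = some y → σ b = none → y ∈ support (J.Θ s).2 := fun {b y} e f => by
      have : s b = 1 := by simp [s, f]
      rw [mem_support, (l1 b y e s (this ▸ l0.le)).1, this]
      exact one_ne_zero
    have cm : M.sys.Cmp z x := c (o e fr') (o hd fr) (k z e)
    obtain ⟨b, hb⟩ := Wall.exists_side cm.symm
    refine .inr ⟨hp x b, by cases b <;> simp, z, ⟨if_neg (k z e), fun y hy u v f => ?_,
      fun u f => ?_⟩, rfl⟩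
    · by_cases g : u = x
      · subst g
        obtain rfl : b = v := by simpa [hp] using f
        exact hb hy
      · simp [hp, g] at f
    · obtain rfl : u = x := by_contra fun g => f (if_neg g)
      exact cm

open G75 Ins26 in
/-- the soft coordinates of the generic class are shared -/
theorem sh_of {Lm : LM κ lam} {S : Scene Lm} {D : S.Dat} {i : S.L}
    {J : Job Wi (D.Λ i) (S.A ⊕ Unit) S.ls r n} {X : Finset S.A} {a₀ : Option S.A} {j : ℕ} {n₀ : ℤ}
    {T : ℝ} (G : GX J X a₀ j n₀ T) (a' : S.A ⊕ Unit) (e : J.hd a' = none) : a' ∈ shX S X :=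
  fun x hx f => by simp [G.hd, f, hx] at e

end Crest.Agent.X212.Loc8
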