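import Crest.Agent.X212.Loc8.Long
import Crest.Agent.X212.Cht98.Nk
import Crest.Agent.X212.Dfl49.Sur
import Crest.Agent.X212.Num57.Hs

/-!
# Row 212, LOC (helper8): localisation on the capped manifolds of a world
-/

set_option autoImplicit false
set_option linter.unusedSectionVars false
noncomputable section
open scoped Manifold ContDiff Topology InnerProductSpace Matrix
open MeasureTheory Function Filter Set Module
open Crest.Agent.R208.F (Ext)
open Crest.Agent.R208.FI (IsDeg)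

namespace Crest.Agent.X212.Loc8
open An Int54 Qab60
open Num57 hiding c1 c2
open Dr59 (SmAt dM df Dg Cl Ex Cs ip cut HZ Lat psh)
open Cyf70 (IC)

/-! ### cut-off functions -/

/-- locally constant off `K` -/
def Lc {α : Type*} [TopologicalSpace α] (g : α → ℝ) (K : Set α) : Prop :=
  ∀ x, x ∉ K → g =ᶠ[𝓝 x] fun _ => g x

section lc
variable {α β : Type*} [TopologicalSpace α] [TopologicalSpace β] {g : α → ℝ} {K : Set α}

theorem Lc.comp (h : Lc g K) {f : β → α} (hf : Continuous f) : Lc (fun y => g (f y)) (f ⁻¹' K) :=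
  fun y hy => (hf.tendsto y).eventually (h _ hy)

theorem Lc.sq (h : Lc g K) : Lc (g * g) K := fun x hx => (h x hx).mul (h x hx)

theorem Lc.prod {γ : Type*} {s : Finset γ} {g : γ → α → ℝ} {K : γ → Set α}
    (h : ∀ i ∈ s, Lc (g i) (K i)) : Lc (∏ i ∈ s, g i) (⋃ i ∈ s, K i) := fun x hx =>
  ((eventually_all_finset s).2 fun i hi => h i hi x fun k => hx (mem_biUnion hi k)).mono fun y hy => by
    simp only [Finset.prod_apply]; exact Finset.prod_congr rfl hy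

theorem Lc.deriv {g : ℝ → ℝ} {K : Set ℝ} (h : Lc g K) {s : ℝ} (hs : s ∉ K) : deriv g s = 0 :=
  (h s hs).deriv_eq.trans (deriv_const _ _)

end lc

/-- logarithmic cut-offs between the heights `r` and `1/2` -/
structure Lg (χ : ℝ → ℝ) (r δ : ℝ) : Prop where
  r0 : 0 < r
  r1 : r ≤ 1 / 2
  sm : ContDiff ℝ ∞ χ
  lo : ∀ s ≤ r, χ s = 0
  hi : ∀ s, 1 / 2 ≤ s → χ s = 1
  mem : ∀ s, χ s ∈ Icc (0 : ℝ) 1
  bd : ∀ s, |deriv χ s| * |s| ≤ δ
  len : δ⁻¹ ≤ Real.log (1 / 2 / r)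

theorem exists_lg {δ : ℝ} (hδ : 0 < δ) : ∃ χ r, Lg χ r δ := by
  obtain ⟨C, h0, h⟩ := exists_log
  have hL : 0 < (C + 1) / δ := by positivity
  have e : 1 / 2 / Real.exp ((C + 1) / δ) * Real.exp ((C + 1) / δ) = 1 / 2 := by field_simp
  obtain ⟨χ, h1, h2, h3, h4, -, h5⟩ := h (1 / 2 / Real.exp ((C + 1) / δ)) _ (by positivity) hL
  refine ⟨χ, _, by positivity, div_le_self (by norm_num) (Real.one_le_exp hL.le), h1, h2,
    e ▸ h3, h4, fun s => (h5 s).trans ?_, ?_⟩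
  · rw [div_div_eq_mul_div, div_le_iff₀ (by positivity)]; nlinarith
  · rw [div_div_cancel₀ (by norm_num), Real.log_exp, inv_eq_one_div]
    gcongr; linarith

variable {χ : ℝ → ℝ} {r δ : ℝ}

theorem Lg.lc (h : Lg χ r δ) : Lc χ (Icc r (1 / 2)) := fun s hs => by
  rcases not_and_or.1 hs with k | k
  · exact (eventually_lt_nhds (not_le.1 k)).mono fun y hy =>
      (h.lo y hy.le).trans (h.lo s (not_le.1 k).le).symm
  · exact (eventually_gt_nhds (not_le.1 k)).mono fun y hy =>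
      (h.hi y hy.le).trans (h.hi s (not_le.1 k).le).symm

theorem Lg.d0 (h : Lg χ r δ) : 0 ≤ δ := le_trans (by positivity) (h.bd 0)

section gen
variable {E : Type} [NormedAddCommGroup E] [NormedSpace ℝ E] [FiniteDimensional ℝ E]
  [MeasurableSpace E] [BorelSpace E]
  {H : Type} [TopologicalSpace H] {I : ModelWithCorners ℝ E H} [I.Boundaryless]
  {N : Type} [TopologicalSpace N] [ChartedSpace H N] [IsManifold I ∞ N]
  [MeasurableSpace N] [BorelSpace N] [SecondCountableTopology N] [T2Space N]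
  {ι : Type} [Fintype ι] {F : Fr I N ι} {o : ι → ι → ι → ι → N → ℝ} {g : N → ℝ} {K U V C O P : Set N}
  {c : ℝ} {u : N → Ext E}

theorem intOn_cp {w : N → ℝ} (hw : Continuous w) (hP : IsCompact P) : IntegrableOn w P F.μ :=
  hw.continuousOn.integrableOn_compact hP

theorem int_cut (hc : IsCompact P) (hg : Continuous g) (h01 : ∀ x, g x ∈ Icc (0 : ℝ) 1) (hC : IsClosed C) (hP : C ⊆ P)
    {w φ : N → ℝ} (hφ : Continuous φ) (h0 : ∀ x, 0 ≤ φ x) (e : ∀ x ∈ C, w x = φ x)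
    (z : ∀ x, x ∉ C → g x * w x = 0) : Integrable (fun x => (g * g) x * w x) F.μ ∧
      0 ≤ ∫ x, (g * g) x * w x ∂F.μ ∧ ∫ x, (g * g) x * w x ∂F.μ ≤ ∫ x in P, φ x ∂F.μ := by
  have i1 := (intOn_cp (F := F) ((hg.mul hg).mul hφ) hc).mono_set hP
  rw [show (fun x => (g * g) x * w x) = C.indicator fun x => g x * g x * φ x from funext fun x => by
      by_cases hx : x ∈ C
      · rw [indicator_of_mem hx, e x hx, Pi.mul_apply]
      · rw [indicator_of_notMem hx, Pi.mul_apply, mul_assoc, z x hx, mul_zero],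
    integral_indicator hC.measurableSet]
  exact ⟨(integrable_indicator_iff hC.measurableSet).2 i1,
    integral_nonneg fun x => mul_nonneg (mul_self_nonneg _) (h0 x),
    (setIntegral_mono i1 ((intOn_cp hφ hc).mono_set hP) fun x => mul_le_of_le_one_left (h0 x)
      (mul_le_one₀ (h01 x).2 (h01 x).1 (h01 x).2)).trans
      (setIntegral_mono_set (intOn_cp hφ hc) (.of_forall h0) hP.eventuallyLE)⟩

variable (F o) in
/-- on `O` the energy densities of the two-form `u` are `φ` and `ψ` -/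
structure Den (O : Set N) (u : N → Ext E) (φ ψ : N → ℝ) : Prop where
  op : IsOpen O
  cl : Cl I 2 O u
  off : ∀ x, x ∉ O → u x = 0
  t1 : Continuous φ
  t2 : Continuous ψ
  p1 : ∀ x, 0 ≤ φ x
  p2 : ∀ x, 0 ≤ ψ x
  e1 : ∀ x ∈ O, ‖c2 F u x‖ ^ 2 = φ x
  e2 : ∀ x ∈ O, ‖hs F o x (c2 F u x)‖ ^ 2 = ψ x

variable {φ ψ : N → ℝ}

theorem Den.dg (D : Den F o O u φ ψ) (x : N) : IsDeg 2 (u x) := by
  by_cases hx : x ∈ O
  exacts [D.cl.dg x hx, D.off x hx ▸ IsDeg.zero]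

theorem Den.en_le (D : Den F o O u φ ψ) (hc : IsCompact P) (hK : MeasurableSet K) (hO : K ⊆ O) (hP : K ⊆ P) :
    en F K u ≤ ∫ x in P, φ x ∂F.μ :=
  (setIntegral_congr_fun hK fun x hx => D.e1 x (hO hx)).trans_le (setIntegral_mono_set
    (intOn_cp D.t1 hc) (.of_forall D.p1) hP.eventuallyLE)

/-- **the localised class** -/
theorem exists_loc (hc : IsCompact P) (hF : OK F o) (h : Thin (vol F o) F (g * g) K c) (hg : Sm I g) (hl : Lc g K)
    (h01 : ∀ x, g x ∈ Icc (0 : ℝ) 1) (hU : IsOpen U) (hK : K ⊆ U) (D : Den F o O u φ ψ)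
    (hx : Ex I U u) (h1 : ∀ x ∈ V, x ∉ U → g x = 1) (hC : IsClosed C) (hKC : K ⊆ C)
    (hO : C ⊆ O) (hP : C ⊆ P) (hz : ∀ x ∈ O, x ∉ C → g x = 0) : ∃ v, Cs I 2 C v ∧ Ex I V (u - v) ∧
      ip I (vol F o) v v ≤ ∫ x in P, ψ x ∂F.μ + c * ∫ x in P, φ x ∂F.μ ∧
      -ip I (vol F o) v v ≤ (∫ x in P, φ x ∂F.μ) / 2 + c * ∫ x in P, φ x ∂F.μ := by
  obtain ⟨b, b1, b2, b3⟩ := hx.deg fun x _ => D.dg x
  have h0 : ∀ x, x ∉ K → df I g x = 0 := fun x k => Dr59.df_eq_zero (hl x k)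
  have z : ∀ x, x ∉ C → g x = 0 ∨ u x = 0 := fun x k => (em (x ∈ O)).imp (hz x · k) (D.off x)
  have z1 : ∀ x, x ∉ C → cut I g u b x = 0 := fun x k => by
    rw [Dr59.cut_apply, smul_eq_zero.2 (z x k), h0 x fun k' => k (hKC k'), zero_mul, add_zero]
  obtain ⟨i1, k1, k2⟩ := int_cut (F := F) hc hg.continuous h01 hC hP D.t1 D.p1 (fun x k => D.e1 x (hO k))
    fun x k => (z x k).elim (fun e => by rw [e, zero_mul]) fun e => by simp [c2_of_zero e]
  obtain ⟨i2, k3, k4⟩ := int_cut (F := F) hc hg.continuous h01 hC hP D.t2 D.p2 (fun x k => D.e2 x (hO k))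
    fun x k => (z x k).elim (fun e => by rw [e, zero_mul]) fun e => by simp [c2_of_zero e]
  have k := abs_le.1 (h.loc_ab' hF hg h0 hU hK b1 b2 D.dg (fun x k => b3 x (hK k)) i1 i2)
  have k5 := mul_le_mul_of_nonneg_left (D.en_le hc h.cpt.measurableSet (hKC.trans hO) (hKC.trans hP)) h.c0
  refine ⟨cut I g u b, ?_, ?_, by rw [ip]; linarith, by rw [ip]; linarith⟩
  · rw [← indicator_eq_self.2 ((support_subset_iff'.2 z1).trans hO)]
    exact Dr59.cs_indicator D.op (Dr59.Cf.cl_cut ⟨fun x _ => hg x, fun x _ k =>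
      ⟨_, hl x fun k' => k (hK k')⟩⟩ D.cl b1 b2 fun x _ => b3 x) (hc.of_isClosed_subset hC hP) hO fun x _ => z1 x
  · refine (Dr59.Cz.ex_cut (χ := 1 - g) ⟨fun x _ => contMDiffAt_const.sub (hg x), fun x k k' =>
      (hl x fun k => k' (hK k)).mono fun y hy => ?_⟩ b1 fun x _ => b3 x).congr fun x _ => ?_
    · simp [hy, h1 x k k']
    · simp only [Pi.sub_apply, Dr59.cut_apply, Dr59.df_one_sub (hg x), Pi.one_apply, sub_smul,
        one_smul, neg_mul]
      abel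

end gen

/-! ### caps -/

open M Cyl58 Cht98

variable {X : Mf 4} {A κ : Type} [Fintype A] [Fintype κ] {M : Mark X A κ}

section caps
variable (C : Caps M) (c : M.Cl)

/-- the centres of the caps -/
def ctr : Set (C.Z c).M := {z | ∃ a ∈ c.1, M.pin a ∧ ∃ b, C.β c a b 0 = z}

/-- pull back to `X` -/
abbrev pX (u : (C.Z c).M → Ext (C.Z c).E) : X.M → Ext X.E := Dr59.pm X.I (C.Z c).I (C.φ c) u

variable {c} {V : Set X.M} {V' : Set (C.Z c).M} {π : Reg A}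

theorem diff_ctr (hV : V ⊆ (C.φ c).source)
    (h : ∀ x, x ∉ M.sys.cores c.1 → (C.φ c x ∈ V' ↔ x ∈ V)) : V' \ ctr C c = C.φ c '' V := by
  refine Subset.antisymm (fun z hz => ?_) ?_
  · obtain ⟨x, hx, rfl⟩ := (caps_surj C z).resolve_right hz.2
    exact ⟨x, (h x hx).1 hz.1, rfl⟩
  · rintro _ ⟨x, hx, rfl⟩
    have k := (C.mem_src c).1 (hV hx)
    exact ⟨(h x k).2 hx, fun ⟨a, ha, hp, b, e⟩ => caps_ne C k ha hp b e.symm⟩

theorem U_src (h : M.sys.Piece c.1 π) : M.sys.U π ⊆ (C.φ c).source := C.src c ▸ U_sub h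

theorem pc_diff (h : M.sys.Piece c.1 π) : C.pc c π \ ctr C c = C.φ c '' M.sys.U π :=
  diff_ctr C (U_src C h) fun _ => φ_mem_pc C h

theorem ctr_loc {z : (C.Z c).M} (hz : z ∈ ctr C c) :
    z ∈ closure (ctr C c)ᶜ ∧ Hz56.NSep (ctr C c)ᶜ z := by
  obtain ⟨a, ha, hp, b, rfl⟩ := hz
  have k := C.βoe c a ha hp b
  have e : C.β c a b ⁻¹' (ctr C c)ᶜ = {0}ᶜ := Set.ext fun v => not_congr ⟨fun ⟨a', ha', hp', b', e⟩ => by
      obtain ⟨rfl, rfl⟩ := caps_disj C ha' hp' ha hp e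
      exact (k.inj e).symm, fun e => ⟨a, ha, hp, b, by rw [mem_singleton_iff.1 e]⟩⟩
  exact ⟨k.continuous.closure_preimage_subset _ (e ▸ dense_compl_singleton 0 0),
    Hz56.NSep.emb k.isOpenEmbedding (e ▸ Hz56.nsep_zero (by simp))⟩

variable (c) in
/-- the open set `V` with the centres of its caps -/
def oz (V : Set X.M) : Set (C.Z c).M := interior (C.φ c '' V ∪ ctr C c)

theorem sub_oz (hV' : IsOpen V') (h : V' \ ctr C c ⊆ C.φ c '' V) : V' ⊆ oz C c V :=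
  interior_maximal (fun z hz => (em (z ∈ ctr C c)).elim .inr fun k => .inl (h ⟨hz, k⟩)) hV'

theorem img_oz (hV : IsOpen V) (hs : V ⊆ (C.φ c).source) : C.φ c '' V ⊆ oz C c V :=
  sub_oz C (Dr59.pd_open _ hV hs) sdiff_subset

theorem oz_diff (hV : IsOpen V) (hs : V ⊆ (C.φ c).source) : oz C c V ∩ (ctr C c)ᶜ = C.φ c '' V := by
  refine Subset.antisymm (fun z hz => (interior_subset hz.1).resolve_right hz.2) fun z hz =>
    ⟨img_oz C hV hs hz, ?_⟩
  obtain ⟨x, hx, rfl⟩ := hz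
  exact fun ⟨a, ha, hp, b, e⟩ => caps_ne C ((C.mem_src c).1 (hs hx)) ha hp b e.symm

theorem oz_closure (hV : IsOpen V) (hs : V ⊆ (C.φ c).source) : oz C c V ⊆ closure (C.φ c '' V) :=
  fun z hz => oz_diff C hV hs ▸ isOpen_interior.inter_closure ⟨hz, (em (z ∈ ctr C c)).elim
    (fun k => (ctr_loc C k).1) fun k => subset_closure k⟩

theorem oz_sub (h : M.sys.Piece c.1 π) (hV : IsOpen V) (hs : V ⊆ M.sys.U π) : oz C c V ⊆ C.pc c π :=
  (oz_closure C hV (hs.trans (U_src C h))).trans (closure_minimal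
    ((image_mono hs).trans subset_union_left) (isClopen_pc C h).1)

theorem sur_oz (hV : IsOpen V) (hs : V ⊆ (C.φ c).source) {x : X.M} (hx : x ∈ V)
    (h : Dfl49.Sur {x} V) : Dfl49.Sur {C.φ c x} (oz C c V) :=
  (image_singleton ▸ h.image (C.φ c).toOpenPartialHomeomorph hs (singleton_subset_iff.2 hx)).trans
    (Dfl49.sur_nsep isOpen_interior (Dr59.pd_open _ hV hs) (img_oz C hV hs) (oz_closure C hV hs)
      fun _ hz k => oz_diff C hV hs ▸ (ctr_loc C (by_contra fun k' =>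
        k (oz_diff C hV hs ▸ ⟨hz, k'⟩))).2.inter (isOpen_interior.mem_nhds hz))
    (singleton_subset_iff.2 ⟨x, hx, rfl⟩) (img_oz C hV hs)

/-- **intersection numbers on the capped manifold in terms of a lattice on `X`** -/
theorem pair (hV' : IsOpen V') (hV : V' \ ctr C c = C.φ c '' V) (hs : V ⊆ (C.φ c).source)
    {ι : Type*} [Fintype ι] [DecidableEq ι] {K : Set X.M} {e : ι → X.M → Ext X.E} {G : Matrix ι ι ℝ}
    (hL : Lat X.I M.o V K e G) {u v : (C.Z c).M → Ext (C.Z c).E} (hu : Dr59.Sm (C.Z c).I V' u)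
    (hv : Cs (C.Z c).I 2 V' v) (hx : Ex (C.Z c).I V' (u - v)) : ip (C.Z c).I (C.o c) v v =
      (fun i => ip X.I M.o (pX C c u) (e i)) ⬝ᵥ G⁻¹ *ᵥ fun i => ip X.I M.o (pX C c u) (e i) := by
  obtain ⟨v', h1, h2⟩ := exists_rm (T := ctr C c) ((finite_range fun p : A × Bool =>
    C.β c p.1 p.2 0).subset fun _ ⟨a, _, _, b, e⟩ => ⟨(a, b), e⟩) (fun _ ⟨a, ha, hp, b, e⟩ =>
      have k := C.βoe c a ha hp b
      ⟨_, Dr59.oe_open k.loc k.inj isOpen_univ, ⟨0, trivial, e⟩, (Dr59.hz_oe k.loc k.inj isOpen_univ).2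
        (Dr59.hz_star isOpen_univ (mem_univ 0) (convex_univ.starConvex trivial))⟩) hV' hv
  rw [hV] at h1
  replace hL := hL.mono hL.sub subset_rfl
  have hP := hL.push (C.φ c) hs (C.ori c) ((C.oφ c).mono hs)
  rw [(hv.mono (subset_univ _)).ip_coh (C.ori c) hv.cl.sm h1.cl.sm h2, Dr59.ip_comm h1.cl.dg,
    hP.ip_eq (hv.on _) h1]
  simp only [← ((hP.cs _).mono (subset_univ _)).ip_coh (C.ori c) hv.cl.sm h1.cl.sm h2,
    ← ((hP.cs _).mono (hV ▸ sdiff_subset)).ip_coh (C.ori c) hu (hv.on _).sm hx,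
    (hL.cs _).ip_psh (C.φ c) hs (C.ori c) M.ori ((C.oφ c).mono hs)]

variable (c) in
/-- the height towards the side `b` -/
def hb (a : A) (b : Bool) (z : (C.Z c).M) : ℝ := pm b * hZ C c a z

variable {a : A} (ha : a ∈ M.sys.fr c.1) {b : Bool}
include ha

theorem sm_hb (b : Bool) : Sm (C.Z c).I (hb C c a b) := contMDiff_const.mul (sm_hZ C (.inr ha))

theorem hb_pos {x : X.M} (hx : x ∉ M.sys.cores c.1) :
    0 < hb C c a b (C.φ c x) ↔ x ∈ (M.sys.w a).sd b := by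
  rw [hb, hZ_φ C (.inr ha) hx]; exact (M.bn a).mem_sd.symm

theorem abs_hb (z : (C.Z c).M) : |hb C c a b z| = |hZ C c a z| := by rw [hb, abs_mul, abs_pm, one_mul]

theorem exists_of_hb {z : (C.Z c).M} (h : |hb C c a b z| < 3) :
    ∃ x ∈ (M.sys.w a).band, x ∉ M.sys.cores c.1 ∧ C.φ c x = z :=
  let ⟨_, h1, h2⟩ := exists_of_hZ C (.inr ha) (abs_hb C ha z ▸ h); ⟨_, ⟨_, rfl⟩, h1, h2⟩

theorem band_src : (M.sys.w a).band ⊆ (C.φ c).source := fun _ hx =>
  (C.mem_src c).2 (Mark.fr_not_mem ha hx)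

end caps

/-! ### necks -/

/-- constants of the cross-section -/
def YC (M : Mark X A κ) (a : A) (cs : ℝ) : Prop := 0 ≤ cs ∧
  ∃ o, Ori (M.bn a).Y.I o ∧ SameOn (cy o) (M.oC a) univ ∧ CS (M.gY a) o cs

theorem exists_yc (M : Mark X A κ) (a : A) : ∃ cs, YC M a cs := by
  obtain ⟨o, h1, h2⟩ := exists_cy (M.gY a) (Mark.ori_oC a)
  obtain ⟨cs, h3, h4⟩ := exists_cs (by rw [(M.bn a).Y.dim]; norm_num) (M.gvol a) h1
  exact ⟨cs, h3, o, h1, h2, h4⟩

theorem cs_band {a : A} {k : ℕ} {e : X.M → Ext X.E} (he : Cs X.I k (M.sys.w a).band e) :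
    Cs (IC (M.bn a).Y.I) k univ (Dr59.pm (IC (M.bn a).Y.I) X.I (M.bn a).j e) :=
  ⟨he.cl.pm (.of_contMDiff (M.bn a).oe.contMDiff (mapsTo_univ _ _)), .intro
    (((M.bn a).oe.isOpenEmbedding.isInducing.isCompact_preimage_iff he.sub).2 he.hc) fun q hq => by
      rw [Dr59.pm_apply, image_eq_zero_of_notMem_tsupport hq, map_zero], subset_univ _⟩

theorem ip_band {a : A} {k : ℕ} {e : X.M → Ext X.E} (he : Cs X.I k (M.sys.w a).band e)
    (w : X.M → Ext X.E) : ip X.I M.o w e = ip (IC (M.bn a).Y.I) (M.oC a)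
      (Dr59.pm (IC (M.bn a).Y.I) X.I (M.bn a).j w) (Dr59.pm (IC (M.bn a).Y.I) X.I (M.bn a).j e) :=
  integ_eq_of_map (X.dim.trans (Mark.finrank_cyl a).symm) M.ori (Mark.ori_oC a) MeasurableSet.univ
    (fun q _ => (M.bn a).oe.contMDiff q) (M.bn a).oe.inj.injOn ((Mark.ori_oC a).same _)
    (fun x hx => by rw [Pi.mul_apply, he.eq_zero fun k => hx (image_univ ▸ k), mul_zero, map_zero])
    (fun _ h => (h trivial).elim) fun _ _ => by rw [Dr59.pm_mul]

variable (W : World M) (m : M.Cl) {c : M.Cl} {p : Prm A}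

theorem same_vol (h : p ∈ M.O c.1) :
    SameOn (W.o c) (vol (W.F m c p) (ov (W.o c) (W.L m c).F0.e)) univ := by
  rw [← (W.L m c).ov_F (Mark.mem_Ω _ h)]
  exact ((W.ori c).sameOn_volF (pre_sp (W.F m c p).toPre) _).trans (sameOn_of_rat_pos fun x _ => by
    rw [ov, tp_vol_oc _ (W.Z c).dim ((W.ori c).unit_vol _)]; exact one_pos).symm

/-- a long cylindrical neck of `Z c` -/
structure Lk (c : M.Cl) (p : Prm A) (r : ℝ) (a : A) : Prop where
  fr : a ∈ M.sys.fr c.1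
  cyl : ¬M.pin a
  par : p.2 ∈ M.sys.Par
  O : p ∈ M.O c.1
  half : 1 / 2 ≤ p.2 a
  lng : (1 - p.2 a) / 2 ≤ r

variable {a : A} (h : Lk c p r a)
include h

theorem Lk.bnd : Bnd (M.gY a) (W.F m c p) (W.nj c a) (sig (p.2 a)) (fun _ => 1) (Ioo (-1) 1) where
  dim := (W.Z c).dim.trans (Mark.finrank_cyl a).symm
  op := isOpen_Ioo
  sm _ _ := (W.ld_nj (Mark.j_not_mem c (.inr h.fr))).contMDiffAt
  inj _ _ _ _ e := (M.bn a).oe.inj
    (W.inj (Mark.j_not_mem c (.inr h.fr)) (Mark.j_not_mem c (.inr h.fr)) e)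
  c0 _ _ := (contDiffAt_sig_right (.inl (h.O a h.fr))).continuousAt.continuousWithinAt
  c1 := continuousOn_const
  p0 _ _ := sig_pos (.inl (h.O a h.fr))
  p1 _ _ := one_pos
  co q hq := by
    have := W.neck' m (Mark.lt_of_br h.par h.fr h.half) (abs_lt.2 hq).le
      (by rw [Mark.tv_fr h.fr]; exact .inl (h.O a h.fr)) p.1
    rw [Mark.tv_fr h.fr, ← (W.L m c).F_e (Mark.mem_Ω _ h.O)] at this
    convert this using 3 with i
    cases i
    exacts [congrArg (· • _) (Mark.wt_none h.cyl _ _).symm,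
      congrArg (· • _) (Mark.wt_some h.cyl _ _ _).symm]

theorem Lk.sig_eq {s : ℝ} (hs : |s| ∈ Icc r (1 / 2)) : sig (p.2 a) s = |s| :=
  (sig_eq_sig_one h.half (h.lng.trans hs.1)).trans (sig_one hs.2)

theorem Lk.thin {cs : ℝ} (hc : YC M a cs) (hχ : Lg χ r δ) (b : Bool) : Thin (W.o c) (W.F m c p)
    ((fun z => χ (hb W.toCaps c a b z)) * fun z => χ (hb W.toCaps c a b z))
    (hb W.toCaps c a b ⁻¹' Icc r (1 / 2)) (cs * (2 * δ)) := by
  obtain ⟨h0, o, ho, hs, hc⟩ := hc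
  have nm := fun q => Mark.j_not_mem c (q := q) (.inr h.fr)
  have hl : Continuous fun s : ℝ => pm b * s := by fun_prop
  have ab : ∀ s, |pm b * s| = |s| := fun s => by rw [abs_mul, abs_pm, one_mul]
  have ab' : ∀ s, pm b * s ∈ Icc r (1 / 2) → |s| ∈ Icc r (1 / 2) := fun s hs => by
    rwa [← ab, abs_of_pos (hχ.r0.trans_le hs.1)]
  have l1 := (hχ.lc.comp hl).sq
  have t : tsupport (deriv ((fun s => χ (pm b * s)) * fun s => χ (pm b * s))) ⊆
      (fun s => pm b * s) ⁻¹' Icc r (1 / 2) := closure_minimal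
    (fun s hs => by_contra fun k => hs (l1.deriv k)) (isClosed_Icc.preimage hl)
  have t1 : ∀ s, pm b * s ∈ Icc r (1 / 2) → s ∈ Ioo (-1 : ℝ) 1 := fun s hs =>
    abs_lt.1 ((ab' s hs).2.trans_lt (by norm_num))
  have sχ : ContDiff ℝ ∞ fun s => χ (pm b * s) := hχ.sm.comp (contDiff_const.mul contDiff_id)
  have sg := hχ.sm.contMDiff.comp (sm_hb W.toCaps h.fr b)
  have ch := (sm_hb W.toCaps h.fr b).continuous
  have e : ∀ q : (M.bn a).Y.M × ℝ, q.2 ∈ Ioo (-1 : ℝ) 1 →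
      hb W.toCaps c a b (W.nj c a q) = pm b * q.2 := fun q hq =>
    congrArg _ (hZ_nj _ (.inr h.fr) (nm q) ((abs_lt.2 hq).le.trans (by norm_num)))
  have z := fun x k => Dr59.df_eq_zero (I := (W.Z c).I) ((hχ.lc.comp ch).sq x k)
  refine Loc8.thin (h.bnd W m) (M.bn a).Y.dim (M.gvol a) ((W.L m c).F_vol p) ho ⟨sg.mul sg, sχ.mul sχ,
    (isCompact_Icc (a := -1) (b := 1)).of_isClosed_subset (isClosed_tsupport _) fun s k =>
      Ioo_subset_Icc_self (t1 s (t k)), fun s k => t1 s (t k), fun q hq => by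
        simp only [Pi.mul_apply, e q hq], fun x hx => z x fun k => hx ?_⟩ (W.ori c)
    ((hs.mono (subset_univ _)).trans fun q _ => W.same_nj (nm q)) hc h0 (by linarith [hχ.d0])
    (fun s _ => ?_) ((cpt_band (h.bnd W m) (isCompact_Icc (a := -(1 / 2)) (b := 1 / 2))
      (Icc_subset_Ioo (by norm_num) (by norm_num))).of_isClosed_subset (isClosed_Icc.preimage ch) fun x k =>
        let ⟨_, _, hy⟩ := exists_of_hZ W.toCaps (.inr h.fr) ((ab' _ k).2.trans_lt (by norm_num))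
        ⟨_, ⟨trivial, abs_le.1 (ab' _ k).2⟩, hy⟩) ?_ z
  · obtain ⟨y, -, hy⟩ := exists_of_hZ W.toCaps (.inr h.fr) ((ab' _ k).2.trans_lt (by norm_num))
    exact ⟨_, ⟨trivial, t1 (hZ W.toCaps c a x) k⟩, hy⟩
  · change |deriv ((fun s => χ (pm b * s)) * fun s => χ (pm b * s)) s| * _ ≤ _
    by_cases k : pm b * s ∈ Icc r (1 / 2)
    swap
    · rw [l1.deriv k, abs_zero, zero_mul]; linarith [hχ.d0]
    have d : HasDerivAt (fun s => χ (pm b * s)) (deriv χ (pm b * s) * pm b) s :=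
      (hχ.sm.differentiable (by simp) _).hasDerivAt.comp s (by
        simpa using (hasDerivAt_id s).const_mul (pm b))
    have k1 := hχ.bd (pm b * s)
    have k2 := hχ.mem (pm b * s)
    rw [ab] at k1
    rw [(d.mul d).deriv, h.sig_eq (ab' s k), mul_comm (χ _), ← two_mul, abs_mul, abs_mul, abs_mul,
      abs_pm, abs_two, abs_of_nonneg k2.1]
    nlinarith [mul_le_mul k1 k2.2 k2.1 hχ.d0]
  · rintro _ ⟨q, hq, rfl⟩
    rw [mem_preimage, e q (t1 _ (t hq.2))]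
    exact t hq.2

variable {o : Option κ → Option κ → Option κ → Option κ → (W.Z c).M → ℝ} {O P : Set (W.Z c).M}
  {u : (W.Z c).M → Ext (W.Z c).E} {φ ψ : (W.Z c).M → ℝ}

/-- **LONG** -/
theorem Lk.long {e : X.M → Ext X.E} {k : ℕ} {C : ℝ} (he : Cs X.I k (M.sys.w a).band e)
    (hP : Pr (M.gY a) (M.oC a) (Dr59.pm (IC (M.bn a).Y.I) X.I (M.bn a).j e) C) (h0 : 0 ≤ C)
    (hχ : Lg χ r δ) (D : Den (W.F m c p) o O u φ ψ) (hO : W.φ c '' (M.sys.w a).band ⊆ O) (hs : O ⊆ P)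
    (hc : IsCompact P) :
    ip X.I M.o (pX W.toCaps c u) e ^ 2 * δ⁻¹ ≤ C * ∫ x in P, φ x ∂(W.F m c p).μ := by
  have nm := fun q => Mark.j_not_mem c (q := q) (.inr h.fr)
  obtain ⟨o, ho, -⟩ := exists_cy (M.gY a) (Mark.ori_oC a)
  have sb : ∀ s ∈ Icc r (1 / 2), s ∈ Ioo (-1 : ℝ) 1 := fun s hs =>
    ⟨by linarith [hχ.r0, hs.1], by linarith [hs.2]⟩
  have rg : range (W.nj c a) ⊆ O := range_subset_iff.2 fun q => hO ⟨_, ⟨q, rfl⟩, rfl⟩
  have k := Loc8.long (h.bnd W m) (M.bn a).Y.dim (M.gvol a) ((W.L m c).F_vol p) ho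
    (fun q => (W.ld_nj (nm q)).contMDiffAt) (Mark.ori_oC a) (cs_band he) hP h0 isCompact_Icc sb
    D.op rg D.cl
  rw [setIntegral_congr_fun (g := fun s => 1 / s) measurableSet_Icc fun s hs => by
      have := abs_of_pos (hχ.r0.trans_le hs.1)
      simp only [h.sig_eq (this.symm ▸ hs), this], integral_Icc_eq_integral_Ioc,
    ← intervalIntegral.integral_of_le hχ.r1, integral_one_div_of_pos hχ.r0 (by norm_num),
    funext fun q => W.pm_nj (nm q) u, ← ip_band he] at k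
  have k' := (image_subset_range (W.nj c a) (univ ×ˢ Icc r (1 / 2))).trans rg
  exact (mul_le_mul_of_nonneg_left hχ.len (sq_nonneg _)).trans (k.trans (mul_le_mul_of_nonneg_left
    (D.en_le hc (cpt_band (h.bnd W m) isCompact_Icc sb).measurableSet k' (k'.trans hs)) h0))

omit h in
/-- **LOC** -/
theorem exists_locZ {π ρ : Reg A} (hπ : M.sys.Piece c.1 π) (hk : IsCompact (W.pc c π)) (hρ : M.sys.IsReg ρ) {V : Set X.M}
    (hV : M.sys.U ρ ⊆ V) (hs : M.sys.U ρ ⊆ M.sys.U π)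
    (hF : OK (W.F m c p) o) (ho : SameOn (W.o c) (vol (W.F m c p) o) univ) {cs : A → ℝ}
    (hc : ∀ a, YC M a (cs a)) (hχ : Lg χ r δ) (D : Den (W.F m c p) o (oz W.toCaps c V) u φ ψ)
    (h0 : oz W.toCaps c V ⊆ W.pc c π) (hJ : ∀ a b, ρ a = some b → π a = some b ∨
      Lk c p r a ∧ Ex X.I (M.sys.w a).band (pX W.toCaps c u)) :
    ∃ v V', IsOpen V' ∧ V' \ ctr W.toCaps c = W.φ c '' M.sys.U ρ ∧ Cs (W.Z c).I 2 V' v ∧
      Ex (W.Z c).I V' (u - v) ∧ ip (W.Z c).I (W.o c) v v ≤ ∫ x in W.pc c π, ψ x ∂(W.F m c p).μ +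
        (∑ a, cs a) * (2 * δ) * ∫ x in W.pc c π, φ x ∂(W.F m c p).μ ∧
      -ip (W.Z c).I (W.o c) v v ≤ (∫ x in W.pc c π, φ x ∂(W.F m c p).μ) / 2 +
        (∑ a, cs a) * (2 * δ) * ∫ x in W.pc c π, φ x ∂(W.F m c p).μ := by
  classical
  let J : Finset (A × Bool) := {q | ρ q.1 = some q.2 ∧ π q.1 ≠ some q.2}
  have mJ : ∀ q ∈ J, ρ q.1 = some q.2 ∧ Lk c p r q.1 ∧
      Ex X.I (M.sys.w q.1).band (pX W.toCaps c u) := fun q hq =>
    have k := (Finset.mem_filter.1 hq).2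
    ⟨k.1, (hJ _ _ k.1).resolve_left k.2⟩
  have fr := fun q hq => (mJ q hq).2.1.fr
  have inj : ∀ q ∈ J, ∀ q' ∈ J, q.1 = q'.1 → q = q' := fun q hq q' hq' e => Prod.ext e
    (Option.some.inj ((mJ q hq).1.symm.trans (e ▸ (mJ q' hq').1)))
  let h : A × Bool → (W.Z c).M → ℝ := fun q => hb W.toCaps c q.1 q.2
  have ch : ∀ q ∈ J, Continuous (h q) := fun q hq => (sm_hb _ (fr q hq) _).continuous
  have far : ∀ q ∈ J, ∀ z, 0 < h q z → z ∉ W.φ c '' (M.sys.w q.1).band → 3 ≤ h q z :=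
    fun q hq z k k' => not_lt.1 fun k3 =>
      let ⟨x, x1, _, x2⟩ := exists_of_hb _ (fr q hq) (by rwa [abs_of_pos k]); k' ⟨x, x1, x2⟩
  have dj : (J : Set (A × Bool)).Pairwise (Disjoint on fun q => W.φ c '' (M.sys.w q.1).band) :=
    fun q hq q' hq' e => disjoint_image_image fun x hx y hy e' => Mark.not_cmp hx
      (W.inj (Mark.fr_not_mem (fr q hq) hx) (Mark.fr_not_mem (fr q' hq') hy) e' ▸ hy)
      (hρ.cell (Sys.mem_bd_of (mJ q hq).1) (Sys.mem_bd_of (mJ q' hq').1) fun k => e (inj q hq q' hq' k))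
  have hK : ∀ q ∈ J, ∀ z ∈ h q ⁻¹' Icc r (1 / 2),
      z ∈ W.φ c '' (M.sys.w q.1).band ∧ z ∈ W.pc c π ∧ ∀ q' ∈ J, 0 < h q' z := fun q hq z hz => by
    have k := hχ.r0.trans_le hz.1
    obtain ⟨x, x1, x2, rfl⟩ := exists_of_hb _ (fr q hq) (b := q.2) (z := z)
      (by rw [abs_of_pos k]; linarith [hz.2])
    have x3 := hρ.adj _ _ (mJ q hq).1 ⟨x1, (hb_pos _ (fr q hq) x2).1 k⟩
    exact ⟨⟨x, x1, rfl⟩, (φ_mem_pc _ hπ x2).2 (hs x3), fun q' hq' =>
      (hb_pos _ (fr q' hq') x2).2 (x3 _ _ (mJ q' hq').1)⟩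
  have hK' : ∀ q ∈ J, ∀ q' ∈ J, q ≠ q' → ∀ z ∈ h q ⁻¹' Icc r (1 / 2), 3 ≤ h q' z :=
    fun q hq q' hq' e z hz => far q' hq' z ((hK q hq z hz).2.2 q' hq')
      (disjoint_left.1 (dj hq hq' e) (hK q hq z hz).1)
  have one : ∀ s, 3 ≤ s → χ s = 1 := fun s k => hχ.hi s (by linarith)
  have T := (Thin.prod (W.ori c) J (fun q hq => (mJ q hq).2.1.thin W m (hc _) hχ q.2)
    fun q hq q' hq' e z hz => (congrArg₂ _ (one _ (hK' q hq q' hq' e z hz))
      (one _ (hK' q hq q' hq' e z hz))).trans (mul_one _)).ori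
    hF.ori ho
  rw [Finset.prod_mul_distrib] at T
  have op : ∀ q ∈ J, IsOpen (W.φ c '' (M.sys.w q.1).band) := fun q hq =>
    Dr59.pd_open _ (M.sys.w q.1).op_band (band_src _ (fr q hq))
  have oV := (isOpen_pc W.toCaps hπ).inter (isOpen_biInter_finset fun q hq =>
    (isOpen_Ioi (a := 0)).preimage (ch q hq))
  have dV : (W.pc c π ∩ ⋂ q ∈ J, h q ⁻¹' Ioi 0) \ ctr W.toCaps c = W.φ c '' M.sys.U ρ := by
    refine diff_ctr _ (hs.trans (U_src _ hπ)) fun x hx => ?_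
    rw [mem_inter_iff, φ_mem_pc _ hπ hx, mem_iInter₂]
    refine ⟨fun k a b e => ?_, fun k => ⟨hs k, fun q hq =>
      (hb_pos _ (fr q hq) hx).2 (k _ _ (mJ q hq).1)⟩⟩
    by_cases e' : π a = some b
    · exact k.1 a b e'
    · have hq : (a, b) ∈ J := Finset.mem_filter.2 ⟨Finset.mem_univ _, e, e'⟩
      exact (hb_pos _ (fr _ hq) hx).1 (k.2 _ hq)
  have sV := sub_oz W.toCaps oV (dV.subset.trans (image_mono hV))
  have sC : W.pc c π ∩ ⋂ q ∈ J, h q ⁻¹' Ici r ⊆ W.pc c π ∩ ⋂ q ∈ J, h q ⁻¹' Ioi 0 :=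
    inter_subset_inter_right _ (iInter₂_mono fun q _ z hz => hχ.r0.trans_le hz)
  obtain ⟨v, v1, v2, v3, v4⟩ := exists_loc (P := W.pc c π)
    (V := W.pc c π ∩ ⋂ q ∈ J, h q ⁻¹' Ioi 0) hk hF T
    (by
      rw [Finset.prod_fn]
      exact contMDiff_finsetProd fun q hq => hχ.sm.contMDiff.comp (sm_hb _ (fr q hq) q.2))
    (Lc.prod fun q hq => hχ.lc.comp (ch q hq))
    (fun z => by
      rw [Finset.prod_apply]
      exact ⟨Finset.prod_nonneg fun _ _ => (hχ.mem _).1,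
        Finset.prod_le_one (fun _ _ => (hχ.mem _).1) fun _ _ => (hχ.mem _).2⟩)
    (isOpen_biUnion op) (iUnion₂_mono fun q hq z hz => (hK q hq z hz).1) D
    (ex_biUnion J.finite_toSet op dj fun q hq =>
      Dr59.ex_pd _ (M.sys.w q.1).op_band (band_src _ (fr q hq)) (mJ q hq).2.2)
    (fun z hz hz' => by
      rw [Finset.prod_apply]
      exact Finset.prod_eq_one fun q hq => one _
        (far q hq z (mem_iInter₂.1 hz.2 q hq) fun k => hz' (mem_biUnion hq k)))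
    ((isClopen_pc _ hπ).1.inter (isClosed_biInter fun q hq => isClosed_Ici.preimage (ch q hq)))
    (iUnion₂_subset fun q hq z hz => ⟨(hK q hq z hz).2.1, mem_iInter₂.2 fun q' hq' => by
      by_cases e : q = q'
      · exact e ▸ hz.1
      · exact le_trans (by linarith [hχ.r1]) (hK' q hq q' hq' e z hz)⟩) (sC.trans sV) inter_subset_left
    fun z k hz => by
      obtain ⟨q, hq, k⟩ : ∃ q ∈ J, h q z < r := by_contra fun k' =>
        hz ⟨h0 k, mem_iInter₂.2 fun q hq => not_lt.1 fun e => k' ⟨q, hq, e⟩⟩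
      rw [Finset.prod_apply, Finset.prod_eq_zero hq (hχ.lo _ k.le)]
  have le : (∑ q ∈ J, cs q.1 * (2 * δ)) * ∫ x in W.pc c π, φ x ∂(W.F m c p).μ ≤
      (∑ a, cs a) * (2 * δ) * ∫ x in W.pc c π, φ x ∂(W.F m c p).μ := by
    refine mul_le_mul_of_nonneg_right ?_ (integral_nonneg D.p1)
    rw [← Finset.sum_mul, ← Finset.sum_image (g := Prod.fst) (f := cs) inj]
    exact mul_le_mul_of_nonneg_right (Finset.sum_le_sum_of_subset_of_nonneg (Finset.subset_univ _)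
      fun a _ _ => (hc a).1) (by linarith [hχ.d0])
  rw [← v1.ip_ori (W.ori c) hF.ori (ho.mono (subset_univ _))] at v3 v4
  exact ⟨v, _, oV, dV, v1.mono sC, v2, by linarith, by linarith⟩

end Crest.Agent.X212.Loc8
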