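import Crest.Agent.X212.Dfl49.Sur

/-!
# Row 212, LOC (helper8): trivial cocycles give extension of sections from a point
-/

set_option autoImplicit false
noncomputable section
open Set Filter Topology

namespace Crest.Agent.X212.Loc8
open Dfl49 Lev33

theorem sur_of_h1 {X : Type} [TopologicalSpace X] [LocallyConnectedSpace X] {S : Set X} {x₀ : X}
    (hS : IsOpen S) (hc : IsPreconnected S) (h : ∀ (G : Type) [Group G], Hz56.H1 G S) (hx : x₀ ∈ S) :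
    Sur {x₀} S := fun F Gd k s hs => by
  classical
  have cn : ∀ x, ∀ W ∈ 𝓝 x, ∃ V ∈ 𝓝 x, IsPreconnected V ∧ V ⊆ W :=
    locallyConnectedSpace_iff_connected_subsets.1 ‹_›
  have a : ∀ x ∈ S, ∃ W ∈ 𝓝 x, IsOpen W ∧ IsPreconnected W ∧ W ⊆ S ∧
      ∀ y ∈ W, ∀ s, Gd y s → ∃ s', (∀ z ∈ W, Gd z s') ∧ s' y = s y := fun x hx => by
    obtain ⟨W, hW, hl⟩ := k.loc x hx
    obtain ⟨V, ⟨h1, h2, h3⟩, h4⟩ := (LocallyConnectedSpace.open_connected_basis x).mem_iff.1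
      (inter_mem hW (hS.mem_nhds hx))
    exact ⟨V, h1.mem_nhds h2, h1, h3.isPreconnected, fun z hz => (h4 hz).2, fun y hy s hs =>
      (hl y (h4 hy).1 s hs).imp fun _ h => ⟨fun z hz => h.1 z (h4 hz).1, h.2⟩⟩
  choose! W w1 w0 w2 w3 w4 using a
  let St (x : X) := {v : F // ∃ s, Gd x s ∧ s x = v}
  have tr : ∀ x ∈ S, ∀ y ∈ W x, ∀ z ∈ W x, ∃ f : St y → St z,
      ∀ t, (∀ u ∈ W x, Gd u t) → ∀ v : St y, v.1 = t y → (f v).1 = t z := fun x hx y hy z hz => by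
    choose t t1 t2 using fun v : St y => w4 x hx y hy _ v.2.choose_spec.1
    exact ⟨fun v => ⟨t v z, _, t1 v z hz, rfl⟩, fun t' ht v e => k.eqOn (w2 x hx) (w3 x hx) (t1 v) ht hy
      ((t2 v).trans (v.2.choose_spec.2.trans e)) hz⟩
  have ex : ∀ x ∈ S, ∀ y ∈ W x, ∀ v : St y, ∃ t, (∀ u ∈ W x, Gd u t) ∧ v.1 = t y :=
    fun x hx y hy v => (w4 x hx y hy _ v.2.choose_spec.1).imp fun _ h =>
      ⟨h.1, (h.2.trans v.2.choose_spec.2).symm⟩
  have me := fun x hx => mem_of_mem_nhds (w1 x hx)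
  have eq : ∀ x ∈ S, ∀ y ∈ W x, ∃ f : St x ≃ St y,
      ∀ t, (∀ u ∈ W x, Gd u t) → ∀ v : St x, v.1 = t x → (f v).1 = t y := fun x hx y hy => by
    obtain ⟨f, hf⟩ := tr x hx x (me x hx) y hy
    obtain ⟨g, hg⟩ := tr x hx y hy x (me x hx)
    refine ⟨⟨f, g, fun v => ?_, fun v => ?_⟩, hf⟩
    · obtain ⟨t, t1, t2⟩ := ex x hx x (me x hx) v
      exact Subtype.ext ((hg t t1 _ (hf t t1 v t2)).trans t2.symm)
    · obtain ⟨t, t1, t2⟩ := ex x hx y hy v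
      exact Subtype.ext ((hf t t1 _ (hg t t1 v t2)).trans t2.symm)
  choose τ hτ using eq
  have w5 := fun x hx => mem_nhdsWithin_of_mem_nhds (t := S) (w1 x hx)
  obtain ⟨e⟩ : Nonempty (∀ x ∈ S, St x ≃ St x₀) := ⟨fun x hx => (Cardinal.eq.1
    (LCo.eq (f := fun x => Cardinal.mk (St x)) (fun x hx => mem_of_superset (w5 x hx) fun y hy =>
      (Cardinal.mk_congr (τ x hx y hy)).symm) hc hx ‹_›)).some⟩
  let c (x y : X) : Equiv.Perm (St x₀) := if h : x ∈ S ∧ y ∈ W x then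
    (e y (w3 x h.1 h.2)).symm.trans ((τ x h.1 y h.2).symm.trans (e x h.1)) else 1
  obtain ⟨b, hb⟩ := h _ c fun x hx => mem_of_superset (w5 x hx) fun y hy => by
    have hy' := w3 x hx hy
    obtain ⟨V, v1, v2, v3⟩ := cn y _ (inter_mem ((w0 x hx).mem_nhds hy) (w1 y hy'))
    filter_upwards [mem_nhdsWithin_of_mem_nhds v1] with z hz
    have : τ x hx z (v3 hz).1 = (τ x hx y hy).trans (τ y hy' z (v3 hz).2) := Equiv.ext fun v => by
      obtain ⟨t, t1, t2⟩ := ex x hx x (me x hx) v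
      obtain ⟨t', s1, s2⟩ := ex y hy' y (me y hy') (τ x hx y hy v)
      exact Subtype.ext ((hτ x hx z _ t t1 v t2).trans ((k.eqOn v2 (fun u hu => w3 x hx (v3 hu).1)
        (fun u hu => t1 u (v3 hu).1) (fun u hu => s1 u (v3 hu).2) (mem_of_mem_nhds v1)
        ((hτ x hx y hy t t1 v t2).symm.trans s2) hz).trans (hτ y hy' z _ t' s1 _ s2).symm))
    ext v
    simp [c, hx, hy, hy', (v3 hz).1, (v3 hz).2, this]
  let u := b x₀ (e x₀ hx ⟨s x₀, s, hs x₀ rfl, rfl⟩)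
  refine ⟨fun y => if h : y ∈ S then ((e y h).symm ((b y)⁻¹ u)).1 else s y, fun x hx => ?_, ?_⟩
  · obtain ⟨t, t1, t2⟩ := ex x hx x (me x hx) ((e x hx).symm ((b x)⁻¹ u))
    refine k.germ x t _ (t1 x (me x hx)) ?_
    filter_upwards [hS.nhdsWithin_eq hx ▸ hb x hx, w1 x hx] with y h1 h2
    rw [dif_pos (w3 x hx h2), ← hτ x hx y h2 t t1 _ t2, h1]
    simp [c, hx, h2, Equiv.Perm.inv_def]
  · rintro _ rfl
    simp [hx, u]

end Crest.Agent.X212.Loc8
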