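import Crest.Agent.X212.Loc8.Chr
import Crest.Agent.X212.Pj41.Cm

/-!
# Row 212, LOC (helper8): characteristic elements of reductions, for relative lines
-/

set_option autoImplicit false
set_option linter.unusedSectionVars false
noncomputable section
open scoped Manifold ContDiff Topology InnerProductSpace Matrix
open Finset Filter MeasureTheory Module
open Crest.Agent.R208.F (Ext)

namespace Crest.Agent.X212.Loc8
open An Wz78 Sob92 Ind95 Map77 Idg99
open Num57 (OK k2)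
open Abel74 (fm)
open Line51 (Ln iL)

variable {E : Type} [NormedAddCommGroup E] [NormedSpace ℝ E] [FiniteDimensional ℝ E]
  [MeasurableSpace E] [BorelSpace E]
  {HM : Type} [TopologicalSpace HM] {I : ModelWithCorners ℝ E HM} [I.Boundaryless]
  {M : Type} [TopologicalSpace M] [ChartedSpace HM M] [IsManifold I ∞ M]
  [MeasurableSpace M] [BorelSpace M] [SecondCountableTopology M] [T2Space M] {ι : Type} [Fintype ι]
  {F : Fr I M ι} {o : ι → ι → ι → ι → M → ℝ} {O K : Set M}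

section res
variable {Y : Type} [NormedAddCommGroup Y] [InnerProductSpace ℝ Y] [FiniteDimensional ℝ Y]
  {l : M → Y →L[ℝ] Y} {il l₀ : Y →L[ℝ] Y} {A A' : ι → M → Y →L[ℝ] Y} {f f' : ι → ι → M → ℝ}
  {lam : Type} [Fintype lam] {m : Md M ι lam} {B : Base M ι lam} {G : Geo I M ι lam}
  {V : m.Cn} {ξ : M → m.A} {P : Set M}
open Pj41

theorem li_res (L : Li F l il A f) (U : TopologicalSpace.Opens M) :
    Li (resF U F) (fun x => l x) il (fun a x => A a x) fun a b x => f a b x :=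
  have r := cmF_rel (Cyl58.isOE_val (IA := I) U).loc F
  ⟨⟨⟨fun a x => r.sm trivial (L.sub.con.sm a x), fun a x => L.sub.con.proj a x⟩, fun a x => L.sub.sk a x,
      fun x => r.sm trivial (L.sub.sm x), fun a x => (congrArg (· + _)
        (r.D trivial a (.of_forall fun _ => rfl))).trans (L.sub.par a x)⟩,
    fun x => L.sym x, fun x => L.idem x, fun x => L.rk x, L.sq, L.sk, fun x => L.ill x, fun a x => L.ilA a x,
    fun a b x => (congrArg (· * _) (r.curv trivial (fun _ => .of_forall fun _ => rfl) a b)).trans (L.cur a b x)⟩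

/-- `Rd.char` on a compact component -/
theorem Rd.charP (R : Rd G.F m V O ξ) (hB : B.OK I) (hG : G.OK B) (H : m.OK I B)
    (C : m.IsConn B G V) (h4 : finrank ℝ E = 4) (L : Li G.F l il A f)
    (L1 : Li G.F (fun _ => l₀) il A' f') (hK : IsClosed K) (hO : K ⊆ O)
    (h0 : ∀ x, x ∉ K → l x = l₀ ∧ ∀ a, A a x = 0) (hP : IsOpen P) (hc : IsCompact P) (hs : O ⊆ P) :
    ∃ n : ℤ, ∫ x, (wf B.o f f x + wf B.o f
      (fun a b x => fl B G a b x + 2 * Abel74.fF G.F m V ξ a b x) x) / (16 * Real.pi ^ 2) ∂G.F.μ =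
      2 * (n : ℝ) := by
  let U : TopologicalSpace.Opens M := ⟨P, hP⟩
  have : CompactSpace U := isCompact_iff_compactSpace.1 hc
  have e := Cyl58.isOE_val (IA := I) U
  have r := cmF_rel e.loc G.F
  have R' : Rd (resG U G).F (cmM Subtype.val m) (fun a x => V a x) (Subtype.val ⁻¹' O) fun x => ξ x :=
    ⟨⟨fun x hx => r.sm trivial (R.sm x hx), fun x hx => R.mem x hx, fun x hx => R.sq x hx,
      fun x hx a => (r.nab trivial a rfl (.of_forall fun _ => rfl)).trans (R.par x hx a)⟩,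
      R.op.preimage continuous_subtype_val, fun x hx => R.off x hx⟩
  refine (R'.char (res_ok U hB hG).1 (res_ok U hB hG).2 (cmM_ok contMDiff_subtype_val H) (cmM_conn e.loc H C) h4
    (li_res L U) (li_res L1 U) (hK.preimage continuous_subtype_val) (Set.preimage_mono hO)
    fun x hx => h0 x hx).imp fun n hn => Eq.trans ?_ hn
  rw [← setIntegral_eq_integral_of_forall_compl_eq_zero (s := Set.range (Subtype.val : U → M)) fun x hx => by
    simp [wf, c4, f_off L hK (fun x hx => (h0 x hx).2) fun k => hx ⟨⟨x, hs (hO k)⟩, rfl⟩],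
    ← cmF_integral e hG.vol]
  refine congrArg _ (_root_.funext fun x => ?_)
  have e1 : ∀ a b, fl (cmB Subtype.val B) (resG U G) a b x = fl B G a b x := fun a b => by
    have := r.curv (x := x) trivial (A := (resG U G).a) (A' := G.a) (fun _ => .of_forall fun _ => rfl) a b
    unfold fl fL
    exact this ▸ rfl
  have e2 : ∀ a b, Abel74.fF (resG U G).F (cmM Subtype.val m) (fun a x => V a x) (fun x => ξ x) a b x =
      Abel74.fF G.F m V ξ a b x := fun a b => congrArg (fun T : Fm (ι × ι) m.A => ⟪T (a, b), ξ x⟫_ℝ / 16)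
    (r.Fg trivial V)
  simp only [wf, e1, e2]

end res

theorem li_c {κ : Type} [Fintype κ] [DecidableEq κ] {p₀ : Matrix κ κ ℂ} (h : OK F o)
    (p1 : Pj41.Prj p₀) (p2 : p₀.trace = 1) : ∃ A f, Li F (fun _ => Line51.rl p₀) (iL κ) A f :=
  ⟨_, _, li_ln (L := ⟨fun _ => p₀, 0⟩) h (on_const p1 p2 _)⟩

theorem A_off {κ : Type} [Fintype κ] [DecidableEq κ] {p₀ : Matrix κ κ ℂ} {L : Ln E M κ}
    (hK : IsClosed K) (h2 : ∀ x, x ∉ K → L.p x = p₀ ∧ L.a x = 0) (x : M) (hx : x ∉ K) :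
    L.l x = Line51.rl p₀ ∧ ∀ a, L.A I F.e a x = 0 :=
  ⟨congrArg Line51.rl (h2 x hx).1, fun a => by
    rw [Line51.A_congr (L := ⟨fun _ => p₀, 0⟩) (mem_of_superset (hK.isOpen_compl.mem_nhds hx)
      fun y hy => (h2 y hy).1) (h2 x hx).2]
    have e : ∀ v, Line51.dm I (fun _ : M => p₀) x v = 0 := fun v => by ext i j; simp [Line51.dm]
    simp [Ln.A, Line51.Ln.cm_apply, e, Num57.e1_eq]⟩

theorem Rd.char_ln {κ : Type} [Fintype κ] [DecidableEq κ] {Λ : Ln E M κ}
    {P : ι → ι → M → ℝ} {m : Md M ι (κ ⊕ κ)} {V : m.Cn} {ξ : M → m.A} (R : Rd F m V O ξ)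
    (hΛ : Λ.On I Set.univ) (hB : (Λ.base P o).OK I) (hG : (Λ.geo F).OK (Λ.base P o))
    (H : m.OK I (Λ.base P o)) (C : m.IsConn (Λ.base P o) (Λ.geo F) V) (h4 : finrank ℝ E = 4)
    {a : M → Ext E} (ha : RL I K a) (hK : IsClosed K) (hO : K ⊆ O) {Q : Set M} (hQ : IsOpen Q)
    (hc : IsCompact Q) (hs : O ⊆ Q) : ∃ n : ℤ,
      Dr59.ip I (Num57.vol F o) a (a + (Λ.F I + (2 : ℝ) • fm F m V ξ)) = 2 * n * (2 * Real.pi) ^ 2 := by
  classical
  obtain ⟨κ', _, L, p₀, h1, p1, p2, h2, rfl⟩ := ha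
  have h : OK F o := OK.of_base h4 hB hG
  obtain ⟨A', f', L1⟩ := li_c h p1 p2
  obtain ⟨n, hn⟩ := Rd.charP (G := Λ.geo F) R hB hG H C h4 (li_ln h h1) L1 hK hO (A_off hK h2) hQ hc hs
  refine ⟨n, ?_⟩
  have e := fl_ln (P := P) h hΛ hG.P
  rw [e, integral_div, div_eq_iff (by positivity)] at hn
  have e2 : ∀ x, wf o (k2 F (L.F I)) (k2 F (L.F I + (Λ.F I + (2 : ℝ) • fm F m V ξ))) x =
      wf o (k2 F (L.F I)) (k2 F (L.F I)) x + wf o (k2 F (L.F I))
        (fun a b x => k2 F (Λ.F I) a b x + 2 * Abel74.fF F m V ξ a b x) x := fun x => by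
    rw [← wf_add]
    exact wf_congr fun a b => by
      rw [Num57.k2_add, Num57.k2_add, Num57.k2_smul]
      exact congrArg (fun t => _ + (_ + 2 * t)) (Abel74.k2_fm hG C a b x)
  have e3 : Dr59.ip I (Num57.vol F o) (L.F I) (L.F I + (Λ.F I + (2 : ℝ) • fm F m V ξ)) =
      1 / 4 * ∫ x, wf o (k2 F (L.F I)) (k2 F (L.F I + (Λ.F I + (2 : ℝ) • fm F m V ξ))) x ∂F.μ :=
    Abel74.integ_mul h (h1.cl_F isOpen_univ).dg _
  rw [e3, _root_.funext e2]
  exact (congrArg (1 / 4 * ·) hn).trans (by ring)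

end Crest.Agent.X212.Loc8
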