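import Crest.Agent.X212.Loc8.Wld
import Crest.Agent.X212.Loc8.Chl
import Crest.Agent.X212.Loc8.Sc
import Crest.Agent.X212.Num57.Nb

/-!
# Row 212, AB-RED (helper8): the class of an abelian point
-/

set_option autoImplicit false
set_option linter.unusedSectionVars false
noncomputable section
open scoped Manifold ContDiff Topology InnerProductSpace Matrix
open MeasureTheory Function Filter Set Module
open Crest.Agent.R208.F (Ext)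

namespace Crest.Agent.X212.Loc8
open An Int54 Qab60 M Cyl58 Cht98 G75
open Num57 hiding c1 c2
open Dr59 (Cl Ex Cs ip Lat psh)
open Line51 (Ln)
open Abel74 (fm)
open Dfl49 (Sur)
open Cyf70 (IC)

section gen
variable {E : Type} [NormedAddCommGroup E] [NormedSpace ℝ E] [FiniteDimensional ℝ E]
  [MeasurableSpace E] [BorelSpace E]
  {H : Type} [TopologicalSpace H] {I : ModelWithCorners ℝ E H} [I.Boundaryless]
  {N : Type} [TopologicalSpace N] [ChartedSpace H N] [IsManifold I ∞ N]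
  [MeasurableSpace N] [BorelSpace N] [SecondCountableTopology N] [T2Space N]
  {ι lam : Type} [Fintype ι] [Fintype lam] {B : Base N ι lam} {G : Geo I N ι lam} {m : Md N ι lam}
  {V : m.Cn} {O P : Set N} {ξ : N → m.A}
  (hB : B.OK I) (hG : G.OK B) (hm : m.OK I B) (hV : m.IsConn B G V)

include hB hG hm hV

theorem cont_Fg : Continuous (m.Fg G.F V) := (PiLp.continuous_toLp 2 _).comp
  (continuous_pi fun s => (Wz78.sm_Fg hG hV (Std94.sm_pg hB hm) s).continuous)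

theorem cont_F2 : Continuous fun z => ‖m.Fg G.F V z‖ ^ 2 := (cont_Fg hB hG hm hV).norm.pow 2

theorem cont_p2 : Continuous fun z => ‖m.p2 B z (m.Fg G.F V z)‖ ^ 2 :=
  ((Std94.sm_p2 hB hm).continuous.clm_apply (cont_Fg hB hG hm hV)).norm.pow 2

theorem Rd.den (R : Rd G.F m V O ξ) : Den G.F B.o O ((2 : ℝ) • fm G.F m V ξ)
    (fun z => ‖m.Fg G.F V z‖ ^ 2 / 4) fun z => ‖m.p2 B z (m.Fg G.F V z)‖ ^ 2 / 4 :=
  ⟨R.op, (R.cl_fm hG hV).smul 2, fun z hz => by rw [Pi.smul_apply, R.fm_off hz, smul_zero],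
    (cont_F2 hB hG hm hV).div_const 4, (cont_p2 hB hG hm hV).div_const 4, fun _ => by positivity,
    fun _ => by positivity, fun _ => R.norm_Fg hB hG hm hV, fun _ => R.norm_p2 hB hG hm hV⟩

omit hm in
theorem kd_int (i1 : IntegrableOn (fun z => ‖m.Fg G.F V z‖ ^ 2) P G.F.μ)
    (i2 : IntegrableOn (fun z => ‖m.p2 B z (m.Fg G.F V z)‖ ^ 2) P G.F.μ) :
    128 * Real.pi ^ 2 * ∫ z in P, m.kd B G.F V z ∂G.F.μ = ∫ z in P, ‖m.Fg G.F V z‖ ^ 2 ∂G.F.μ -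
      2 * ∫ z in P, ‖m.p2 B z (m.Fg G.F V z)‖ ^ 2 ∂G.F.μ := by
  rw [← integral_const_mul, ← integral_const_mul, ← integral_sub i1 (i2.const_mul 2)]
  exact congrArg _ (funext fun z => by rw [Wz78.norm_Fg_sq hG hV hB]; ring)

theorem Rd.lev (R : Rd G.F m V O ξ) (hF : OK G.F B.o) (hc : IsCompact O) :
    Cs I 2 O ((2 : ℝ) • fm G.F m V ξ) ∧ ip I (vol G.F B.o) ((2 : ℝ) • fm G.F m V ξ)
      ((2 : ℝ) • fm G.F m V ξ) = -(16 * Real.pi ^ 2) * ∫ z in O, m.kd B G.F V z ∂G.F.μ := by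
  have D := R.den hB hG hm hV
  generalize (2 : ℝ) • fm G.F m V ξ = u at D
  have k := Dr59.cs_indicator D.op D.cl hc subset_rfl fun z h h' => (h' h).elim
  rw [indicator_eq_self.2 (support_subset_iff'.2 D.off)] at k
  refine ⟨k, ?_⟩
  rw [ip, ← one_smul (N → ℝ) (u * u), integ_sq hF 1 fun z _ => D.dg z, ← integral_const_mul,
    ← setIntegral_eq_integral_of_forall_compl_eq_zero (s := O) fun z hz => by
      simp [c2_of_zero (D.off z hz)]]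
  refine setIntegral_congr_fun D.op.measurableSet fun z hz => ?_
  simp only [D.e1 z hz, D.e2 z hz, Wz78.norm_Fg_sq hG hV hB, Pi.one_apply]
  ring

end gen

variable {X : Mf 4} {A κ lam : Type} [Fintype A] [Fintype κ] [Fintype lam] [DecidableEq lam]
  {M : Mark X A κ}

variable (M) in
/-- windows: subregions of the piece `π` cut at frozen necks on which `w` is exact -/
structure Win (π : Reg A) (fz : Set A) (O : Set X.M) (w : X.M → Ext X.E) (ρ : Reg A) : Prop where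
  reg : M.sys.IsReg ρ
  sub : M.sys.U ρ ⊆ O
  bd : ∀ a b, ρ a = some b → π a = some b ∨ a ∈ fz ∧ Ex X.I (M.sys.w a).band w

/-- `w` is the class of an abelian point of level `k`, up to the error `η` -/
structure Cls (N : ML M lam) (π : Reg A) (fz : Set A) (O : Set X.M) (E0 : Set (X.M → Ext X.E)) (η : ℝ)
    (w : X.M → Ext X.E) (k : ℝ) : Prop where
  cl : Cl X.I 2 O w
  pos : 0 ≤ k
  chr : ∀ K a, IsCompact K → K ⊆ O → RL X.I K a → ∃ n : ℤ,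
    ip X.I M.o (Ln.F X.I ⟨N.p, 0⟩ + w) a + ip X.I M.o a a = 2 * n * (2 * Real.pi) ^ 2
  long : ∀ e ∈ E0, ip X.I M.o w e ^ 2 ≤ η
  loc : ∀ ρ, Win M π fz O w ρ → ∀ (ι : Type) [Fintype ι] [DecidableEq ι] K (e : ι → X.M → Ext X.E) G,
    Lat X.I M.o (M.sys.U ρ) K e G →
      isq X.I M.o e G w w ≤ η ∧ -isq X.I M.o e G w w / (4 * (2 * Real.pi) ^ 2) - η ≤ k
  lev : M.sys.U π ⊆ O → ∀ (ι : Type) [Fintype ι] [DecidableEq ι] K (e : ι → X.M → Ext X.E) G,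
    Lat X.I M.o (M.sys.U π) K e G → k = -isq X.I M.o e G w w / (4 * (2 * Real.pi) ^ 2)

/-- the same, with the error `η'` in the level -/
structure Cl2 (N : ML M lam) (π : Reg A) (fz : Set A) (O : Set X.M) (E0 : Set (X.M → Ext X.E)) (η η' : ℝ)
    (w : X.M → Ext X.E) (k : ℝ) : Prop where
  cl : Cl X.I 2 O w
  pos : 0 ≤ k
  chr : ∀ K a, IsCompact K → K ⊆ O → RL X.I K a → ∃ n : ℤ,
    ip X.I M.o (Ln.F X.I ⟨N.p, 0⟩ + w) a + ip X.I M.o a a = 2 * n * (2 * Real.pi) ^ 2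
  long : ∀ e ∈ E0, ip X.I M.o w e ^ 2 ≤ η
  loc : ∀ ρ, Win M π fz O w ρ → ∀ (ι : Type) [Fintype ι] [DecidableEq ι] K (e : ι → X.M → Ext X.E) G,
    Lat X.I M.o (M.sys.U ρ) K e G →
      isq X.I M.o e G w w ≤ η ∧ -isq X.I M.o e G w w / (4 * (2 * Real.pi) ^ 2) - η ≤ k
  lev : M.sys.U π ⊆ O → ∀ (ι : Type) [Fintype ι] [DecidableEq ι] K (e : ι → X.M → Ext X.E) G,
    Lat X.I M.o (M.sys.U π) K e G → |k + isq X.I M.o e G w w / (4 * (2 * Real.pi) ^ 2)| ≤ η'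

variable {N : ML M lam} {π : Reg A} {fz c₀ : Set A} {O : Set X.M} {E0 : Set (X.M → Ext X.E)} {η : ℝ}
  {x₀ : X.M}

/-- the curvature of the line on `Z c` -/
theorem ex_line {W : World M} (Λ : Lns W N) (m : M.Cl) {c : M.Cl} {p : Prm A} (hp : p ∈ M.Br c.1) :
    Ex X.I (W.φ c).source (pX W.toCaps c (((Λ.Λ m c).ln p).F (W.Z c).I) - Ln.F X.I ⟨N.p, 0⟩) := by
  have o := (W.φ c).open_source
  have mp : Dr59.Mp X.I (W.Z c).I (W.φ c).source univ (W.φ c) := ⟨fun x hx =>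
    (W.φ c).contMDiffOn_toFun.contMDiffAt (o.mem_nhds hx), mapsTo_univ _ _⟩
  have h1 := (Λ.Λ m c).ln_on p
  exact (Line51.Uni.ex_F (L := ⟨N.p, 0⟩) o (Λ.iso m c p hp).toUni (N.ok.mono (subset_univ _))
    (h1.pull mp)).congr fun x hx => by
      rw [Pi.sub_apply, Pi.sub_apply, h1.F_pull isOpen_univ o mp hx]

/-- **the class of an abelian point** -/
theorem coreP (N : ML M lam) (hc : ∀ a ∈ Sys.bd π, M.pin a) (hz : ∀ a ∈ fz, ¬M.pin a)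
    (hO : IsOpen O) (hs : O ⊆ M.sys.U π) (hE : E0.Finite)
    (hE' : ∀ e ∈ E0, ∃ a ∈ fz, (M.sys.w a).band ⊆ O ∧ Cs X.I 2 (M.sys.w a).band e) (hη : 0 < η) (k₀ : ℝ) :
    ∃ ε : ℝ, 0 < ε ∧ ∃ T₀ < (1 : ℝ), ∀ (W : World M) (Λ : Lns W N) (m c : M.Cl) (p : Prm A),
      M.sys.Piece c.1 π → p.2 ∈ M.sys.Par → Sys.inf p.2 = c.1 → (∀ a ∈ fz, T₀ ≤ p.2 a) →
      ∀ x : Cfg (W.Z c).M (Option κ) (lam ⊕ lam) 0, x.Adm (Λ.B m c) (Λ.G m c p) →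
      (∃ ξ, Rd (Λ.G m c p).F x.m x.W (oz W.toCaps c O) ξ) → ∀ k η' : ℝ, 0 ≤ k →
      |k - ∫ z in W.pc c π, x.m.kd (Λ.B m c) (W.F m c p) x.W z ∂(W.F m c p).μ| ≤ η' → η' ≤ ε →
      ∫ z in W.pc c π, ‖x.m.p2 (Λ.B m c) z (x.m.Fg (W.F m c p) x.W z)‖ ^ 2 ∂(W.F m c p).μ ≤
        ε ^ 2 * ∫ z in W.pc c π, ‖x.m.Fg (W.F m c p) x.W z‖ ^ 2 ∂(W.F m c p).μ + ε →
      k₀ ≤ k ∨ ∃ w, Cl2 N π fz O E0 η η' w k := by
  choose cs hcs using exists_yc M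
  choose a a1 a2 a3 using fun e : E0 => hE' e e.2
  choose C C0 C1 using fun e : E0 => exists_pr (M.gvol (a e)) (Mark.ori_oC (a e)) (cs_band (a3 e))
  have := hE.to_subtype
  have sm : ∀ f : ℝ → ℝ, Continuous f → f 0 = 0 → ∀ᶠ δ in 𝓝[>] (0 : ℝ), f δ < η := fun f h1 h2 =>
    nhdsWithin_le_nhds (h1.continuousAt.eventually_lt continuousAt_const (h2.trans_lt hη))
  obtain ⟨δ, ⟨⟨d1, d2⟩, d3⟩, d0⟩ := ((((sm (fun δ => (δ ^ 2 + (∑ a, cs a) * (2 * δ)) *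
      (64 * Real.pi ^ 2 * (k₀ + 1)) + 2 * δ) (by fun_prop) (by simp)).and (eventually_all.2 fun e : E0 =>
      sm (fun δ => δ * (C e * (64 * Real.pi ^ 2 * (k₀ + 1)))) (by fun_prop) (by simp))).and
    (nhdsWithin_le_nhds (eventually_lt_nhds (show (0 : ℝ) < 1 / 2 by norm_num)))).and
    self_mem_nhdsWithin).exists
  replace d0 : 0 < δ := d0
  obtain ⟨χ, r, hχ⟩ := exists_lg d0
  refine ⟨δ, d0, max (1 / 2) (1 - 2 * r), max_lt (by norm_num) (by linarith [hχ.r0]),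
    fun W Λ m c p hπ hp hi hT x Ad ⟨ξ, R⟩ k η' k0 hk' hη' hH => (le_or_gt _ _).imp_right fun hk => ?_⟩
  have pO : p ∈ M.O c.1 := hi ▸ Mark.mem_O_cOf hp
  have lk : ∀ a ∈ fz, a ∉ c.1 → Lk c p r a := fun a ha h2 =>
    have h1 := max_le_iff.1 (hT a ha)
    ⟨⟨h2, fun a' k => hp.2 (show p.2 a ≠ 0 by linarith [h1.1]) (Sys.inf_subset _ (hi ▸ k))
      fun e => h2 (e ▸ k)⟩, hz a ha, hp, pO, h1.1, by linarith [h1.2]⟩
  have := M.con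
  have sd : ∀ a ∈ c.1, ∀ b, (M.sys.w a).half b ⊆ M.sys.U π → π a = some b := fun a ha b h =>
    let ⟨_, hy⟩ := (M.sys.w a).ne b
    hπ.eq_some c.2 ha (h hy) hy
  have cp := isCompact_pc W.toCaps hπ hc
  have hB := Λ.B_ok m c
  have hG := Λ.G_ok m pO
  have hF : OK (W.F m c p) (Λ.B m c).o := OK.of_base (W.Z c).dim hB hG
  have ho : SameOn (W.o c) (vol (W.F m c p) (Λ.B m c).o) univ := same_vol W m pO
  have sr := hs.trans (U_src W.toCaps hπ)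
  have oi := img_oz W.toCaps hO sr
  have os := oz_sub W.toCaps hπ hO hs
  have D : Den (W.F m c p) (Λ.B m c).o (oz W.toCaps c O) ((2 : ℝ) • fm (W.F m c p) x.m x.W ξ)
      (fun z => ‖x.m.Fg (W.F m c p) x.W z‖ ^ 2 / 4)
      fun z => ‖x.m.p2 (Λ.B m c) z (x.m.Fg (W.F m c p) x.W z)‖ ^ 2 / 4 := R.den hB hG Ad.ok Ad.conn
  have hπ' := Real.pi_gt_three
  have ek : 128 * Real.pi ^ 2 * ∫ z in W.pc c π, x.m.kd (Λ.B m c) (W.F m c p) x.W z ∂(W.F m c p).μ =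
      ∫ z in W.pc c π, ‖x.m.Fg (W.F m c p) x.W z‖ ^ 2 ∂(W.F m c p).μ - 2 *
      ∫ z in W.pc c π, ‖x.m.p2 (Λ.B m c) z (x.m.Fg (W.F m c p) x.W z)‖ ^ 2 ∂(W.F m c p).μ :=
    kd_int hB hG Ad.conn (intOn_cp (cont_F2 hB hG Ad.ok Ad.conn) cp) (intOn_cp (cont_p2 hB hG Ad.ok Ad.conn) cp)
  have lev : M.sys.U π ⊆ O → ip (W.Z c).I (W.o c) ((2 : ℝ) • fm (W.F m c p) x.m x.W ξ)
      ((2 : ℝ) • fm (W.F m c p) x.m x.W ξ) = -(16 * Real.pi ^ 2) *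
        ∫ z in W.pc c π, x.m.kd (Λ.B m c) (W.F m c p) x.W z ∂(W.F m c p).μ ∧
      Cs (W.Z c).I 2 (W.pc c π) ((2 : ℝ) • fm (W.F m c p) x.m x.W ξ) := fun h => by
    have e := (sub_oz _ (isOpen_pc _ hπ) ((pc_diff _ hπ).subset.trans (image_mono h))).antisymm os
    have R' : Rd (Λ.G m c p).F x.m x.W (W.pc c π) ξ := e.symm ▸ R
    obtain ⟨k, k'⟩ := R'.lev hB hG Ad.ok Ad.conn hF cp
    exact ⟨(k.ip_ori (W.ori c) hF.ori (ho.mono (subset_univ _))).trans k', k⟩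
  have n1 := integral_nonneg (μ := (W.F m c p).μ.restrict (W.pc c π))
    (f := fun z => ‖x.m.Fg (W.F m c p) x.W z‖ ^ 2 / 4) D.p1
  have n0 := integral_nonneg (μ := (W.F m c p).μ.restrict (W.pc c π))
    (f := fun z => ‖x.m.p2 (Λ.B m c) z (x.m.Fg (W.F m c p) x.W z)‖ ^ 2 / 4) D.p2
  have mp : Dr59.Mp X.I (W.Z c).I O (oz W.toCaps c O) (W.φ c) := ⟨fun x hx =>
    (W.φ c).contMDiffOn_toFun.contMDiffAt ((W.φ c).open_source.mem_nhds (sr hx)),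
    fun x hx => oi ⟨x, hx, rfl⟩⟩
  have L := fun ρ (h : Win M π fz O (pX W.toCaps c ((2 : ℝ) • fm (W.F m c p) x.m x.W ξ)) ρ) =>
    exists_locZ W m hπ cp h.reg h.sub (h.sub.trans hs) hF ho hcs hχ D os
      fun a b e => (em (a ∈ c.1)).elim (fun k => .inl (sd a k b ((h.reg.adj a b e).trans (h.sub.trans hs))))
        fun k' => (h.bd a b e).imp_right fun k => ⟨lk a k.1 k', k.2⟩
  have lg := fun e : E0 => (lk _ (a1 e) fun k => hz _ (a1 e) (hc _ (Sys.mem_bd_of (sd _ k true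
    (inter_subset_left.trans ((a2 e).trans hs)))))).long W m (a3 e) (C1 e) (C0 _) hχ D
    ((image_mono (a2 e)).trans oi) os cp
  simp only [integral_div] at n0 n1 L lg
  generalize ∫ z in W.pc c π, x.m.kd (Λ.B m c) (W.F m c p) x.W z ∂(W.F m c p).μ = k' at *
  generalize ∫ z in W.pc c π, ‖x.m.Fg (W.F m c p) x.W z‖ ^ 2 ∂(W.F m c p).μ = E at *
  generalize ∫ z in W.pc c π, ‖x.m.p2 (Λ.B m c) z (x.m.Fg (W.F m c p) x.W z)‖ ^ 2 ∂(W.F m c p).μ = H at *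
  have q1 : δ ^ 2 * E ≤ E / 4 := by nlinarith [mul_le_mul_of_nonneg_right (show δ ^ 2 ≤ 1 / 4 by nlinarith) n1]
  have p2 : 9 ≤ Real.pi ^ 2 := by nlinarith
  have q0 := abs_le.1 (hk'.trans hη')
  have q2 : E / 4 ≤ 64 * Real.pi ^ 2 * (k₀ + 1) := by
    nlinarith [mul_le_mul_of_nonneg_left (show k' ≤ k₀ + 1 / 2 by linarith) (sq_nonneg Real.pi)]
  have s0 : 0 ≤ (∑ a, cs a) * (2 * δ) := mul_nonneg (Finset.sum_nonneg fun a _ => (hcs a).1) (by linarith)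
  have q3 := mul_le_mul_of_nonneg_left q2 (add_nonneg (sq_nonneg δ) s0)
  have q4 : H / 4 + (∑ a, cs a) * (2 * δ) * (E / 4) ≤ η - δ := by linarith
  refine ⟨_, D.cl.pm mp, k0, fun K a hK hK' ha => ?_, fun e he => ?_,
    fun ρ h ι _ _ K e G hL => ?_, fun h ι _ _ K e G hL => ?_⟩
  · have k1 := ha.cs hK
    have k2 := hK'.trans sr
    have k3 := k1.psh (W.φ c) k2
    have h1 := (Λ.Λ m c).ln_on p
    have s1 : Dr59.Sm X.I K (pX W.toCaps c (((Λ.Λ m c).ln p).F (W.Z c).I)) :=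
      ((h1.cl_F isOpen_univ).pm ⟨fun x hx => mp.sm x (hK' hx), mapsTo_univ _ _⟩).sm
    have s2 := (N.ok.cl_F isOpen_univ).sm.mono (subset_univ K)
    have s3 := (D.cl.pm mp).sm.mono hK'
    refine (R.char_ln h1 hB hG Ad.ok Ad.conn (W.Z c).dim (ha.psh (W.φ c) hK k2)
      (hK.image_of_continuousOn ((W.φ c).contMDiffOn_toFun.continuousOn.mono k2)).isClosed
      ((image_mono hK').trans oi) (isOpen_pc _ hπ) cp os).imp fun n hn => Eq.trans ?_ hn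
    show _ = ip (W.Z c).I (vol (W.F m c p) (Λ.B m c).o) (psh (W.φ c) a) (psh (W.φ c) a +
      (((Λ.Λ m c).ln p).F (W.Z c).I + (2 : ℝ) • fm (W.F m c p) x.m x.W ξ))
    rw [Dr59.ip_comm k3.cl.dg, ← k3.ip_ori (W.ori c) hF.ori (ho.mono (subset_univ _)),
      k1.ip_psh (W.φ c) k2 (W.ori c) M.ori ((W.oφ c).mono k2), eq_comm, k1.ip_congr
        (c' := a + (pX W.toCaps c (((Λ.Λ m c).ln p).F (W.Z c).I) +
          pX W.toCaps c ((2 : ℝ) • fm (W.F m c p) x.m x.W ξ))) fun y hy => by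
        rw [Dr59.pm_add, Dr59.pm_add, Pi.add_apply, Pi.add_apply a, Dr59.pm_psh _ (k2 hy)],
      k1.ip_add M.ori (k1.on _).sm (s1.add s3), k1.ip_add M.ori s1 s3, k1.ip_add M.ori s2 s3,
      k1.ip_coh M.ori s1 s2 ((ex_line Λ m ⟨hp, hi.ge⟩).mono k2), add_comm]
  · have k1 := lg ⟨e, he⟩
    rw [← div_eq_mul_inv, div_le_iff₀ d0] at k1
    nlinarith [d2 ⟨e, he⟩, mul_le_mul_of_nonneg_left q2 (mul_nonneg (C0 ⟨e, he⟩) d0.le)]
  · obtain ⟨v, V', v1, v2, v3, v4, v5, v6⟩ := L ρ h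
    rw [pair W.toCaps v1 v2 (h.sub.trans sr) hL (D.cl.sm.mono (sub_oz _ v1
      (v2.subset.trans (image_mono h.sub)))) v3 v4] at v5 v6
    refine ⟨le_trans v5 (by linarith), ?_⟩
    rw [sub_le_iff_le_add, div_le_iff₀ (by positivity)]
    have n2 : 0 ≤ η - δ := le_trans (add_nonneg n0 (mul_nonneg s0 n1)) q4
    refine le_trans v6 ?_
    nlinarith [mul_le_mul_of_nonneg_left (show k' ≤ k + δ by linarith) (sq_nonneg Real.pi),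
      mul_le_mul_of_nonneg_right p2 n2]
  · obtain ⟨k1, k2⟩ := lev h
    rw [pair W.toCaps (isOpen_pc _ hπ) (pc_diff _ hπ) (U_src _ hπ) hL (k2.on _).sm k2
      (sub_self (_ : _ → Ext (W.Z c).E) ▸ Ex.zero)] at k1
    rw [isq, k1]
    refine le_of_eq_of_le (congrArg _ ?_) hk'
    field_simp
    ring

/-- the same without errors -/
theorem coreR (N : ML M lam) (hπ : M.sys.Piece c₀ π) (hc : ∀ a ∈ c₀, M.pin a) (hz : ∀ a ∈ fz, ¬M.pin a)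
    (hO : IsOpen O) (hs : O ⊆ M.sys.U π) (hE : E0.Finite)
    (hE' : ∀ e ∈ E0, ∃ a ∈ fz, (M.sys.w a).band ⊆ O ∧ Cs X.I 2 (M.sys.w a).band e) (hη : 0 < η) (k₀ : ℝ) :
    ∃ ε : ℝ, 0 < ε ∧ ∃ T₀ < (1 : ℝ), ∀ (W : World M) (Λ : Lns W N) (m c : M.Cl) (p : Prm A),
      c.1 = c₀ → p.2 ∈ M.sys.Par → Sys.inf p.2 = c₀ → (∀ a ∈ fz, T₀ ≤ p.2 a) →
      ∀ x : Cfg (W.Z c).M (Option κ) (lam ⊕ lam) 0, x.Adm (Λ.B m c) (Λ.G m c p) →
      (∃ ξ, Rd (Λ.G m c p).F x.m x.W (oz W.toCaps c O) ξ) →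
      ∫ z in W.pc c π, ‖x.m.p2 (Λ.B m c) z (x.m.Fg (W.F m c p) x.W z)‖ ^ 2 ∂(W.F m c p).μ ≤
        ε ^ 2 * ∫ z in W.pc c π, ‖x.m.Fg (W.F m c p) x.W z‖ ^ 2 ∂(W.F m c p).μ →
      k₀ ≤ ∫ z in W.pc c π, x.m.kd (Λ.B m c) (W.F m c p) x.W z ∂(W.F m c p).μ ∨ ∃ w,
        Cls N π fz O E0 η w (∫ z in W.pc c π, x.m.kd (Λ.B m c) (W.F m c p) x.W z ∂(W.F m c p).μ) := by
  have hb := fun a ha => hc a (hπ.bd_subset ha)
  obtain ⟨ε, h1, T₀, h2, h3⟩ := coreP N hb hz hO hs hE hE' hη k₀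
  refine ⟨min ε (1 / 2), lt_min h1 one_half_pos, T₀, h2, fun W Λ m c p hc' hp hi hT x Ad R hH => ?_⟩
  subst hc'
  have hB := Λ.B_ok m c
  have hG := Λ.G_ok m (hi ▸ Mark.mem_O_cOf hp : p ∈ M.O c.1)
  have cp := isCompact_pc W.toCaps hπ hb
  have n1 := integral_nonneg (μ := (W.F m c p).μ.restrict (W.pc c π))
    (f := fun z => ‖x.m.Fg (W.F m c p) x.W z‖ ^ 2) fun _ => sq_nonneg _
  have m1 := fun r hr => hH.trans (mul_le_mul_of_nonneg_right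
    (pow_le_pow_left₀ (lt_min h1 one_half_pos).le (b := r) hr 2) n1)
  refine (h3 W Λ m c p hπ hp hi hT x Ad R _ 0 (nonneg_of_mul_nonneg_right (a := 128 * Real.pi ^ 2) ?_
    (by positivity)) (by simp) h1.le ((m1 _ (min_le_left _ _)).trans (by linarith))).imp_right
    fun ⟨w, k⟩ => ⟨w, k.cl, k.pos, k.chr, k.long, k.loc, fun h ι _ _ K e G l => ?_⟩
  · refine le_of_le_of_eq ?_ (kd_int hB hG Ad.conn (intOn_cp (cont_F2 hB hG Ad.ok Ad.conn) cp)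
      (intOn_cp (cont_p2 hB hG Ad.ok Ad.conn) cp)).symm
    have := m1 _ (min_le_right _ _)
    change _ ≤ ∫ z in W.pc c π, ‖x.m.Fg (W.F m c p) x.W z‖ ^ 2 ∂(W.F m c p).μ - 2 *
      ∫ z in W.pc c π, ‖x.m.p2 (Λ.B m c) z (x.m.Fg (W.F m c p) x.W z)‖ ^ 2 ∂(W.F m c p).μ
    linarith
  · rw [neg_div]
    exact eq_neg_of_add_eq_zero_left (abs_nonpos_iff.1 (k.lev h ι K e G l))

/-- the same for points that are flat or have a parallel line -/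
theorem core (N : ML M lam) (hπ : M.sys.Piece c₀ π) (hc : ∀ a ∈ c₀, M.pin a) (hz : ∀ a ∈ fz, ¬M.pin a)
    (hO : IsOpen O) (hs : O ⊆ M.sys.U π) (hx : x₀ ∈ O) (hS : Sur {x₀} O) (hE : E0.Finite)
    (hE' : ∀ e ∈ E0, ∃ a ∈ fz, (M.sys.w a).band ⊆ O ∧ Cs X.I 2 (M.sys.w a).band e) (hη : 0 < η) (k₀ : ℝ) :
    ∃ ε : ℝ, 0 < ε ∧ ∃ T₀ < (1 : ℝ), ∀ (W : World M) (Λ : Lns W N) (m c : M.Cl) (p : Prm A),
      c.1 = c₀ → p.2 ∈ M.sys.Par → Sys.inf p.2 = c₀ → (∀ a ∈ fz, T₀ ≤ p.2 a) →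
      ∀ x : Cfg (W.Z c).M (Option κ) (lam ⊕ lam) 0, x.Adm (Λ.B m c) (Λ.G m c p) →
      (Nd18.Lin (W.F m c p) x (W.pc c π) ∨ ∀ z ∈ W.pc c π, x.m.Fg (W.F m c p) x.W z = 0) →
      ∫ z in W.pc c π, ‖x.m.p2 (Λ.B m c) z (x.m.Fg (W.F m c p) x.W z)‖ ^ 2 ∂(W.F m c p).μ ≤
        ε ^ 2 * ∫ z in W.pc c π, ‖x.m.Fg (W.F m c p) x.W z‖ ^ 2 ∂(W.F m c p).μ →
      k₀ ≤ ∫ z in W.pc c π, x.m.kd (Λ.B m c) (W.F m c p) x.W z ∂(W.F m c p).μ ∨ ∃ w,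
        Cls N π fz O E0 η w (∫ z in W.pc c π, x.m.kd (Λ.B m c) (W.F m c p) x.W z ∂(W.F m c p).μ) := by
  obtain ⟨ε, h1, T₀, h2, h3⟩ := coreR N hπ hc hz hO hs hE hE' hη k₀
  refine ⟨ε, h1, T₀, h2, fun W Λ m c p hc' hp hi hT x Ad hl => h3 W Λ m c p hc' hp hi hT x Ad ?_⟩
  subst hc'
  have sr := hs.trans (U_src W.toCaps hπ)
  have os := oz_sub W.toCaps hπ hO hs
  exact exists_rd (Λ.B_ok m c) (Λ.G_ok m (hi ▸ Mark.mem_O_cOf hp)) Ad isOpen_interior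
    (img_oz W.toCaps hO sr ⟨_, hx, rfl⟩) (sur_oz _ hO sr hx hS)
    (hl.imp (fun ⟨q, h1, h2⟩ => ⟨q, h1.mono os, fun z hz => h2 z (os hz)⟩) fun h z hz => h z (os hz))

variable {Lm : LM κ lam} {S : Scene Lm} {i : S.L} {σ c : Finset S.A} {π : Reg S.A} {O : Set S.X.M}
  {x₀ : S.X.M} {P : ℝ → Prop} {k₀ : ℝ}

variable (S i σ c π P) in
/-- `Scene.Ab` when exactly the walls `c` are broken -/
def Ab0 : Prop :=
  ∃ ε : ℝ, 0 < ε ∧ ∀ᶠ T in 𝓝[<] (1 : ℝ), ∀ (D : S.Dat) (m c' : S.M.Cl) (u : ℝ) (t : S.A → ℝ),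
    c'.1 = ↑c → S.Pt σ T t → Sys.inf t = ↑c →
    ∀ x : Cfg (D.W.Z c').M (Option κ) (lam ⊕ lam) 0,
      x.Adm ((D.Λ i).B m c') ((D.Λ i).G m c' (u, t)) →
      (Nd18.Lin (D.W.F m c' (u, t)) x (D.W.pc c' π) ∨
        ∀ z ∈ D.W.pc c' π, x.m.Fg (D.W.F m c' (u, t)) x.W z = 0) →
      ∫ z in D.W.pc c' π, ‖x.m.p2 ((D.Λ i).B m c') z (x.m.Fg (D.W.F m c' (u, t)) x.W z)‖ ^ 2
          ∂(D.W.F m c' (u, t)).μ ≤
        ε ^ 2 * ∫ z in D.W.pc c' π, ‖x.m.Fg (D.W.F m c' (u, t)) x.W z‖ ^ 2 ∂(D.W.F m c' (u, t)).μ →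
      P (∫ z in D.W.pc c' π, x.m.kd ((D.Λ i).B m c') (D.W.F m c' (u, t)) x.W z ∂(D.W.F m c' (u, t)).μ)

/-- **AB-RED** -/
theorem ab_of (hS : S.OK) (hσ : σ ∈ S.K i) (hc : ∀ a ∈ c, S.M.pin a) (hπ : S.M.sys.Piece ↑c π)
    (hO : IsOpen O) (hs : O ⊆ S.M.sys.U π) (hx : x₀ ∈ O) (hu : Sur {x₀} O)
    {E0 : Set (S.X.M → Ext S.X.E)} (hE : E0.Finite)
    (hE' : ∀ e ∈ E0, ∃ a ∈ S.fz, (S.M.sys.w a).band ⊆ O ∧ Cs S.X.I 2 (S.M.sys.w a).band e)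
    (hη : 0 < η) (h0 : ∀ k, k₀ ≤ k → P k) (h : ∀ w k, Cls (S.N i) π ↑S.fz O E0 η w k → P k) :
    Ab0 S i σ c π P := by
  obtain ⟨ε, h1, T₀, h2, h3⟩ := core (S.N i) (fz := ↑S.fz) hπ hc (fun a ha => (hS.fz a ha).1) hO hs hx hu
    hE hE' hη k₀
  refine ⟨ε, h1, ((eventually_gt_nhds (max_lt h2 one_pos)).filter_mono nhdsWithin_le_nhds).mono
    fun T hT D m c' u t e ht hi x Ad hl hH => ?_⟩
  have k := max_lt_iff.1 hT
  exact (h3 D.W (D.Λ i) m c' (u, t) e ⟨fun a => (em (a ∈ σ)).elim (ht.1 a) fun h1 =>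
      (em (a ∈ S.fz)).elim (fun h2 => ⟨k.2.le.trans (ht.2.1 a h2).1, (ht.2.1 a h2).2⟩) fun h2 =>
        ⟨(ht.2.2 a h1 h2).ge, (ht.2.2 a h1 h2).trans_le zero_le_one⟩,
      (hS.cell i σ hσ).1.mono fun a ha => by_contra fun k' =>
        ha (ht.2.2 a (fun e => k' (.inl e)) fun e => k' (.inr e))⟩ hi
    (fun a ha => k.1.le.trans (ht.2.1 a ha).1) x Ad hl hH).elim (h0 _) fun ⟨w, hw⟩ => h w _ hw

/-- **an odd line on a frozen neck: no abelian points of bounded level** -/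
theorem ab_huge (hS : S.OK) (hσ : σ ∈ S.K i) (hc : ∀ a ∈ c, S.M.pin a) (hπ : S.M.sys.Piece ↑c π)
    (hO : IsOpen O) (hs : O ⊆ S.M.sys.U π) (hx : x₀ ∈ O) (hu : Sur {x₀} O) {a : S.A} (ha : a ∈ S.fz)
    (hb : (S.M.sys.w a).band ⊆ O) {K : Set S.X.M} (hK : IsCompact K) (hK' : K ⊆ (S.M.sys.w a).band)
    {f : S.X.M → Ext S.X.E} (hf : RL S.X.I K f) {n : ℤ} (hn : Odd n)
    (e : ip S.X.I S.M.o (FL S i) f + ip S.X.I S.M.o f f = n * (2 * Real.pi) ^ 2) (k₀ : ℝ) :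
    Ab0 S i σ c π (k₀ ≤ ·) := by
  have k := (hf.cs hK).mono hK'
  refine ab_of hS hσ hc hπ hO hs hx hu (finite_singleton f) (by rintro _ rfl; exact ⟨a, ha, hb, k⟩)
    (η := 1 / 2) (by norm_num) (fun _ h => h) fun w _ h => False.elim ?_
  obtain ⟨n', h1⟩ := h.chr K f hK (hK'.trans hb) hf
  have h2 := h.long f rfl
  rw [(k.mono hb).ip_add S.M.ori (cl_FL hO).sm h.cl.sm] at h1
  have h3 : ip S.X.I S.M.o w f = ((2 * n' - n : ℤ) : ℝ) * (2 * Real.pi) ^ 2 := by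
    push_cast; linarith
  have h4 : (1 : ℝ) ≤ ((2 * n' - n : ℤ) : ℝ) ^ 2 := by
    exact_mod_cast (one_le_sq_iff_one_le_abs _).2 (Int.one_le_abs (by obtain ⟨j, rfl⟩ := hn; omega))
  have h5 : 1 ≤ ((2 * Real.pi) ^ 2) ^ 2 := one_le_pow₀ (one_le_pow₀ (by linarith [Real.pi_gt_three]))
  rw [h3, mul_pow] at h2
  nlinarith

end Crest.Agent.X212.Loc8
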