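import Crest.Agent.X212.Loc8.Nk
import Crest.Agent.X212.Brk99.Defs

/-!
# Row 212, NECK (helper8): half necks
-/

set_option autoImplicit false
set_option linter.unusedSectionVars false
noncomputable section
open scoped Manifold ContDiff Topology InnerProductSpace
open Set Function Filter

namespace Crest.Agent.X212.Loc8
open An Cyf70 Neck67 Pj41 Tmp64 Nd18 Bki64
open Eqv71 (cj)
open Abel74 (RedOn)
open Wz78 (curv SA nab)

section gen
variable {E : Type} [NormedAddCommGroup E] [NormedSpace ℝ E] [FiniteDimensional ℝ E]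
  [MeasurableSpace E] [BorelSpace E]
  {HM : Type} [TopologicalSpace HM] {I : ModelWithCorners ℝ E HM} [I.Boundaryless]
  {M : Type} [TopologicalSpace M] [ChartedSpace HM M] [IsManifold I ∞ M]
  [MeasurableSpace M] [BorelSpace M] [SecondCountableTopology M] [T2Space M]
  {ι : Type} [Fintype ι] {lam : Type} [Fintype lam] {r r' : ℕ}
  {B : Base M ι lam} {G : Geo I M ι lam} {F : Fr I M ι} {c : Cfg M ι lam r} {c' : Cfg M ι lam r'}
  {O : Set M} {x : M} {v : M → CL c.m.V c'.m.V} {χ : M → ℝ}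

theorem dA_comm {T : M → En (Fin c.m.N)} {g : M → En (Fin c'.m.N)} (i : Iso0 I c.m c'.m O v)
    (hO : IsOpen O) (hT : Sk F c O T) (hg : Sk F c' O g) (e : ∀ x ∈ O, g x ∘L v x = v x ∘L T x)
    (hx : x ∈ O) (a : ι) : dA F c c' v a x * g x = g x * dA F c c' v a x := by
  have h1 : cov F c c' (fun y => g y ∘L v y) a x = cov F c c' (fun y => v y ∘L T y) a x :=
    cov_congr ((hO.eventually_mem hx).mono fun y hy => e y hy) a
  rw [cov_comp (c' := c') (i.su x hx) (hg.iso.su x hx), cov_comp (c' := c) (hT.iso.su x hx)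
    (i.su x hx), hg.par a x hx, hT.par a x hx, ContinuousLinearMap.zero_comp,
    ContinuousLinearMap.comp_zero, zero_add, add_zero] at h1
  have h2 := congrArg ad (e x hx)
  rw [ad_comp, ad_comp, hg.sk x hx, hT.sk x hx, ContinuousLinearMap.comp_neg,
    ContinuousLinearMap.neg_comp, neg_inj] at h2
  rw [dA, ← ad_trn, ContinuousLinearMap.mul_def, ContinuousLinearMap.mul_def,
    ContinuousLinearMap.comp_assoc, h2, ← ContinuousLinearMap.comp_assoc,
    ← ContinuousLinearMap.comp_assoc, h1]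

theorem zz_curv {α : Type} {l : Filter α} {S : α → Set M} {κ : Type} [Fintype κ]
    {W : ι → M → En κ} {w : α → ι → M → En κ} (hW : ∀ a, BB F.toPre l S 0 fun _ => W a)
    (hc : ∀ a b k, BB F.toPre l S 0 fun _ => F.c a b k)
    (hw : ∀ a, ZZ F.toPre l S 1 fun n => w n a) (a b : ι) : ZZ F.toPre l S 0 fun n x =>
      curv I F.e F.c (W + w n) a b x - curv I F.e F.c W a b x := by
  have z := fun a => (hw a).of_le zero_le_one
  have n := fun a b => ((hw b).D a).add (((hW a).compZ (z b)).sub ((z b).comp (hW a)))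
  refine ((((n a b).sub (n b a)).sub (ZZ.sum (z a).op fun k => (hc a b k).smulZ (z k))).add
    (((z a).comp (z b).bb).sub ((z b).comp (z a).bb))).congr ?_
  filter_upwards [eventually_all.2 fun a => (hW a).sm, eventually_all.2 fun a => (z a).bb.sm]
    with n h1 h2 x hx
  rw [Wz78.curv_addA (fun a => h1 a x hx) fun a => h2 a x hx, add_assoc, add_sub_cancel_left]
  rfl

theorem Fg_le {m : Md M ι lam} {W V : m.Cn} {δ : ℝ} (h0 : m.Fg F W x = 0) (h : ∀ s : ι × ι,
    ‖hsL (curv I F.e F.c V s.1 s.2 x - curv I F.e F.c W s.1 s.2 x)‖ ≤ δ) :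
    ‖m.Fg F V x‖ ≤ Fintype.card (ι × ι) * δ := by
  have k : ∀ s, ‖m.Fg F V x s‖ ≤ δ := fun s => by
    refine le_trans (le_of_eq ?_) ((Wz78.norm_pg x _).trans (h s))
    rw [map_sub, map_sub, show m.pg x (hsL (curv I F.e F.c W s.1 s.2 x)) = 0 from
      congrArg (· s) h0, sub_zero]
    rfl
  rw [PiLp.norm_eq_of_L2]
  refine (Real.sqrt_le_sqrt (Finset.sum_sq_le_sq_sum_of_nonneg fun s _ => norm_nonneg _)).trans ?_
  rw [Real.sqrt_sq (Finset.sum_nonneg fun s _ => norm_nonneg _)]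
  exact (Finset.sum_le_card_nsmul _ _ _ fun s _ => k s).trans (by rw [nsmul_eq_mul]; rfl)

variable (F c c' v χ) in
/-- the connection which is the one of `c` where `χ = 1` and the one of `c'` where `χ = 0` -/
def cutW : c'.m.Cn := c'.W + fun a x => (-χ x) • dA F c c' v a x

theorem cutW_zero (h : χ x = 0) (a : ι) : cutW F c c' v χ a x = c'.W a x := by
  simp [cutW, h]

theorem par_cut (hO : IsOpen O) (A : AdmOn c B G O) (i : Iso0 I c.m c'.m O v) {O' : Set M}
    (hs : O' ⊆ O) (h : ∀ x ∈ O', χ x = 1) : Par0 G.F c.W (cutW G.F c c' v χ) O' v := fun x hx a => by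
  rw [cutW, Pi.add_apply, Pi.add_apply, h x hx, neg_one_smul, ContinuousLinearMap.add_comp,
    ContinuousLinearMap.neg_comp, dA_u i hO A (hs hx), cov]
  abel

theorem red_cut (h0 : ∀ x ∉ O, χ x = 0) {η : M → c'.m.A} (R : RedOn F c'.m c'.W univ η)
    (hc : ∀ x ∈ O, ∀ a, dA F c c' v a x * opL (η x) = opL (η x) * dA F c c' v a x) :
    RedOn F c'.m (cutW F c c' v χ) univ η :=
  ⟨R.sm, R.mem, R.sq, fun x hx a => by
    have := R.par x hx a
    have e : adc ((-χ x) • dA F c c' v a x) (η x) = 0 := by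
      by_cases h : x ∈ O
      · rw [Wz78.adc_apply, smul_mul_assoc, mul_smul_comm, hc x h, sub_self, map_zero]
      · rw [h0 x h]; simp [Wz78.adc_apply]
    simp only [nab, Md.adW, cutW, Pi.add_apply, ← Wz78.adcL_apply, map_add, add_apply] at this e ⊢
    rw [e, add_zero, this]⟩

theorem conn_cut (hG : G.F.P = B.P) (A' : c'.Adm B G) (hO : IsOpen O) (A : AdmOn c B G O)
    (i : Iso0 I c.m c'.m O v) (sχ : Sm I χ) (h0 : ∀ x ∉ O, ∀ᶠ y in 𝓝 x, χ y = 0) :
    c'.m.IsConn B G (cutW G.F c c' v χ) := by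
  have k := fun x hx => dA_mem (x := x) hG i hO A ((admOn_univ.2 A').mono (subset_univ _)) hx
  have m : ∀ a x, hsL ((-χ x) • dA G.F c c' v a x) ∈ c'.m.gS x := fun a x => by
    rw [map_smul]
    by_cases hx : x ∈ O
    · exact Submodule.smul_mem _ _ ((k x hx).1 a)
    · rw [(h0 x hx).self_of_nhds, neg_zero, zero_smul]; exact Submodule.zero_mem _
  have e := fun a x => Wz78.opL_hsL ((-χ x) • dA G.F c c' v a x)
  refine Spn45.isConn_add A'.conn ⟨fun a x => ?_, fun a x => ?_⟩ (fun a x => e a x ▸ (m a x).1)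
    (fun a x => e a x ▸ (Wz78.g_p' A'.ok (m a x)).trans (m a x).2.1.symm)
    (fun a b x => e a x ▸ ((m a x).2.2.2.1 b).symm) (fun a x => e a x ▸ (m a x).2.2.1)
    fun a x s => e a x ▸ ((m a x).2.2.2.2 s).symm
  · by_cases hx : x ∈ O
    · exact SA.smul (sχ x).neg (fsm_dA (i.su x hx) (A.conn.sm a x hx) (A'.conn.cc.sm a x))
    · exact (contMDiffAt_const (c := 0)).congr_of_eventuallyEq ((h0 x hx).mono fun y hy => by
        simp [hy])
  · by_cases hx : x ∈ O
    · simp only [smul_comm _ (-χ x), ← Finset.smul_sum, (k x hx).2]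
    · simp [(h0 x hx).self_of_nhds]

end gen

/-- `1` on `[-1, 0]`, `0` off `(-3/2, 1)` -/
def bmp (t : ℝ) : ℝ := Real.smoothTransition (1 - t) * Real.smoothTransition (2 * t + 3)

theorem bmp_sm : ContDiff ℝ ∞ bmp :=
  (Real.smoothTransition.contDiff.comp (by fun_prop)).mul
    (Real.smoothTransition.contDiff.comp (by fun_prop))

theorem bmp_one {t : ℝ} (h : -1 ≤ t) (h' : t ≤ 0) : bmp t = 1 := by
  rw [bmp, Real.smoothTransition.one_of_one_le (by linarith),
    Real.smoothTransition.one_of_one_le (by linarith), one_mul]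

theorem bmp_zero {t : ℝ} (h : t ≤ -3 / 2 ∨ 1 ≤ t) : bmp t = 0 := by
  rcases h with h | h
  · rw [bmp, Real.smoothTransition.zero_of_nonpos (x := 2 * t + 3) (by linarith), mul_zero]
  · rw [bmp, Real.smoothTransition.zero_of_nonpos (by linarith), zero_mul]

variable {E3 : Type} [NormedAddCommGroup E3] [NormedSpace ℝ E3] [FiniteDimensional ℝ E3]
  [MeasurableSpace E3] [BorelSpace E3]
  {H3 : Type} [TopologicalSpace H3] {I3 : ModelWithCorners ℝ E3 H3} [I3.Boundaryless]
  {Y : Type} [TopologicalSpace Y] [ChartedSpace H3 Y] [IsManifold I3 ∞ Y] [T2Space Y]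
  [MeasurableSpace Y] [BorelSpace Y] [SecondCountableTopology Y] [CompactSpace Y]
  {κ : Type} [Fintype κ] {lam : Type} [Fintype lam] {D : YD I3 Y κ lam} {β : Nd18.YC Y κ lam}
  {r : ℕ} {c : Cfg (Y × ℝ) (Option κ) lam r} {T : Y × ℝ → En (Fin c.m.N)}
  {g : Y → En (Fin β.m.N)} {l : Filter ℝ} {σ : ℝ} {v : ℝ → Y × ℝ → CL c.m.V β.m.V}

theorem bmp_ev (hσ : σ = 1 ∨ σ = -1) {n : ℝ} {z : Y × ℝ} (h : z ∉ win Y (σ * n) 2) :
    ∀ᶠ w in 𝓝 z, bmp (σ * (w.2 + -(σ * n))) = 0 := by
  have c : Continuous fun w : Y × ℝ => σ * (w.2 + -(σ * n)) := by fun_prop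
  have : σ * (z.2 + -(σ * n)) < -3 / 2 ∨ 1 < σ * (z.2 + -(σ * n)) := by
    by_contra k
    push Not at k
    rcases hσ with rfl | rfl <;> exact h ⟨trivial, by linarith [k.1, k.2], by linarith [k.1, k.2]⟩
  rcases this with k | k
  · exact (c.continuousAt.eventually_lt continuousAt_const k).mono fun _ k => bmp_zero (.inl k.le)
  · exact (continuousAt_const.eventually_lt c.continuousAt k).mono fun _ k => bmp_zero (.inr k.le)

theorem NkZ.sml (h : NkZ D β c T g l (σ * ·) v) (hβ : D.Adm β) (hσ : σ = 1 ∨ σ = -1)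
    (fl : ∀ z, (cy β).m.Fg D.Z (cy β).W z = 0) {γ : ℝ} (hγ : 0 < γ) : ∀ᶠ n in l, ∀ z,
      ‖(cy β).m.Fg D.Z (cutW D.Z c (cy β) (v n) fun w => bmp (σ * (w.2 + -(σ * n)))) z‖ ≤ γ := by
  have o := (h.cz 0).op
  have hb : BB D.Z.toPre l (fun n => win Y (σ * n) 2) 1 fun n w => bmp (σ * (w.2 + -(σ * n))) := by
    have := (BB.fixed (F := D.Z.toPre) (l := l) (S := fun _ => win Y 0 2)
      (isCompact_univ.prod (isCompact_Icc (a := 0 - 2) (b := 0 + 2))) (subset_univ _)
      (.of_forall fun _ => ⟨win_op _ _, prod_mono_right Ioo_subset_Icc_self⟩) 1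
      (φ := fun w => bmp (σ * w.2)) fun x _ => sm_snd (bmp_sm.comp (contDiff_const.mul
        contDiff_id)) x).tr fun n => -(σ * n)
    simp only [win_tr (add_neg_cancel _).symm] at this
    exact this
  have z := fun a b => (zz_curv (F := D.Z) (W := (cy β).W) (fx_cy (k := 0) hβ o).W
    (fun a b k => by
      cases a <;> cases b <;> cases k <;>
        first | exact BB.const o _ | exact BB.fst o 0 (D.F.c_sm _ _ _))
    (fun a => hb.neg.smulZ ((h.cz 1).A a)) a b).clm hsL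
  have p : 0 < γ / (Fintype.card (Option κ × Option κ) + 1) := by positivity
  filter_upwards [eventually_all.2 fun s : Option κ × Option κ => (z s.1 s.2).le p] with n k z
  by_cases hz : z ∈ win Y (σ * n) 2
  · refine (Fg_le (fl z) fun s => k s z hz).trans ?_
    rw [mul_div_assoc', div_le_iff₀ (by positivity)]
    nlinarith
  · have e := fun a => (bmp_ev hσ hz).mono fun w hw => cutW_zero (F := D.Z) (c := c) (c' := cy β)
      (v := v n) (χ := fun w => bmp (σ * (w.2 + -(σ * n)))) hw a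
    refine (Fg_le (δ := 0) (fl z) fun s => ?_).trans (by simpa using hγ.le)
    simp only [curv, Sob92.dv_congr (e _), fun a => (e a).self_of_nhds, sub_self, map_zero,
      norm_zero, le_refl]

theorem cls_sub {u : Y × ℝ → CL c.m.V β.m.V} {ζ : Circle} {S S' : Set ℝ} {k : ℕ} {η : ℝ}
    (h : D.Cls c β u ζ S k η) (o : IsOpen S') (s : S' ⊆ S) : D.Cls c β u ζ S' k η :=
  have s := prod_mono_right (s := (univ : Set Y)) s
  ⟨o, ⟨h.m.su.mono s, fun x hx => h.m.uu x (s hx), fun x hx => h.m.uu' x (s hx),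
    fun x hx => h.m.J x (s hx), fun x hx => h.m.ρ x (s hx), fun x hx => h.m.j x (s hx)⟩,
    fun a w j x hx => h.A a w j x (s hx), fun w j x hx => h.P w j x (s hx)⟩

theorem cj_of {κ κ' : Type} [Fintype κ] [Fintype κ'] [DecidableEq κ] [DecidableEq κ']
    {u : CL (Eu κ) (Eu κ')} {p : En κ} {q : En κ'} {ξ : HS κ} {η : HS κ'} {e : ℝ}
    (he : e = 1 ∨ e = -1) (i : CIso u p q) (k : opL η ∘L q = opL η)
    (h : opL η ∘L u = u ∘L (e • opL ξ)) : cj u ξ = e • η := by
  have : e • opL η = e • e • (u ∘L opL ξ ∘L trn u) := by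
    rw [← k, ← i.tgt, ← ContinuousLinearMap.comp_assoc, h, ad_trn, ContinuousLinearMap.comp_smul,
      ContinuousLinearMap.smul_comp, ContinuousLinearMap.comp_assoc]
  rw [smul_smul, show e * e = 1 by rcases he with rfl | rfl <;> norm_num, one_smul] at this
  rw [Eqv71.cj_apply, ← this, map_smul, Wz78.hsL_opL]

open Brk99 (dp UU) in
open M (pm) in
/-- **(B) NECK** -/
theorem neck : Brk99.NeckStmt κ lam := by
  intro Y _ _ D c β ζ b ξ hD hβ fl A R hL
  obtain ⟨u, hu⟩ : ∃ u : Y.M × ℝ → CL c.m.V β.m.V, ∀ k, ∀ η > 0,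
    ∃ S ∈ (bif b then atBot else atTop : Filter ℝ), S ⊆ D.nk.J ∧ D.Cls c β u ζ S k η := hL
  have hσ : pm (!b) = 1 ∨ pm (!b) = -1 := by cases b <;> simp [pm]
  have ev := fun a : ℝ => (eventually_ge_atTop a).filter_mono (Ultrafilter.of_le atTop)
  have hw : ∀ S ∈ (bif b then atBot else atTop : Filter ℝ), ∀ᶠ n in (UU : Filter ℝ),
      Ioo (pm (!b) * n - 3) (pm (!b) * n + 3) ⊆ S := fun S hS => by
    cases b
    · obtain ⟨a, ha⟩ := mem_atTop_sets.1 hS
      exact (ev (a + 3)).mono fun s hs t ht => ha t (by simp [pm] at ht; linarith [ht.1])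
    · obtain ⟨a, ha⟩ := mem_atBot_sets.1 hS
      exact (ev (3 - a)).mono fun s hs t ht => ha t (by simp [pm] at ht; linarith [ht.2])
  have hd : ∀ᶠ n in (UU : Filter ℝ), win Y.M (pm (!b) * n) 3 ⊆ dp Y.M b (Ioi 0) :=
    (ev 3).mono fun n hn z hz => by
      have := hz.2
      cases b <;> simp [dp, pm] at this ⊢ <;> linarith [this.1, this.2]
  have hT := sk_of_red A.ok R
  obtain ⟨g, v, hg, h⟩ := nk_one (s := (pm (!b) * ·)) hD hβ (hd.mono fun _ => A.mono)
    (hd.mono fun _ => hT.mono) fun k η hη => let ⟨S, h1, _, h2⟩ := hu k η hη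
      (hw S h1).mono fun _ => cls_sub h2 isOpen_Ioo
  refine ⟨⟨fun y => hsL (g y), hg.red⟩, fun η Rη => ?_⟩
  have hg' := sk_of_red (c := cy β) (OK.on hβ.adm.ok univ) Rη
  obtain ⟨e, he, v, h⟩ := h.any (g' := fun y => opL (η y)) hD hβ hg hg'
  refine ⟨e, he, fun γ hγ => ?_⟩
  filter_upwards [hd, h.sml hβ hσ fl hγ, (h.cz 0).iso, h.eq] with n w k i q
  have w := (win_sub (s := pm (!b) * n) (L := 2) (by norm_num)).trans w
  have o := win_op (Y := Y.M) (pm (!b) * n) 2
  have d : ∀ z : Y.M × ℝ, pm (!b) * (z.2 + -(pm (!b) * n)) = pm (!b) * z.2 - n := fun z => by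
    cases b <;> simp [pm] <;> ring
  have s : dp Y.M b (Ioo (n - 1) n) ⊆ win Y.M (pm (!b) * n) 2 := fun z hz => by
    refine ⟨trivial, ?_⟩
    cases b <;> simp [dp, pm] at hz ⊢ <;> constructor <;> linarith [hz.1, hz.2]
  have i : Iso0 (IC Y.I) c.m (cy β).m _ (v n) := i
  obtain ⟨χ, hχ⟩ : ∃ χ : Y.M × ℝ → ℝ, χ = fun w => bmp (pm (!b) * (w.2 + -(pm (!b) * n))) := ⟨_, rfl⟩
  have h0 : ∀ x ∉ win Y.M (pm (!b) * n) 2, ∀ᶠ y in 𝓝 x, χ y = 0 := fun _ h => hχ ▸ bmp_ev hσ h
  rw [← hχ] at k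
  refine ⟨cutW D.Z c (cy β) (v n) χ, v n, ?_, ?_, ?_, ?_, ?_, ?_, ?_⟩
  · refine conn_cut (G := D.G) rfl hβ.adm o (A.mono w) i ?_ h0
    rw [hχ]; exact sm_snd (bmp_sm.comp (contDiff_const.mul (contDiff_id.add contDiff_const)))
  · exact red_cut (fun _ h => (h0 _ h).self_of_nhds) Rη fun x hx => dA_comm (c' := cy β)
      (g := fun x => opL (η x.1)) i o ((hT.mono w).smul he) (hg'.mono (subset_univ _)) q hx
  · refine fun a z hz => cutW_zero (c' := cy β) ?_ a
    rw [hχ]; exact bmp_zero (.inr (by rw [d]; exact le_sub_iff_add_le'.2 hz))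
  · exact i.mono s
  · refine par_cut (G := D.G) o (A.mono w) i s fun z hz => ?_
    rw [hχ]; exact bmp_one (by rw [d]; linarith [hz.1]) (by rw [d]; linarith [hz.2])
  · exact fun z hz => cj_of he (i.iso z (s hz)) (hg'.iso.iso z trivial).idem (q z (s hz))
  · exact fun z _ => k z

end Crest.Agent.X212.Loc8
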