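import Crest.Agent.X212.Qab60.Neck

/-!
# Row 212, LOC (helper8): localisation of the square of an abelian curvature form
-/

set_option autoImplicit false
set_option linter.unusedSectionVars false
noncomputable section
open scoped Manifold ContDiff Topology InnerProductSpace
open MeasureTheory Function Filter Set Module
open Crest.Agent.R208.F (Ext)
open Crest.Agent.R208.FI (IsDeg)

namespace Crest.Agent.X212.Loc8
open An Int54 Qab60
open Num57 hiding c1 c2
open Dr59 (SmAt dM df CAt Dg Cl cut ne0)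

variable {E : Type} [NormedAddCommGroup E] [NormedSpace ℝ E] [FiniteDimensional ℝ E]
  [MeasurableSpace E] [BorelSpace E]
  {H : Type} [TopologicalSpace H] {I : ModelWithCorners ℝ E H} [I.Boundaryless]
  {M : Type} [TopologicalSpace M] [ChartedSpace H M] [IsManifold I ∞ M]
  [MeasurableSpace M] [BorelSpace M] [SecondCountableTopology M] [T2Space M]
  {ι : Type} [Fintype ι]

/-- the energy of a two-form on a set: twice the square of its `L²` norm -/
def en (F : Fr I M ι) (K : Set M) (f : M → Ext E) : ℝ := ∫ x in K, ‖c2 F f x‖ ^ 2 ∂F.μ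

variable {O O' f f' f₀ a b : M → Ext E} {F : Fr I M ι} {g g' : M → ℝ} {K K' U : Set M} {c c' : ℝ}

theorem en_nonneg (F : Fr I M ι) (K : Set M) (f : M → Ext E) : 0 ≤ en F K f :=
  integral_nonneg fun _ => sq_nonneg _

theorem cont_en (F : Fr I M ι) (hf : ∀ x, SmAt I f x) : Continuous fun x => ‖c2 F f x‖ ^ 2 :=
  (sm_c2 hf).continuous.norm.pow 2

theorem intOn_en (F : Fr I M ι) (hK : IsCompact K) (hf : ∀ x, SmAt I f x) :
    IntegrableOn (fun x => ‖c2 F f x‖ ^ 2) K F.μ :=
  (cont_en F hf).continuousOn.integrableOn_compact hK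

theorem en_mono (h : K ⊆ K') (hf : IntegrableOn (fun x => ‖c2 F f x‖ ^ 2) K' F.μ) :
    en F K f ≤ en F K' f := setIntegral_mono_set hf (.of_forall fun _ => sq_nonneg _) h.eventuallyLE

theorem c2_congr {x : M} (h : f x = f' x) : c2 F f x = c2 F f' x := by simp only [c2, k2, h]

theorem en_congr (hK : MeasurableSet K) (h : ∀ x ∈ K, f x = f' x) : en F K f = en F K f' :=
  setIntegral_congr_fun hK fun x hx => by simp only [c2_congr (h x hx)]

theorem exists_bump (hK : IsCompact K) (hU : IsOpen U) (h : K ⊆ U) : ∃ ψ : M → ℝ, Sm I ψ ∧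
    HasCompactSupport ψ ∧ tsupport ψ ⊆ U ∧ ∀ x ∈ K, ψ =ᶠ[𝓝 x] 1 := by
  have := I.locallyCompactSpace
  have := ChartedSpace.locallyCompactSpace H M
  obtain ⟨L, h1, h2, h3⟩ := exists_compact_between hK hU h
  obtain ⟨ψ, h4, h5, -⟩ := exists_contMDiffMap_one_nhds_of_subset_interior I (n := ⊤) hK.isClosed h2
  have h6 : tsupport ψ ⊆ L := closure_minimal (fun x hx => by_contra fun k => hx (h5 x k)) h1.isClosed
  exact ⟨ψ, ψ.contMDiff, h1.of_isClosed_subset (isClosed_tsupport _) h6, h6.trans h3,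
    fun x hx => h4.filter_mono (nhds_le_nhdsSet hx)⟩

/-- extension of a form from a neighbourhood of a compact set -/
theorem exists_fo {k : ℕ} (hK : IsCompact K) (hU : IsOpen U) (h : K ⊆ U) (hb : Dr59.Sm I U b)
    (hk : Dg k U b) : ∃ a, Fo I k a ∧ HasCompactSupport a ∧ tsupport a ⊆ U ∧
      ∀ x ∈ K, a =ᶠ[𝓝 x] b := by
  obtain ⟨ψ, h1, h2, h3, h4⟩ := exists_bump (I := I) hK hU h
  have h5 := tsupport_smul_subset_left ψ b
  refine ⟨ψ • b, ⟨cAt_of_tsupport fun x hx => (hb x (h3 (h5 hx))).fsmul le_rfl (h1 x), fun x => ?_⟩,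
    h2.of_isClosed_subset (isClosed_tsupport _) h5, h5.trans h3,
    fun x hx => (h4 x hx).mono fun y hy => by rw [Pi.smul_apply', hy, Pi.one_apply, one_smul]⟩
  by_cases hx : x ∈ U
  · exact (hk x hx).smul _
  · rw [Pi.smul_apply', image_eq_zero_of_notMem_tsupport fun k => hx (h3 k), zero_smul]
    exact IsDeg.zero

theorem intOn_df_mul (hO : Ori I O) (hg : Sm I g) (hK : IsCompact K)
    (h0 : ∀ x, x ∉ K → df I g x = 0) (hb : Dr59.Sm I K b) : IntOn I O (df I g * b) univ := by
  have h1 : tsupport (df I g * b) ⊆ K := closure_minimal (fun x hx => by_contra fun k =>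
    hx (by rw [Pi.mul_apply, h0 x k, zero_mul])) hK.isClosed
  exact hO.intOn_of_hcs (cAt_of_tsupport fun x hx =>
    ((Dr59.smAt_df (hg x)).mul (hb x (h1 hx))).of_le (by simp))
    (hK.of_isClosed_subset (isClosed_tsupport _) h1) _

theorem intOn_fsmul (hO : Ori I O) (hg : Sm I g) (hc : HasCompactSupport g)
    (hb : Dr59.Sm I (tsupport g) b) : IntOn I O (g • b) univ :=
  have h := tsupport_smul_subset_left g b
  hO.intOn_of_hcs (cAt_of_tsupport fun x hx => ((hb x (h hx)).fsmul le_rfl (hg x)).of_le (by simp))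
    (hc.of_isClosed_subset (isClosed_tsupport _) h) _

theorem integ_df_mul_congr (h0 : ∀ x, x ∉ K → df I g x = 0) (e : ∀ x ∈ K, a x = b x) :
    integ I O (df I g * a) = integ I O (df I g * b) := congrArg _ (funext fun x => by
  by_cases hx : x ∈ K
  · rw [Pi.mul_apply, Pi.mul_apply, e x hx]
  · rw [Pi.mul_apply, Pi.mul_apply, h0 x hx, zero_mul, zero_mul])

theorem df_mul' (hg : Sm I g) (hg' : Sm I g') (x : M) :
    df I (g * g') x = g' x • df I g x + g x • df I g' x := by
  have e : Dr59.fn E (g * g') = g • Dr59.fn E g' := funext fun y => by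
    simp only [Dr59.fn, Pi.mul_apply, Pi.smul_apply', map_mul, Algebra.smul_def]
  have h := (hg x).mdifferentiableAt ne0
  have h' := (hg' x).mdifferentiableAt ne0
  rw [← Dr59.dM_fn (g := g * g') (h.mul h'), e, Dr59.dM_fsmul ne0 h (Dr59.cAt_fn le_rfl (hg' x)),
    Dr59.dM_fn h', Dr59.fn, ← Algebra.commutes, ← Algebra.smul_def]

/-- `g` varies only on `K`, and slowly for the Chern–Simons form -/
structure Thin (O : M → Ext E) (F : Fr I M ι) (g : M → ℝ) (K : Set M) (c : ℝ) : Prop where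
  hO : Ori I O
  sm : Sm I g
  cpt : IsCompact K
  off : ∀ x, x ∉ K → df I g x = 0
  c0 : 0 ≤ c
  bd : ∀ a, Fo I 1 a → |integ I O (df I g * (a * dM I a))| ≤ c * en F K (dM I a)

namespace Thin

theorem mono (h : Thin O F g K c) (hK : IsCompact K') (hs : K ⊆ K') (hc : c ≤ c') :
    Thin O F g K' c' :=
  ⟨h.hO, h.sm, hK, fun x hx => h.off x fun k => hx (hs k), h.c0.trans hc, fun a ha =>
    (h.bd a ha).trans (mul_le_mul hc (en_mono hs (intOn_en F hK ha.d.sm)) (en_nonneg _ _ _)
      (h.c0.trans hc))⟩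

theorem ori (h : Thin O F g K c) (hO : Ori I O') (hs : SameOn O O' univ) : Thin O' F g K c :=
  ⟨hO, h.sm, h.cpt, h.off, h.c0, fun a ha => integ_congr_ori h.hO hO hs _ ▸ h.bd a ha⟩

theorem congr (h : Thin O F g K c) (hg : Sm I g') {ε : ℝ} (hε : |ε| ≤ 1)
    (e : ∀ x, df I g' x = ε • df I g x) : Thin O F g' K c :=
  ⟨h.hO, hg, h.cpt, fun x hx => by rw [e, h.off x hx, smul_zero], h.c0, fun a ha => by
    rw [show df I g' = ε • df I g from funext e, smul_mul_assoc, integ_smul, abs_mul]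
    exact (mul_le_of_le_one_left (abs_nonneg _) hε).trans (h.bd a ha)⟩

theorem one_sub (h : Thin O F g K c) : Thin O F (1 - g) K c :=
  h.congr (contMDiff_const.sub h.sm) (ε := -1) (by simp) fun x => by
    rw [Dr59.df_one_sub (h.sm x), neg_one_smul]

theorem const (hO : Ori I O) (F : Fr I M ι) (r : ℝ) : Thin O F (fun _ => r) ∅ 0 :=
  have e : df I (fun _ : M => r) = 0 := funext fun _ => Dr59.df_eq_zero EventuallyEq.rfl
  ⟨hO, contMDiff_const, isCompact_empty, fun x _ => congrFun e x, le_rfl, fun a _ => by simp [e]⟩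

theorem sub' (h : Thin O F g K c) (h' : Thin O F g' K' c') (ha : Fo I 1 a) :
    |integ I O (df I (g - g') * (a * dM I a))| ≤ c * en F K (dM I a) + c' * en F K' (dM I a) := by
  have s := (ha.mul ha.d).sm
  rw [show df I (g - g') = df I g - df I g' from funext fun x => Dr59.df_sub (h.sm x) (h'.sm x),
    sub_mul, integ_sub (intOn_df_mul h.hO h.sm h.cpt h.off fun x _ => s x)
      (intOn_df_mul h.hO h'.sm h'.cpt h'.off fun x _ => s x)]
  exact (abs_sub _ _).trans (add_le_add (h.bd a ha) (h'.bd a ha))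

theorem off_sub (h : Thin O F g K c) (h' : Thin O F g' K' c') (x : M) (hx : x ∉ K ∪ K') :
    df I (g - g') x = 0 := by
  rw [Dr59.df_sub (h.sm x) (h'.sm x), h.off x fun k => hx (.inl k), h'.off x fun k => hx (.inr k),
    sub_self]

theorem sub (h : Thin O F g K c) (h' : Thin O F g' K' c') : Thin O F (g - g') (K ∪ K') (c + c') :=
  ⟨h.hO, h.sm.sub h'.sm, h.cpt.union h'.cpt, h.off_sub h', add_nonneg h.c0 h'.c0, fun a ha => by
    have i := intOn_en F (h.cpt.union h'.cpt) ha.d.sm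
    rw [add_mul]
    exact (h.sub' h' ha).trans (add_le_add
      (mul_le_mul_of_nonneg_left (en_mono subset_union_left i) h.c0)
      (mul_le_mul_of_nonneg_left (en_mono subset_union_right i) h'.c0))⟩

/-- disjoint necks do not add their constants -/
theorem sub_disj (h : Thin O F g K c) (h' : Thin O F g' K' c) (hd : Disjoint K K') :
    Thin O F (g - g') (K ∪ K') c :=
  ⟨h.hO, h.sm.sub h'.sm, h.cpt.union h'.cpt, h.off_sub h', h.c0, fun a ha => by
    refine (h.sub' h' ha).trans_eq ?_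
    rw [← mul_add, en, en, en, setIntegral_union hd h'.cpt.measurableSet
      (intOn_en F h.cpt ha.d.sm) (intOn_en F h'.cpt ha.d.sm)]⟩

theorem neg (h : Thin O F g K c) : Thin O F (-g) K c := by
  have := (const h.hO F 0).sub h
  rwa [show (fun _ => 0) - g = -g from zero_sub g, empty_union, zero_add] at this

theorem add (h : Thin O F g K c) (h' : Thin O F g' K' c') :
    Thin O F (g + g') (K ∪ K') (c + c') := by simpa using h.sub h'.neg

theorem add_disj (h : Thin O F g K c) (h' : Thin O F g' K' c) (hd : Disjoint K K') :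
    Thin O F (g + g') (K ∪ K') c := by simpa using h.sub_disj h'.neg hd

theorem mul (h : Thin O F g K c) (h' : Thin O F g' K' c') (h1 : ∀ x ∈ K, g' x = 1)
    (h2 : ∀ x ∈ K', g x = 1) : Thin O F (g * g') (K ∪ K') (c + c') :=
  (h.add h').congr (h.sm.mul h'.sm) (ε := 1) (by simp) fun x => by
    rw [df_mul' h.sm h'.sm, one_smul, Dr59.df_add (h.sm x) (h'.sm x)]
    congr 1
    · by_cases k : x ∈ K
      · rw [h1 x k, one_smul]
      · rw [h.off x k, smul_zero]
    · by_cases k : x ∈ K'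
      · rw [h2 x k, one_smul]
      · rw [h'.off x k, smul_zero]

theorem prod {α : Type*} (hO : Ori I O) (s : Finset α) {g : α → M → ℝ} {K : α → Set M} {c : α → ℝ}
    (h : ∀ i ∈ s, Thin O F (g i) (K i) (c i)) (h1 : ∀ i ∈ s, ∀ k ∈ s, i ≠ k → ∀ x ∈ K i, g k x = 1) :
    Thin O F (∏ i ∈ s, g i) (⋃ i ∈ s, K i) (∑ i ∈ s, c i) := by
  classical
  induction s using Finset.induction_on with
  | empty => simpa [Pi.one_def] using const hO F 1
  | insert i s hi ih =>
    have m : ∀ {k}, k ∈ s → k ∈ insert i s := Finset.mem_insert_of_mem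
    have m0 := Finset.mem_insert_self i s
    rw [Finset.prod_insert hi, Finset.sum_insert hi, Finset.set_biUnion_insert]
    refine (h i m0).mul (ih (fun k hk => h k (m hk)) fun k hk l hl => h1 k (m hk) l (m hl))
      (fun x hx => ?_) fun x hx => ?_
    · rw [Finset.prod_apply]
      exact Finset.prod_eq_one fun k hk => h1 i m0 k (m hk) (fun e => hi (e ▸ hk)) x hx
    · obtain ⟨k, hk, h2⟩ := mem_iUnion₂.1 hx
      exact h1 k (m hk) i m0 (fun e => hi (e ▸ hk)) x h2

/-- the bound for a form defined near `K` -/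
theorem bd' (h : Thin O F g K c) (hU : IsOpen U) (hK : K ⊆ U) (hb : Dr59.Sm I U b) (h1 : Dg 1 U b) :
    |integ I O (df I g * (b * dM I b))| ≤ c * en F K (dM I b) := by
  obtain ⟨a, ha, -, -, e⟩ := exists_fo h.cpt hU hK hb h1
  have e' : ∀ x ∈ K, dM I b x = dM I a x := fun x hx => (Dr59.dM_congr (e x hx)).symm
  rw [en_congr h.cpt.measurableSet e', integ_df_mul_congr (b := a * dM I a) h.off fun x hx => by
    rw [Pi.mul_apply, Pi.mul_apply, e' x hx, (e x hx).eq_of_nhds]]
  exact h.bd a ha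

/-- **LOC-ID**: `f = f₀ + d a`, `f₀ = 0` on `K` -/
theorem loc_id (h : Thin O F g K c) (hc : HasCompactSupport g) (hU : IsOpen U)
    (hg : tsupport g ⊆ U) (hK : K ⊆ U) (h0 : Cl I 2 U f₀) (ha : Dr59.Sm I U a) (h1 : Dg 1 U a)
    (e : ∀ x ∈ U, f x = f₀ x + dM I a x) (z : ∀ x ∈ K, f₀ x = 0) :
    |integ I O (g • (f * f)) - integ I O (g • (f₀ * f₀))| ≤ c * en F K f := by
  have hf : Dr59.Sm I U f := (h0.sm.add ha.dM).congr hU e
  have hb : Dr59.Sm I U (f₀ + f₀ + dM I a) := (h0.sm.add h0.sm).add ha.dM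
  have e1 : g • (f * f) - g • (f₀ * f₀) = g • dM I (a * (f₀ + f₀ + dM I a)) := by
    funext x
    simp only [Pi.sub_apply, Pi.smul_apply', ← smul_sub]
    by_cases hx : x ∈ U
    · have cm : f₀ x * dM I a x = dM I a x * f₀ x :=
        ext_ev (by rw [Dr59.inv_of_deg (h0.dg x hx)]; simp) _
      rw [Dr59.dM_mul ne0 (ha x hx) (hb x hx),
        Dr59.dM_add ne0 ((h0.sm.add h0.sm) x hx) (ha x hx).dM, (h0.add h0).cl x hx, (ha x hx).dd]
      simp only [Pi.mul_apply, Pi.add_apply, e x hx, mul_add, add_mul, cm, add_zero, mul_zero]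
      congr 1
      abel
    · rw [image_eq_zero_of_notMem_tsupport fun k => hx (hg k), zero_smul, zero_smul]
  rw [← integ_sub (intOn_fsmul h.hO h.sm hc ((hf.mul hf).mono hg))
      (intOn_fsmul h.hO h.sm hc ((h0.sm.mul h0.sm).mono hg)), e1,
    integ_fsmul_dM h.hO h.sm hc fun x hx => (ha.mul hb) x (hg hx), abs_neg,
    integ_df_mul_congr (b := a * dM I a) h.off fun x hx => by
      simp only [Pi.mul_apply, Pi.add_apply, z x hx, zero_add],
    en_congr (f := f) (f' := dM I a) h.cpt.measurableSet fun x hx => by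
      rw [e x (hK hx), z x hx, zero_add]]
  exact h.bd' hU hK ha h1

end Thin

theorem df_mul_self (hg : Sm I g) (x : M) : df I (g * g) x = (2 * g x) • df I g x := by
  rw [df_mul' hg hg, ← add_smul, two_mul]

/-- the square of the localised form -/
theorem cut_sq (hg : Sm I g) {x : M} (h2 : IsDeg 2 (f x)) (h1 : df I g x ≠ 0 → IsDeg 1 (b x)) :
    (cut I g f b * cut I g f b) x = ((g * g) • (f * f) + df I (g * g) * (b * f)) x := by
  simp only [Pi.mul_apply, Pi.add_apply, Pi.smul_apply', Dr59.cut_apply, df_mul_self hg]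
  by_cases h : df I g x = 0
  · simp [h, smul_smul]
  have cm : ∀ u, f x * u = u * f x := ext_ev (by rw [Dr59.inv_of_deg h2]; simp)
  have z : df I g x * b x * (df I g x * b x) = 0 := by
    rw [mul_assoc, ← mul_assoc (b x), show b x * df I g x = -(df I g x * b x) by
      rw [df, R208.F.io_mul, Dr59.inv_of_deg (h1 h)]; simp, neg_mul, mul_neg, mul_assoc,
      ← mul_assoc, df, R208.F.io_sq, zero_mul, neg_zero]
  rw [add_mul, mul_add, mul_add, z, smul_mul_smul_comm, smul_mul_assoc, mul_smul_comm,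
    cm (df I g x * b x), add_zero, add_assoc, ← add_smul, two_mul, smul_mul_assoc, mul_assoc]

/-- **LOC-CUT**: `f = d b` on `K` -/
theorem Thin.loc_cut (h : Thin O F (g * g) K c) (hg : Sm I g) (h0 : ∀ x, x ∉ K → df I g x = 0)
    (hU : IsOpen U) (hK : K ⊆ U) (hb : Dr59.Sm I U b) (h1 : Dg 1 U b) (h2 : ∀ x, IsDeg 2 (f x))
    (e : ∀ x ∈ K, dM I b x = f x) (hi : IntOn I O ((g * g) • (f * f)) univ) :
    |integ I O (cut I g f b * cut I g f b) - integ I O ((g * g) • (f * f))| ≤ c * en F K f := by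
  have e1 : df I (g * g) * (b * f) = df I (g * g) * (b * dM I b) := funext fun x => by
    by_cases hx : x ∈ K
    · simp only [Pi.mul_apply, e x hx]
    · simp only [Pi.mul_apply, h.off x hx, zero_mul]
  rw [show cut I g f b * cut I g f b = _ from
    funext fun x => cut_sq hg (h2 x) fun k => h1 x (hK (by_contra fun k' => k (h0 x k'))), e1,
    integ_add hi (intOn_df_mul h.hO h.sm h.cpt h.off ((hb.mul hb.dM).mono hK)), add_sub_cancel_left,
    ← en_congr h.cpt.measurableSet e]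
  exact h.bd' hU hK hb h1

/-! ### the square in terms of the self-dual part -/

variable {o : ι → ι → ι → ι → M → ℝ}

theorem rat_sq (h : OK F o) {x : M} (hf : IsDeg 2 (f x)) : rat (vol F o) (f * f) x =
    ‖hs F o x (c2 F f x)‖ ^ 2 - ‖c2 F f x‖ ^ 2 / 2 := by
  rw [Qab60.rat_mul h hf, inner_st h, norm_c2_sq h]; ring

theorem integ_sq (h : OK F o) (g : M → ℝ) (hf : ∀ x, g x ≠ 0 → IsDeg 2 (f x)) :
    integ I (vol F o) (g • (f * f)) =
      ∫ x, g x * (‖hs F o x (c2 F f x)‖ ^ 2 - ‖c2 F f x‖ ^ 2 / 2) ∂F.μ := by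
  rw [(unitV h).integ_eq h.isv, rat_fsmul]
  refine congrArg _ (funext fun x => ?_)
  by_cases hx : g x = 0
  · rw [Pi.mul_apply, hx, zero_mul, zero_mul]
  · rw [Pi.mul_apply, rat_sq h (hf x hx)]

theorem norm_hs' (F : Fr I M ι) (o : ι → ι → ι → ι → M → ℝ) (f : M → Ext E) (x : M) :
    ‖hs F o x (c2 F f x)‖ ^ 2 = ∑ s : ι × ι, (∑ t : ι × ι, Map77.sdm (fun a b => F.P a b x)
      (fun a b c d => o a b c d x) s t * k2 F f t.1 t.2 x) ^ 2 := by
  rw [EuclideanSpace.norm_sq_eq]
  simp only [Real.norm_eq_abs, sq_abs, hs, sd, Map77.idx_apply]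
  rfl

theorem cont_hs (h : OK F o) (hf : ∀ x, SmAt I f x) :
    Continuous fun x => ‖hs F o x (c2 F f x)‖ ^ 2 := by
  have hP : ∀ a b, Continuous (F.P a b) := fun a b => (F.P_sm a b).continuous
  have ho : ∀ a b c d, Continuous (o a b c d) := fun a b c d => (h.sm a b c d).continuous
  have hk : ∀ a b, Continuous (k2 F f a b) := fun a b =>
    continuous_iff_continuousAt.2 fun x => (sa_k2 F (hf x) a b).continuousAt
  simp only [norm_hs', Map77.sdm]
  fun_prop

/-- the self-dual part in terms of a background -/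
theorem norm_hs {lam : Type} [Fintype lam] {B : Base M ι lam} {G : Geo I M ι lam} (hG : G.OK B)
    (f : M → Ext E) (x : M) : ‖hs G.F B.o x (c2 G.F f x)‖ ^ 2 =
      ∑ s : ι × ι, (∑ t : ι × ι, B.sd x s t * k2 G.F f t.1 t.2 x) ^ 2 := by
  rw [norm_hs', hG.P]
  rfl

theorem integ_sq' (h : OK F o) (hf : ∀ x, IsDeg 2 (f x))
    (hi : Integrable (fun x => g x * ‖c2 F f x‖ ^ 2) F.μ)
    (hi' : Integrable (fun x => g x * ‖hs F o x (c2 F f x)‖ ^ 2) F.μ) :
    integ I (vol F o) (g • (f * f)) = ∫ x, g x * ‖hs F o x (c2 F f x)‖ ^ 2 ∂F.μ -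
      (∫ x, g x * ‖c2 F f x‖ ^ 2 ∂F.μ) / 2 ∧ IntOn I (vol F o) (g • (f * f)) univ := by
  refine ⟨?_, ?_⟩
  · rw [integ_sq h g fun x _ => hf x, ← integral_div, ← integral_sub hi' (hi.div_const 2)]
    exact congrArg _ (funext fun x => by ring)
  · rw [IntOn, (unitV h).dens_eq h.isv, rat_fsmul, integrableOn_univ]
    exact (hi'.sub (hi.div_const 2)).congr (.of_forall fun x => by
      simp only [Pi.sub_apply, Pi.mul_apply, rat_sq h (hf x)]; ring)

theorem integrable_cut {u : M → ℝ} (F : Fr I M ι) (hg : Continuous g) (hc : HasCompactSupport g)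
    (hu : Continuous u) : Integrable (fun x => g x * u x) F.μ :=
  (hg.mul hu).integrable_of_hasCompactSupport hc.mul_right

/-- **LOC-AB**: the square of the localised class, `f = f₀ + d a` -/
theorem Thin.loc_ab (h : Thin (vol F o) F g K c) (hF : OK F o) (hc : HasCompactSupport g)
    (hf : Fo I 2 f) (hU : IsOpen U) (hg : tsupport g ⊆ U) (hK : K ⊆ U) (h0 : Cl I 2 U f₀)
    (ha : Dr59.Sm I U a) (h1 : Dg 1 U a) (e : ∀ x ∈ U, f x = f₀ x + dM I a x)
    (z : ∀ x ∈ K, f₀ x = 0) :
    |integ I (vol F o) (g • (f₀ * f₀)) - (∫ x, g x * ‖hs F o x (c2 F f x)‖ ^ 2 ∂F.μ -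
      (∫ x, g x * ‖c2 F f x‖ ^ 2 ∂F.μ) / 2)| ≤ c * en F K f := by
  rw [← (integ_sq' hF hf.dg (integrable_cut F h.sm.continuous hc (cont_en F hf.sm))
    (integrable_cut F h.sm.continuous hc (cont_hs hF hf.sm))).1, abs_sub_comm]
  exact h.loc_id hc hU hg hK h0 ha h1 e z

/-- **LOC-AB** for the cut form, `f = d b` on `K`; no compactness -/
theorem Thin.loc_ab' (h : Thin (vol F o) F (g * g) K c) (hF : OK F o) (hg : Sm I g)
    (h0 : ∀ x, x ∉ K → df I g x = 0) (hU : IsOpen U) (hK : K ⊆ U) (hb : Dr59.Sm I U b)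
    (h1 : Dg 1 U b) (h2 : ∀ x, IsDeg 2 (f x)) (e : ∀ x ∈ K, dM I b x = f x)
    (hi : Integrable (fun x => (g * g) x * ‖c2 F f x‖ ^ 2) F.μ)
    (hi' : Integrable (fun x => (g * g) x * ‖hs F o x (c2 F f x)‖ ^ 2) F.μ) :
    |integ I (vol F o) (cut I g f b * cut I g f b) -
      (∫ x, (g * g) x * ‖hs F o x (c2 F f x)‖ ^ 2 ∂F.μ -
        (∫ x, (g * g) x * ‖c2 F f x‖ ^ 2 ∂F.μ) / 2)| ≤ c * en F K f := by
  obtain ⟨k1, k2⟩ := integ_sq' hF h2 hi hi'
  rw [← k1]
  exact h.loc_cut hg h0 hU hK hb h1 h2 e k2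

theorem integ_cut (h : ∀ x, f₀ x ≠ 0 → g x = 1) :
    integ I O (g • (f₀ * f₀)) = integ I O (f₀ * f₀) := congrArg _ (funext fun x => by
  by_cases hx : f₀ x = 0
  · simp only [Pi.smul_apply', Pi.mul_apply, hx, zero_mul, smul_zero]
  · rw [Pi.smul_apply', h x hx, one_smul])

/-- the energy is controlled by the square -/
theorem en_eq (h : OK F o) (hf : ∀ x, IsDeg 2 (f x)) (hi : Integrable (fun x => ‖c2 F f x‖ ^ 2) F.μ)
    (hi' : Integrable (fun x => ‖hs F o x (c2 F f x)‖ ^ 2) F.μ) :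
    en F univ f = 2 * (∫ x, ‖hs F o x (c2 F f x)‖ ^ 2 ∂F.μ - integ I (vol F o) (f * f)) := by
  have := (integ_sq' (g := 1) h hf (by simpa using hi) (by simpa using hi')).1
  simp only [one_smul, Pi.one_apply, one_mul] at this
  rw [this, en, Measure.restrict_univ]; ring

/-- the pairing of `dg` with a closed form only depends on `g` up to compact support -/
theorem integ_df_congr {k : ℕ} (hO : Ori I O) (hg : Sm I g) (hg' : Sm I g') (hK : IsCompact K)
    (hK' : IsCompact K') (h0 : ∀ x, x ∉ K → df I g x = 0) (h0' : ∀ x, x ∉ K' → df I g' x = 0)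
    (hc : HasCompactSupport (g - g')) (hb : Cl I k (K ∪ K' ∪ tsupport (g - g')) b) :
    integ I O (df I g * b) = integ I O (df I g' * b) := by
  have h := integ_fsmul_dM (g := g - g') hO (hg.sub hg') hc fun x hx => hb.sm x (.inr hx)
  rw [show (g - g') • dM I b = 0 from funext fun x => by
      by_cases hx : x ∈ tsupport (g - g')
      · rw [Pi.smul_apply', hb.cl x (.inr hx), smul_zero]; rfl
      · rw [Pi.smul_apply', image_eq_zero_of_notMem_tsupport hx, zero_smul]; rfl,
    show df I (g - g') = df I g - df I g' from funext fun x => Dr59.df_sub (hg x) (hg' x),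
    sub_mul, integ_sub (intOn_df_mul hO hg hK h0 fun x hx => hb.sm x (.inl (.inl hx)))
      (intOn_df_mul hO hg' hK' h0' fun x hx => hb.sm x (.inl (.inr hx))), integ_zero] at h
  linarith

end Crest.Agent.X212.Loc8
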