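import Crest.Agent.X212.Sw87.MoP
import Crest.Agent.X212.Geo28.As5

/-!
# Row 212, GEO engine (helper8): the caps
-/

set_option autoImplicit false
set_option linter.unusedSectionVars false
noncomputable section
open scoped Manifold ContDiff Topology InnerProductSpace
open MeasureTheory Set Function Filter

namespace Crest.Agent.X212.Loc8.Cap
open An Cyf70 Sw Flo2 Geo28 Met55 Pen22 Sw87 Sw87.Mo
open Bor5.T (O3 Q3 Pb Cur)
open Dr59 (Cs Cl Ex pm mf)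
open Lab56 (CI)

variable {mk : Mk κ0 L0 ν0} {A : O3}

/-- the model with one incoming end -/
abbrev mt1 (T : Pm (some A) none none) (g : EO κ0 (some A)) (h : g.et.Std) : MT κ0 T.X where
  N := Unit
  nb _ := ⟨g.et, some false, T.ki⟩
  std _ := h
  dj := Subsingleton.pairwise
  cpt R := by
    have e : {x | ∀ _ : Unit, ((some false : Option Bool) = some true → T.ki.tm x ≤ R) ∧
        ((some false : Option Bool) = some false → -R ≤ T.ki.tm x)} = {x | -R ≤ T.ki.tm x} :=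
      Set.ext fun x => ⟨fun h => (h ()).2 rfl, fun h _ => ⟨nofun, fun _ => h⟩⟩
    exact e ▸ (T.cpt |R|).of_isClosed_subset (isClosed_le continuous_const (Nc.cont T.ki))
      fun p hp => ⟨(neg_le_neg (le_abs_self R)).trans hp, abs_nonneg R, abs_nonneg R⟩
  nc := 0
  bx := Fin.elim0
  src j := j.elim0
  off j := j.elim0
  pin := some ()
  pout := none
  p3 := none
  inn _ := ⟨fun _ => rfl, fun _ => rfl⟩
  out _ := ⟨nofun, fun h => h.elim nofun nofun⟩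
  ne3 := nofun

section
variable {T : Pm (some A) none none} {g : EO κ0 (some A)} {h : g.et.Std} {k : ℕ} {β : MB (mt1 T g h) k}

theorem onp : OnP T (mt1 T g h) g () () := ⟨rfl, rfl, rfl⟩

theorem ei (ρ : Rf T) : EI (mt1 T g h) (mt1 T g h) ρ.toDif.symm.φ Eq :=
  ⟨fun _ _ _ => ⟨T.ki, rfl, fun y σ hσ => by
    have l : σ < 0 := by linarith [jm_in.1 hσ]
    have m : (y, σ) ∈ (Nc.k T.ki).source := (Nc.src T.ki).ge ⟨trivial, l⟩
    exact (ρ.φ.symm_apply_eq.2 (ρ.id _ fun c =>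
      (c.1.trans_eq (Nc.tmk T.ki _ m)).not_gt l).symm).symm⟩,
    fun _ _ _ _ _ _ => ⟨fun _ => rfl, fun _ => rfl⟩, rel_refl _, rel_refl _, rel_refl _, rfl,
    fun j => j.elim0⟩

theorem ro_ex (gn : Gn mk) {𝒯 I} (ts : TS mk 𝒯) (F : FM 𝒯 β I) (hk : k ≤ 2) (w : ∀ a, β.wl a = none)
    (fo : ∀ i, (F.c i).fo = 0) : ∃ C, ∀ i, Ro mk ((F.c i).gc (ens0 𝒯 _) C) := by
  obtain ⟨R, rfl⟩ := gn.fm F (fun _ => {0}) ts hk rfl (fun h => (h rfl).elim) (fun _ _ => nofun)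
    (.inr ⟨rfl, rfl, w⟩) (fun _ a j e => nomatch (w a).symm.trans e) (fun _ _ => nofun)
    ((finite_singleton 0).subset (iUnion_subset fun _ => Subset.rfl))
    (fun i => ⟨finite_singleton _, fun _ e => e ▸ .zero, fun t _ => subset_convexHull _ _ (by
      rw [fo]; rfl)⟩) nofun
  exact ⟨R.C, R.ro⟩

theorem fc1 (H : Lf) {c' c : MC μ0 β} {w} (n : ℤ) (ty : c'.ty () = c.ty ())
    (hw : CI T.X.I c'.m c.m w univ) (hu : Gau A.Y.I (c'.ec ()).u)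
    (nk : ∀ x ∈ ((mt1 T g h).nb ()).V (1 / 4), w (((mt1 T g h).nb ()).k x) =
      (c'.ec ()).u x.1 ^ (-n) • c'.m.p (((mt1 T g h).nb ()).k x))
    (fo : c.fo = c'.fo) (m : c.mc = 0) (m' : c'.mc = 0) (D : Set (Tk k)) (ens C) :
    (c.gc ens C).Fc (c'.gc ens C) D id (.refl _) n :=
  slf H.iso n (fun _ => ty) hw (fun _ y => (c'.ec ()).u y ^ (-n)) (fun _ => Emo56.gau_pow hu _)
    (fun _ _ => nk) (fun _ _ => funext fun _ => (if_pos rfl).symm) rfl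
    (fun t _ => ⟨congrFun fo t, congrFun m t, congrFun m' t⟩) _ _ _ _

theorem tw_fc (H : Lf) {c : ℤ → MC μ0 β} (tw : Tw (fun n => (c n).toMM) ())
    (hu : Gau A.Y.I ((c 0).ec ()).u) (fo : ∀ n, (c n).fo = 0) (m : ∀ n, (c n).mc = 0) (n)
    (D : Set (Tk k)) (ens C) :
    ((c n).gc ens C).Fc ((c 0).gc ens C) D id (.refl _) (-n) :=
  let ⟨ty, _, hw, nk⟩ := tw n
  fc1 H (-n) (ty ()).symm hw hu (fun x hx => by
    rw [neg_neg]; exact nk x ⟨trivial, jm_mono _ (by norm_num) hx.2⟩) ((fo n).trans (fo 0).symm)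
    (m n) (m 0) _ _ _

end

variable {𝓔 : Ends mk} {G : CG}

/-- the model of a cap -/
abbrev mc (𝓔 : Ends mk) (G : CG) (T : Pm (some G.R.toO3) none none) : MT κ0 T.X :=
  mt1 T (𝓔.r G).g (𝓔.r G).std

theorem ex_c (H : Lf) {T : Pm (some G.R.toO3) none none} {β : MB (mc 𝓔 G T) 0}
    (hβ : ∀ i, ((mc 𝓔 G T).nb i).Rl (β.e 0) 2 (3 / 4)) (s : G.R.L) (d : T.L) (hd : T.ki.Cl d s) :
    ∃ c : ℤ → MC μ0 β, (∀ n, (c n).ty () = 𝓔.rty G s ∧ (c n).Cl d ∧ (c n).fo = 0 ∧ (c n).mc = 0) ∧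
      Tw (fun n => (c n).toMM) () := by
  obtain ⟨M, hM, tw⟩ := H.em β (fun _ => (𝓔.r G).ec s) (fun _ => (𝓔.r G).cl s) (fun _ => s) d hβ
    (fun _ => (𝓔.r G).sty s) (fun _ => (𝓔.r G).rp s) (fun _ => hd) (fun _ => ((𝓔.r G).ok s).u) (some ())
  choose c k0 k1 k2 _ using fun n => H.cst β (M n) 0 (hM n).2.2.on .zero fun _ _ _ _ => rfl
  obtain rfl : (fun n => (c n).toMM) = M := funext k0
  exact ⟨c, fun n => ⟨(hM n).2.1 (), (hM n).2.2, funext (k1 n), k2 n⟩, tw () rfl⟩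

theorem ex_pf (gn : Gn mk) {T : Pm (some G.R.toO3) none none} {β : MB (mc 𝓔 G T) 0} {s I}
    (c : I → MC μ0 β) (d : I → T.L)
    (h : ∀ i, (c i).ty () = 𝓔.rty G s ∧ (c i).Cl (d i) ∧ (c i).fo = 0 ∧ (c i).mc = 0) :
    ∃ N : PF (𝓔.TT G ∅) (𝓔.obR G s) none none β I, N.c = c ∧ N.d = d ∧ ∀ i, N.s i = (𝓔.r G).cl s := by
  let F : FM (𝓔.TT G ∅) β I :=
    ⟨c, d, fun i => (h i).2.1, fun i => (h i).2.2.2, fun i _ => .inr ⟨s, (h i).1⟩⟩
  obtain ⟨C, ro⟩ := ro_ex gn (gn.ts 𝓔 G ∅ finite_empty) F zero_le_two (fun a => a.elim0)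
    fun i => (h i).2.2.1
  exact ⟨⟨⟨F, C, ro⟩, fun _ => (𝓔.r G).cl s, fun _ => (), fun _ => (), fun i => congrArg some (h i).1,
    fun _ => rfl, fun _ => rfl⟩, rfl, rfl, fun _ => rfl⟩

theorem ex_if (gn : Gn mk) {β : MB (mc 𝓔 G G.N) 0} {β₁ : MB (mc 𝓔 G G.N) 1} (ρ : Rf G.N)
    (B : Bl μ0 β β ρ.toDif β₁) {s I} (N : PF (𝓔.TT G ∅) (𝓔.obR G s) none none β I) (r : I → I)
    (ty : ∀ i, (N.c i).ty () = 𝓔.rty G s) (fo : ∀ i, (N.c i).fo = 0) (hr : ∀ i, N.d (r i) = ρ.r (N.d i)) :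
    ∃ F : IF N r ρ.toDif β₁, ∀ i, (F.c i).fo = 0 := by
  have H := gn.lf
  choose c n im _ using fun i => B.im H.pz H.pb H.iso H.trp (ei ρ) (N.c i) (N.c (r i))
    (fun _ _ _ => (ty _).trans (ty i).symm) (N.cl i) (N.cl (r i)) (hr i ▸ ρ.pb _)
    (fun j => lgE ((N.ro (r i)).en j)) nofun
  have f : ∀ i, (c i).fo = 0 := fun i => funext fun t => by
    rw [(im i).fo, fo, fo]; simp
  let F : FM (𝓔.TT G ∅) β₁ I := ⟨c, N.d, fun i => (im i).cl _ (N.cl i), fun i => (im i).mc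
    (congrFun (N.mc i) 0) (congrFun (N.mc _) 0) rfl, fun i j => (im i).M ▸ N.ty i j⟩
  obtain ⟨C, ro⟩ := ro_ex gn (gn.ts 𝓔 G ∅ finite_empty) F one_le_two B.wl f
  exact ⟨⟨⟨F, C, ro⟩, n, im, rfl⟩, f⟩

theorem prp_of (H : Lf) {k} {β : MB (mc 𝓔 G G.N) k} (w : ∀ a, β.wl a = none) {𝒯}
    (F : RF mk 𝒯 β (XS G G.c0 × ℤ)) (hd : ∀ x, F.d (x, 0) = x.1)
    (ty : ∀ x, (F.c (x, 0)).ty () = 𝓔.rty G G.c0) :
    F.Prp (fun p : XS G G.c0 × ℤ => (p.1, 0)) Prod.snd := by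
  classical
  obtain ⟨D, hD, fin⟩ := G.fin
  obtain ⟨e, he, -, ne⟩ := G.ext
  have sm : ∀ i, Sm ((mc 𝓔 G G.N).nb i).e.A.Y.I ((mc 𝓔 G G.N).nb i).e.ζ :=
    fun _ => ((𝓔.r G).sty G.c0).ok.sζ
  obtain ⟨f, r, h1, h2, -, h4, -⟩ := H.nrm ((mc 𝓔 G G.N).nb ()) e (𝓔.r G).h2 he
  obtain ⟨e₁, k1, k2⟩ := H.tf.ex β (ens0 𝒯 _) F.C f (fun _ => r) h1 sm fun _ _ => h2
  choose T hT using fun f : D => tf_of H β (fun a _ e => nomatch (w a).symm.trans e) sm (ens0 𝒯 _) F.C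
    ((hD f f.2).mono (subset_univ _)) (onp.z (hD f f.2))
  refine ⟨insert e₁ (Finset.univ.image T), fun R => ?_⟩
  choose Q hQ using fun f => hT f R
  obtain ⟨Q₀, h0⟩ := Finite.exists_le Q
  have cp := fun x : XS G G.c0 => H.tf.cap (F.c (x, 0)) (ens0 𝒯 _) F.C e₁ f () k2 h1 rfl rfl rfl w
    (fun z => ne (h4 ((congrFun k1 ()).symm.trans z))) (ty x ▸ (𝓔.r G).per G.c0)
    ((F.ro (x, 0)).en ()).u R
  refine (((fin Q₀).preimage Subtype.val_injective.injOn).biUnion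
    fun x _ => (cp x).image (Prod.mk x)).subset fun p hp => ?_
  obtain ⟨y, hy⟩ := Nvg56.exists_cur p.1.1
  exact mem_biUnion (x := p.1) ⟨p.1.2, y, hy, fun f hf => (hQ ⟨f, hf⟩ (F.c (p.1, 0)) _ y p.2
    (hd p.1 ▸ F.cl (p.1, 0)) hy (fun j => ((F.ro (p.1, 0)).en j).u) (hp _ (Finset.mem_insert_of_mem
      (Finset.mem_image_of_mem _ (Finset.mem_univ _))))).trans (h0 _)⟩
    ⟨p.2, (le_abs_self _).trans (hp _ (Finset.mem_insert_self _ _)), rfl⟩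

theorem fix (H : Lf) {β : MB (mc 𝓔 G G.B) 0} (c : MC μ0 β) (hu : Gau G.R.Y.I (c.ec ()).u) (m : c.mc = 0)
    (n) (D : Set (Tk 0)) (ens C) : (c.gc ens C).Fc (c.gc ens C) D id (.refl _) n := by
  have : Fact (Module.finrank ℝ ℂ = 1 + 1) := ⟨Complex.finrank_real_complex⟩
  have hv := Emo56.gau_pow hu (-n)
  have k : ∀ y, (c.ec ()).u y ^ (-n) ∈ Metric.sphere (0 : ℂ) 1 := fun y =>
    mem_sphere_zero_iff_norm.2 (hv.2 y)
  obtain ⟨U, s, e⟩ := G.sur (fun y => ⟨_, k y⟩) (ContMDiff.codRestrict_sphere hv.1 k)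
  refine fc1 H n rfl (c.mon.refl.smul (g := U) fun x _ => (contMDiff_coe_sphere.comp s) x) hu
    (fun x hx => ?_) rfl m m _ _ _
  have := e x.1 x.2 (by linarith [jm_in.1 hx.2])
  exact congrArg (fun z : Circle => (z : ℂ) • _) this

/-- **P-CAP** -/
theorem cap : CapStmt mk := fun gn 𝓔 G => by
  have H := gn.lf
  obtain ⟨β, hβ⟩ := H.site (mc 𝓔 G G.N) fun _ => (𝓔.r G).sp
  choose c hc tw using fun s (x : XS G s) => ex_c H hβ s x.1 x.2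
  choose N e1 e2 e3 using fun s => ex_pf gn (s := s) (fun p : XS G s × ℤ => c s p.1 p.2)
    (fun p => p.1.1) fun p => hc s p.1 p.2
  have ty : ∀ s p, ((N s).c p).ty () = 𝓔.rty G s := fun s p => e1 s ▸ (hc s p.1 p.2).1
  have fo : ∀ s p, ((N s).c p).fo = 0 := fun s p => e1 s ▸ (hc s p.1 p.2).2.2.1
  have tw' : ∀ s x, Tw (fun n => ((N s).c (x, n)).toMM) () := fun s x => e1 s ▸ tw s x
  choose βG bl using fun b => bl H.res H.bl H.pb β β (G.ρ b).toDif (ei (G.ρ b))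
  choose I fI using fun b s => ex_if gn (G.ρ b) (bl b) (N s) (fun p => (p.1.r b, 0)) (ty s) (fo s)
    fun p => by rw [e2]; rfl
  obtain ⟨βB, hB⟩ := H.site (mc 𝓔 G G.B) fun _ => (𝓔.r G).sp
  obtain ⟨cB, kB, -⟩ := ex_c H hB G.c0 G.dB G.clB
  obtain ⟨B, b1, -, b3⟩ := ex_pf gn (fun _ : Unit => cB 0) (fun _ => G.dB) fun _ => kB 0
  refine ⟨⟨_, onp, rfl, β, N, fun s p => by rw [e2], fo, e3, fun s x _ _ => tw' s x, fun s x n => ?_,
    βG, bl, I, fun b s x n => ?_, ?_, _, onp, rfl, βB, B, b1 ▸ (kB 0).2.2.1, b3 (), fun n => ?_⟩⟩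
  · exact tw_fc H (c := fun n => (N s).c (x, n)) (tw' s x) (((N s).ro (x, 0)).en ()).u
      (fun _ => fo s _) (fun _ => (N s).mc _) n _ _ _
  · refine tw_fc H (c := fun n => (I b s).c (x, n)) ?_ (((I b s).ro (x, 0)).en ()).u
      (fun _ => fI b s _) (fun _ => (I b s).mc _) n _ _ _
    exact (funext fun n => ((I b s).im (x, n)).M : (fun n => ((I b s).c (x, n)).toMM) = _) ▸ tw' s x
  · exact fun b => prp_of H (bl b).wl (I b G.c0).toRF (fun x => by rw [(I b G.c0).hd, e2])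
      fun x => ((I b G.c0).im (x, 0)).M ▸ ty _ _
  · exact fix H (B.c ()) ((B.ro ()).en ()).u (B.mc ()) n _ _ _

end Crest.Agent.X212.Loc8.Cap
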