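import Crest.Agent.X212.Loc8.Thin
import Crest.Agent.X212.Line51.Lit
import Crest.Agent.X212.Weil93.Main
import Crest.Agent.X212.Dr59.Lat

/-!
# Row 212, LOC (helper8): curvature forms of lines that are trivial off a compact set
-/

set_option autoImplicit false
set_option linter.unusedSectionVars false
noncomputable section
open scoped Manifold ContDiff Topology Matrix
open Filter
open Crest.Agent.R208.F (Ext)

namespace Crest.Agent.X212.Loc8
open Line51
open Dr59 (Cs Cl Ex HZ df dM)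

variable {E : Type} [NormedAddCommGroup E] [NormedSpace ℝ E] [FiniteDimensional ℝ E]
  [MeasurableSpace E] [BorelSpace E]
  {HM : Type} [TopologicalSpace HM] {I : ModelWithCorners ℝ E HM} [I.Boundaryless]
  {M : Type} [TopologicalSpace M] [ChartedSpace HM M] [IsManifold I ∞ M]
  [MeasurableSpace M] [BorelSpace M] [SecondCountableTopology M] [T2Space M] {K V : Set M}

variable (I) in
/-- `a` is the curvature of a line that is literally trivial off `K` -/
def RL (K : Set M) (a : M → Ext E) : Prop :=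
  ∃ (κ : Type) (_ : Fintype κ) (L : Ln E M κ) (p₀ : Matrix κ κ ℂ),
    L.On I Set.univ ∧ Pj41.Prj p₀ ∧ p₀.trace = 1 ∧ (∀ x, x ∉ K → L.p x = p₀ ∧ L.a x = 0) ∧ a = L.F I

theorem on_const {κ : Type} [Fintype κ] {p₀ : Matrix κ κ ℂ} (h : Pj41.Prj p₀) (h' : p₀.trace = 1)
    (U : Set M) : (⟨fun _ => p₀, 0⟩ : Ln E M κ).On I U :=
  ⟨fun _ _ => .const _, fun _ _ => h, fun _ _ => h', Dr59.Sm.zero, Dr59.Dg.zero⟩

theorem F_const {κ : Type} [Fintype κ] {p₀ : Matrix κ κ ℂ} (h : Pj41.Prj p₀)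
    (h' : p₀.trace = 1) (x : M) : (⟨fun _ => p₀, 0⟩ : Ln E M κ).F I x = 0 := by
  obtain ⟨s, hs⟩ := Line51.exists_unit h h'
  rw [Line51.Iso.F_fr (L := ⟨fun _ => p₀, 0⟩) (s := fun _ => s) (α := 0) isOpen_univ ⟨⟨fun _ _ => .const _, fun _ _ => hs⟩,
    fun x _ => by simp [Line51.triv]⟩ Dr59.Sm.zero trivial, Dr59.dM_zero,
    Pi.zero_apply]

theorem RL.cs {a : M → Ext E} (h : RL I K a) (hK : IsCompact K) : Dr59.Cs I 2 K a := by
  obtain ⟨κ, _, L, p₀, h1, h2, h3, h4, rfl⟩ := h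
  have z : ∀ x, x ∉ K → L.F I x = 0 := fun x hx => ((on_const h2 h3 Kᶜ).F_congr
    hK.isClosed.isOpen_compl (fun y hy => (h4 y hy).1) (fun y hy => (h4 y hy).2) hx).trans
      (F_const h2 h3 x)
  exact ⟨h1.cl_F isOpen_univ, .intro hK z, closure_minimal (Function.support_subset_iff'.2 z)
    hK.isClosed⟩

section psh
variable {E' : Type} [NormedAddCommGroup E'] [NormedSpace ℝ E'] [FiniteDimensional ℝ E']
  [MeasurableSpace E'] [BorelSpace E']
  {H' : Type} [TopologicalSpace H'] {I' : ModelWithCorners ℝ E' H'} [I'.Boundaryless]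
  {N : Type} [TopologicalSpace N] [ChartedSpace H' N] [IsManifold I' ∞ N]
  [MeasurableSpace N] [BorelSpace N] [SecondCountableTopology N] [T2Space N]

theorem RL.psh (φ : PartialDiffeomorph I I' M N ∞) {a : M → Ext E} (h : RL I K a) (hK : IsCompact K)
    (hs : K ⊆ φ.source) : RL I' (φ '' K) (Dr59.psh φ a) := by
  classical
  have cs := h.cs hK
  obtain ⟨κ, _, L, p₀, h1, h2, h3, h4, rfl⟩ := h
  have hc := (hK.image_of_continuousOn (φ.contMDiffOn_toFun.continuousOn.mono hs)).isClosed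
  have mp : Dr59.Mp I' I φ.target Set.univ φ.symm := ⟨fun x hx =>
    φ.contMDiffOn_invFun.contMDiffAt (φ.open_target.mem_nhds hx), Set.mapsTo_univ _ _⟩
  let L' : Ln E' N κ := ⟨fun z => if z ∈ φ.target then L.p (φ.symm z) else p₀, Dr59.psh φ L.a⟩
  have e1 : Set.EqOn L'.p (L.pull I' I φ.symm).p φ.target := fun _ k => if_pos k
  have e2 : Set.EqOn L'.a (L.pull I' I φ.symm).a φ.target := fun _ k => Set.indicator_of_mem k _
  have z : ∀ y, y ∉ φ '' K → L'.p y = p₀ ∧ L'.a y = 0 := fun y hy => ⟨by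
    simp only [L']
    split_ifs with k
    exacts [(h4 _ fun k' => hy ⟨_, k', φ.right_inv k⟩).1, rfl],
    Dr59.psh_eq_zero φ (fun x _ k => (h4 x k).2) hy⟩
  have t : ∀ y, y ∉ φ.target → y ∈ (φ '' K)ᶜ := fun y hy ⟨x, hx, e⟩ => hy (e ▸ φ.map_source (hs hx))
  have o1 := (h1.pull mp).congr φ.open_target e1 e2
  have o2 := (on_const (I := I') h2 h3 (φ '' K)ᶜ).congr (K := L') hc.isOpen_compl
    (fun y hy => (z y hy).1) fun y hy => (z y hy).2
  refine ⟨κ, _, L', p₀, Ln.on_of_loc fun y _ => (em (y ∈ φ.target)).elim (fun k => ⟨_, k, o1⟩)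
    fun k => ⟨_, t y k, o2⟩, h2, h3, z, _root_.funext fun y => ?_⟩
  by_cases k : y ∈ φ.target
  · rw [(h1.pull mp).F_congr φ.open_target e1 e2 k, h1.F_pull isOpen_univ φ.open_target mp k]
    exact Set.indicator_of_mem k _
  · rw [(on_const (I := I') h2 h3 (φ '' K)ᶜ).F_congr hc.isOpen_compl (fun y hy => (z y hy).1)
      (fun y hy => (z y hy).2) (t y k), F_const h2 h3]
    exact Set.indicator_of_notMem k _

end psh

variable {κ : Type} [Fintype κ] [DecidableEq κ] {L : Ln E M κ} {s : M → Matrix κ Unit ℂ}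
  {α f : M → Ext E} (hV : IsOpen V) (hK : IsCompact K) (hs : K ⊆ V)
include hV hK hs

/-- a line on `V` with a parallel frame off `K` -/
theorem rl_of_par (hL : L.On I V) (h : L.Fr I s 0 (V \ K)) :
    ∃ K', IsCompact K' ∧ K' ⊆ V ∧ RL I K' (V.indicator (L.F I)) := by
  have := I.locallyCompactSpace
  have := ChartedSpace.locallyCompactSpace HM M
  have o := hK.isClosed.isOpen_compl
  have t : (triv (0 : M → Ext E)).On I Kᶜ := on_triv Dr59.Sm.zero Dr59.Dg.zero
  obtain ⟨G, a, b, hG, ha, hb, -⟩ := exists_two hV o (Set.eq_univ_of_forall fun x =>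
    (em (x ∈ K)).imp (@hs x) id) hL t h.symm
  obtain ⟨ψ, p1, p2, p3, p4⟩ := exists_bump (I := I) hK hV hs
  have e := em_iso (Sum.inr_injective (α := κ ⊕ Unit) (β := Unit))
  obtain ⟨L', w, l1, l2, l3, -, l4, -⟩ := exists_lit hG hb.symm.toUni (ρ := 1 - ψ)
    (fun x => contMDiffAt_const.sub (p1 x)) (fun x hx k => notMem_tsupport_iff_eventuallyEq.2
      ((p4 x k).mono fun y hy => by simp [hy]) hx) (em_iso Sum.inl_injective) e
    (em_orth fun _ _ => Sum.inl_ne_inr)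
  have pc := piso_cj e Pj41.Prj.one
  refine ⟨_, p2, p3, _, _, L', _, l1, pc.prj_tgt, pc.trace_eq ▸ by simp, fun x hx => ?_,
    funext fun x => ?_⟩
  · have k := notMem_tsupport_iff_eventuallyEq.1 hx
    have k' : x ∈ Kᶜ := fun k' => by simpa using k.symm.eq_of_nhds.trans (p4 x k').eq_of_nhds
    refine ⟨(l3 x (by simp [k.eq_of_nhds])).2, ?_⟩
    rw [l4 x (k.mono fun y hy => by simp [hy]), ← hb.symm.par x k']
    simp [triv]
  · rw [l2.F_eq isOpen_univ hG trivial]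
    by_cases hx : x ∈ V
    · rw [Set.indicator_of_mem hx, ha.F_eq hV hL hx]
    · rw [Set.indicator_of_notMem hx, hb.F_eq o t fun k => hx (hs k),
        F_triv o Dr59.Sm.zero Dr59.Dg.zero fun k => hx (hs k), Dr59.dM_zero, Pi.zero_apply]

/-- a compactly supported representative of the curvature of a line with framed ends -/
theorem rl_of_ex (hL : L.On I V) (h : L.Fr I s α (V \ K)) (hz : HZ I 1 (V \ K)) (hf : Cs I 2 K f)
    (hx : Ex I V (L.F I - f)) : ∃ K', IsCompact K' ∧ K' ⊆ V ∧ RL I K' f := by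
  obtain ⟨b, b1, b2, b3⟩ := hx.deg (k := 1) ((hL.cl_F hV).dg.sub (hf.on V).dg)
  have o := hV.sdiff hK.isClosed
  have h1 := hL.shift b1.neg b2.neg
  have e : ∀ x ∈ V, (L.shift (-b)).F I x = f x := fun x hx => by
    rw [hL.F_shift hV b1.neg hx, Dr59.dM_neg, Pi.neg_apply, b3 x hx]; simp
  have h2 := h.sfr (-b)
  have s1 := h1.sa.mono (Set.sdiff_subset (t := K))
  have d1 := h2.dg_fr (h1.dg.mono Set.sdiff_subset)
  obtain ⟨g, hg⟩ := Weil93.exists_df o (hz _ (Cl.neg ⟨h2.sm_fr o s1, d1, fun x hx => by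
    rw [← h2.F_fr o s1 hx, e x hx.1, hf.eq_zero hx.2]⟩)) d1.neg
  obtain ⟨K', k1, k2, k3⟩ := rl_of_par hV hK hs h1 ((h2.mul_sc (g := fun y => Circle.exp (g y))
    fun x hx => (contMDiff_circleExp _).comp x (hg x hx).1).of_eq (fun _ _ => rfl)
      (fun x hx => by simp [triv, ang_exp (hg x hx).1, (hg x hx).2]) (fun _ _ => rfl) fun _ _ => rfl)
  refine ⟨K', k1, k2, ?_⟩
  rwa [Set.indicator_congr e, Set.indicator_eq_self.2
    ((subset_tsupport f).trans (hf.sub.trans hs))] at k3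

/-- the Poincaré dual of a fibre of a circle valued map, cut off -/
theorem rl_ang {θ : M → Circle} {χ : M → ℝ} (hθ : ∀ x ∈ V, CSm I θ x)
    (hχ : ∀ x ∈ V, ContMDiffAt I 𝓘(ℝ, ℝ) ∞ χ x)
    (h : ∀ x ∈ V \ K, χ =ᶠ[𝓝 x] 0 ∨ χ =ᶠ[𝓝 x] 1) :
    ∃ K', IsCompact K' ∧ K' ⊆ V ∧ RL I K' (V.indicator (df I χ * ang I θ)) := by
  classical
  have c := cl_ang hθ
  have s1 : Dr59.Sm I V (χ • ang I θ) := fun x hx => (c.sm x hx).fsmul le_rfl (hχ x hx)
  have d1 : Dr59.Dg 1 V (χ • ang I θ) := fun x hx => (c.dg x hx).smul _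
  refine (rl_of_par hV hK hs (on_triv s1 d1) (s := sc fun x => if χ x = 0 then 1 else (θ x)⁻¹)
    (iso_sc (fun x hx => ?_) fun x hx => ?_)).imp fun K' k => ⟨k.1, k.2.1, ?_⟩
  · rcases h x hx with k | k
    · exact contMDiffAt_const.congr_of_eventuallyEq (k.mono fun y hy => if_pos hy)
    · exact (hθ x hx.1).inv.congr_of_eventuallyEq (k.mono fun y hy => if_neg (by simp [hy]))
  · rcases h x hx with k | k
    · rw [ang_congr (g := fun x => if χ x = 0 then 1 else (θ x)⁻¹) (h := 1)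
        (k.mono fun y hy => if_pos hy)]
      simp [k.eq_of_nhds]
    · rw [ang_congr (g := fun x => if χ x = 0 then 1 else (θ x)⁻¹) (h := θ⁻¹)
        (k.mono fun y hy => if_neg (by simp [hy])), ang_inv (hθ x hx.1)]
      simp [k.eq_of_nhds]
  · rw [← Set.indicator_congr (f := (triv (χ • ang I θ)).F I) fun x hx => by
      rw [F_triv hV s1 d1 hx, Dr59.dM_fsmul Dr59.ne0 ((hχ x hx).mdifferentiableAt Dr59.ne0) (c.sm x hx),
        c.cl x hx, smul_zero, add_zero, Pi.mul_apply]]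
    exact k.2.2

end Crest.Agent.X212.Loc8
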