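import Crest.Agent.X212.Idg99.On
import Crest.Agent.X212.Idg99.Sig
import Crest.Agent.X212.Loc8.Red
import Crest.Agent.X212.Loc8.Rl

/-!
# Row 212, LOC (helper8): characteristic elements of reductions over an open set (excision)
-/

set_option autoImplicit false
set_option linter.unusedSectionVars false
noncomputable section
open scoped Manifold ContDiff Topology InnerProductSpace Matrix
open Finset Filter MeasureTheory Module
open Crest.Agent.R208.F (Ext)

namespace Crest.Agent.X212.Loc8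
open An Wz78 Sob92 Ind95 Map77 Idg99
open Num57 (OK k2)
open Abel74 (RedOn hf fF fm)
open Line51 (Ln iL)

section pt
variable {X Y : Type} [NormedAddCommGroup X] [InnerProductSpace ℝ X] [FiniteDimensional ℝ X]
  [NormedAddCommGroup Y] [InnerProductSpace ℝ Y] [FiniteDimensional ℝ Y]
  {J r r' : X →L[ℝ] X} {il l l' : Y →L[ℝ] Y}

variable (J il r l) in
/-- the complex tensor product -/
def tt : CL (Fm (Fin (finrank ℝ Y)) X) (Fm (Fin (finrank ℝ Y)) X) :=
  (1 / 2 : ℝ) • (ix (mt l) r - ix (mt (il * l)) (J * r))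

theorem tt_mul (hJ : J * J = -1) (hi : il * il = -1) (h : J * r = r * J) (h' : il * l = l * il) :
    tt J r il l * tt J r' il l' = tt J (r * r') il (l * l') := by
  have e1 : ∀ T, l * (il * T) = il * (l * T) := fun T => by rw [← mul_assoc, ← h', mul_assoc]
  have e2 : ∀ T, r * (J * T) = J * (r * T) := fun T => by rw [← mul_assoc, ← h, mul_assoc]
  simp only [tt, smul_mul_smul_comm, mul_sub, sub_mul, ix_mul, ← mt_mul, mul_assoc, e1, e2]
  simp only [← mul_assoc, hi, hJ, neg_mul, one_mul, map_neg, LinearMap.neg_apply]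
  module

theorem tt_sym (hJ : Skew J) (hi : Skew il) (h : J * r = r * J) (h' : il * l = l * il)
    (s : ∀ v w, ⟪r v, w⟫_ℝ = ⟪v, r w⟫_ℝ) (s' : ∀ v w, ⟪l v, w⟫_ℝ = ⟪v, l w⟫_ℝ)
    (v w : Fm (Fin (finrank ℝ Y)) X) : ⟪tt J r il l v, w⟫_ℝ = ⟪v, tt J r il l w⟫_ℝ := by
  have k1 := inner_ix (mt l) s v w
  have k2 := inner_ix (mt (il * l)) (T := J * r) (T' := -(J * r)) (fun v w => by
    rw [mul_apply_eq_comp, hJ, neg_apply, inner_neg_right, s, h]; rfl) v w
  rw [mt_t s'] at k1
  rw [mt_t (T := -(il * l)) fun v w => by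
    rw [mul_apply_eq_comp, hi, neg_apply, inner_neg_right, s', h']; rfl] at k2
  simp only [map_neg, LinearMap.neg_apply, neg_neg] at k2
  simp only [tt, smul_apply, sub_apply, real_inner_smul_left, real_inner_smul_right,
    inner_sub_left, inner_sub_right, k1, k2]

theorem one_tt (h : J * r = r * J) : ix 1 r * tt J r' il l = tt J (r * r') il l := by
  simp only [tt, mul_smul_comm, mul_sub, ix_mul, one_mul, ← mul_assoc, h]

theorem tt_one : tt J r il l * ix 1 r' = tt J (r * r') il l := by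
  simp only [tt, smul_mul_assoc, sub_mul, ix_mul, mul_one, mul_assoc]

theorem tt_zero : tt J 0 il l = 0 := by simp [tt]

theorem tt_sub : tt J (r - r') il l = tt J r il l - tt J r' il l := by
  simp only [tt, mul_sub, map_sub, smul_sub]; abel

theorem cw_congr {ι : Type} [Fintype ι] {o : ι → ι → ι → ι → ℝ} {T e : X →L[ℝ] X}
    {K K' : ι → ι → X →L[ℝ] X} (hT : T * e = T) (h : ∀ a b, e * K a b = e * K' a b)
    (h' : ∀ a b, e * K' a b = K' a b * e) : cw o T K = cw o T K' := by
  have : ∀ a b c d, T * K a b * K c d = T * K' a b * K' c d := fun a b c d => by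
    have k : ∀ {a b} Z, T * K' a b * Z = T * K' a b * (e * Z) := fun Z => by
      conv_lhs => rw [← hT, mul_assoc T e, h']
      simp only [mul_assoc]
    rw [show T * K a b = T * K' a b by rw [← hT, mul_assoc, mul_assoc, h], k, h, ← k]
  simp only [cw, this]

end pt

variable {E : Type} [NormedAddCommGroup E] [NormedSpace ℝ E] [FiniteDimensional ℝ E]
  [MeasurableSpace E] [BorelSpace E]
  {HM : Type} [TopologicalSpace HM] {I : ModelWithCorners ℝ E HM} [I.Boundaryless]
  {M : Type} [TopologicalSpace M] [ChartedSpace HM M] [IsManifold I ∞ M]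
  [MeasurableSpace M] [BorelSpace M] [SecondCountableTopology M] [T2Space M] {ι : Type} [Fintype ι]
  {X Y : Type} [NormedAddCommGroup X] [InnerProductSpace ℝ X] [FiniteDimensional ℝ X]
  [NormedAddCommGroup Y] [InnerProductSpace ℝ Y] [FiniteDimensional ℝ Y]
  {F : Fr I M ι} {o : ι → ι → ι → ι → M → ℝ} {p s : M → X →L[ℝ] X} {ρ W T : ι → M → X →L[ℝ] X}
  {J : X →L[ℝ] X} {x : M} {O K : Set M} {l : M → Y →L[ℝ] Y} {il : Y →L[ℝ] Y}
  {A A' : ι → M → Y →L[ℝ] Y} {f f' : ι → ι → M → ℝ} {l₀ : Y →L[ℝ] Y}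

theorem curv_congr (h : ∀ a, W a =ᶠ[𝓝 x] T a) (a b : ι) :
    curv I F.e F.c W a b x = curv I F.e F.c T a b x := by
  simp only [curv, dv_congr (h _), (h _).eq_of_nhds]

theorem cm_add (D : Cm F p ρ W J) (hT : Con I F.P T) (sk : ∀ a x, Skew (T a x))
    (h1 : ∀ a x, T a x * p x = p x * T a x) (h2 : ∀ a b x, T a x * ρ b x = ρ b x * T a x)
    (h3 : ∀ a x, J * T a x = T a x * J) : Cm F p ρ (W + T) J :=
  ⟨⟨D.cc.toCon.add hT, D.cc.sp, D.cc.sρ, D.cc.cl,
      fun a x => (nabE_addA a p x).trans (by rw [h1, sub_self, add_zero]; exact D.cc.par a x),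
      fun a b x => (nabE_addA a (ρ b) x).trans (by rw [h2, sub_self, add_zero]; exact D.cc.comp a b x)⟩,
    fun a x v w => by
      simp only [Pi.add_apply, add_apply, inner_add_left, inner_add_right, D.sk a x v, sk a x v, neg_add],
    D.ρsk, D.Jsq, D.Jsk, D.Jp, D.Jρ, fun a x => by
      simp only [Pi.add_apply, mul_add, add_mul, D.JW, h3]⟩

theorem li_const (L : Li F l il A f) (L0 : Li F (fun _ => l₀) il A' f') :
    Li F (fun _ => l₀) il 0 0 :=
  ⟨⟨⟨fun _ _ => contMDiffAt_const, fun _ _ => by simp⟩, fun _ _ _ _ => by simp, contMDiff_const,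
      fun _ _ => by simp [nabE]⟩, L0.sym, L0.idem, L0.rk, L.sq, L.sk, L0.ill, fun _ _ => by simp,
    fun _ _ _ => by simp [curv]⟩

theorem dn_tt (L : Li F l il A f) (h : OK F o) (hW : ∀ a, SA I (W a) x) (s : M → X →L[ℝ] X) :
    dn F o (fun y => tt J (s y) il (l y)) (tA (fun a y => mt (A a y)) W) x = dn F o s W x
    + (trL (s x) * wf o f f x - 2 * wf o f
      (fun a b x => trL (J * s x * curv I F.e F.c W a b x)) x) / (128 * Real.pi ^ 2) := by
  have c1 := fun a b => (frm F).curv_par (L.sub.con.sm · x) (L.sub.sm x)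
    (fun a => Eventually.of_forall (L.sub.par a)) a b
  have t0 : trL (il * l x) = 0 := by
    rw [← mt_tr, mt_mul, Matrix.trace_mul_comm]
    exact trace_sym_skew (mt_t (L.sym x)) ((mt_t (T := -il) fun v w => by
      rw [L.sk, neg_apply, inner_neg_right]).trans (map_neg _ _))
  have e1 : ∀ a b, l x * curv I F.e F.c A a b x = f a b x • (il * l x) := fun a b => by
    rw [← c1, L.cur]
  have e2 : ∀ a b, il * l x * curv I F.e F.c A a b x = -f a b x • l x := fun a b => by
    rw [mul_assoc, e1, mul_smul_comm, ← mul_assoc, L.sq, neg_one_mul, smul_neg, neg_smul]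
  simp only [dn, tt, dens_smul, dens_sub, curv_tA (fun a => sm_mt (L.sub.con.sm a x)) hW,
    cm_mt (L.sub.con.sm · x)]
  simp only [Ind95.dens, cw_ix (h.vo x).swap, cwm, trL_ix, ← mt_mul, mt_tr]
  simp only [e1, e2, smul_mul_assoc, map_smul, t0, L.rk, smul_eq_mul, mul_zero, wf]
  simp only [c4, mul_zero, zero_mul, sum_const_zero, neg_mul, mul_neg, sum_neg_distrib, ← mul_assoc,
    ← sum_mul, mul_right_comm _ (2 : ℝ)]
  ring

variable (F p ρ W J O s) in
/-- a submodule over the open set `O` -/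
structure SubOn : Prop where
  op : IsOpen O
  sm : ∀ x ∈ O, SA I s x
  par : ∀ x ∈ O, ∀ a, nabE I F.e W a s x = 0
  sym : ∀ x v w, ⟪s x v, w⟫_ℝ = ⟪v, s x w⟫_ℝ
  idem : ∀ x, s x * s x = s x
  p : ∀ x, p x * s x = s x
  ρ : ∀ a x, s x * ρ a x = ρ a x * s x
  J : ∀ x, J * s x = s x * J

theorem f_off (L : Li F l il A f) (hK : IsClosed K) (h0 : ∀ x, x ∉ K → ∀ a, A a x = 0) (hx : x ∉ K)
    (a b : ι) : f a b x = 0 := by
  have := congrArg (fun T => trL (il * T)) (L.cur a b x)
  rw [curv_congr (T := 0) fun a => mem_of_superset (hK.isOpen_compl.mem_nhds hx) fun y hy => h0 y hy a]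
    at this
  simp only [mul_smul_comm, ← mul_assoc, L.sq, neg_one_mul, map_smul, map_neg, L.rk, smul_eq_mul] at this
  simpa [curv] using this

/-- **characteristic elements, by excision** -/
theorem char_sub [CompactSpace M] (D : Cm F p ρ W J) (h : OK F o) (S : SubOn F p s ρ W J O)
    (L : Li F l il A f) (L1 : Li F (fun _ => l₀) il A' f') (hK : IsClosed K) (hO : K ⊆ O)
    (h0 : ∀ x, x ∉ K → l x = l₀ ∧ ∀ a, A a x = 0) : ∃ n : ℤ, ∫ x, (trL (s x) * wf o f f x -
      2 * wf o f (fun a b x => trL (J * s x * curv I F.e F.c W a b x)) x) / (128 * Real.pi ^ 2) ∂F.μ =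
      2 * (n : ℝ) := by
  have L0 := li_const L L1
  have cs : ∀ x, x ∈ O ∨ ∀ᶠ y in 𝓝 x, y ∉ K := fun x => (em (x ∈ K)).imp (@hO x)
    hK.isOpen_compl.mem_nhds
  have sA := L.sub.con.sm
  have sp : ∀ x, s x * p x = s x := fun x => ContinuousLinearMap.ext fun v =>
    ext_inner_left ℝ fun w => by
      rw [mul_apply_eq_comp, ← S.sym, ← D.sym h, ← mul_apply_eq_comp, S.p, S.sym]
  have z1 : ∀ x, s x * (p x - s x) = 0 := fun x => by rw [mul_sub, sp, S.idem, sub_self]
  have z2 : ∀ x, (p x - s x) * s x = 0 := fun x => by rw [sub_mul, S.p, S.idem, sub_self]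
  have Jc : ∀ x, J * (p x - s x) = (p x - s x) * J := fun x => by rw [mul_sub, sub_mul, D.Jp, S.J]
  let T : ι → M → CL (Fm (Fin (finrank ℝ Y)) X) (Fm (Fin (finrank ℝ Y)) X) :=
    fun a y => ix (mt (A a y)) (s y)
  have T0 : ∀ x, (∀ᶠ y in 𝓝 x, y ∉ K) → ∀ a, T a =ᶠ[𝓝 x] 0 := fun x k a =>
    k.mono fun y hy => by simp [T, (h0 y hy).2 a]
  have sT : ∀ a x, SA I (T a) x := fun a x => (cs x).elim (fun k => (sm_mt (sA a x)).ix (S.sm x k))
    fun k => contMDiffAt_const.congr_of_eventuallyEq (T0 x k a)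
  have B0 := D.big L0.sub
  have B := cm_add B0 (T := T) ⟨sT, fun a x => by
      conv_rhs => simp only [T]; rw [← L.sub.con.proj a x]
      simp only [T, map_sum, map_smul, LinearMap.sum_apply, LinearMap.smul_apply]⟩
    (fun a x u w => by
      rw [inner_ix _ (S.sym x), mt_t (T := -A a x) fun v w => by
        rw [L.sub.sk, neg_apply, inner_neg_right]]
      simp [T])
    (fun a x => by simp only [T, ix_mul, one_mul, mul_one, sp, S.p])
    (fun a b x => by simp only [T, ix_mul, one_mul, mul_one, S.ρ])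
    fun a x => by simp only [T, ix_mul, one_mul, mul_one, S.J]
  have C0 := D.tw L0 h
  set V := tA (fun a y => mt ((0 : ι → M → Y →L[ℝ] Y) a y)) W with hV
  let q := fun y => tt J (s y) il (l y) + tt J (p y - s y) il l₀
  have q0 : ∀ x, (∀ᶠ y in 𝓝 x, y ∉ K) → q =ᶠ[𝓝 x] Cm.tp p J (fun _ => l₀) il := fun x k =>
    k.mono fun y hy => by simp only [q, (h0 y hy).1, tt_sub, add_sub_cancel]; rfl
  have nb : ∀ x ∈ O, ∀ a {u : M → Y →L[ℝ] Y} {r : M → X →L[ℝ] X}, SA I u x → SA I r x →
      nabE I F.e W a r x = 0 → nabE I F.e V a (fun y => ix (mt (u y)) (r y)) x =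
        ix (mt (dv I (F.e a) u x)) (r x) := fun x _ a u r hu hr e => by
    rw [hV, nabE_tA (sm_mt hu) hr, e, nm_mt hu]; simp [nabE]
  have S1 := (L.sub.const L.ilA).mul L.sub
  have nJ : ∀ x a {r : M → X →L[ℝ] X}, SA I r x → nabE I F.e W a r x = 0 →
      nabE I F.e W a (fun y => J * r y) x = 0 := fun x a r hr e => by
    rw [nabE_mul a contMDiffAt_const hr, e, (D.sb.const D.JW).par, zero_mul, mul_zero, add_zero]
  have sc := fun x k => (D.cc.sp x).sub (S.sm x k)
  have st : ∀ x {u : M → Y →L[ℝ] Y} {r : M → X →L[ℝ] X}, SA I u x → SA I r x →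
      SA I (fun y => ix (mt (u y)) (r y) - ix (mt (il * u y)) (J * r y)) x := fun x u r hu hr =>
    ((sm_mt hu).ix hr).sub ((sm_mt (SA.mul contMDiffAt_const hu)).ix (SA.mul contMDiffAt_const hr))
  have s1 := fun x k => SA.smul (contMDiffAt_const (c := (1 / 2 : ℝ))) (st x (L.sub.sm x) (S.sm x k))
  have s2 := fun x k => SA.smul (contMDiffAt_const (c := (1 / 2 : ℝ)))
    (st x (contMDiffAt_const (c := l₀)) (sc x k))
  have Q := B.sub h (s := q) ⟨B.cc.toCon, B.sk, fun x => (cs x).elim (fun k => (s1 x k).add (s2 x k))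
      fun k => (C0.cc.sp x).congr_of_eventuallyEq (q0 x k), fun a x => ?_⟩
    ⟨fun x => DFunLike.congr_fun (?_ : q x * q x = _), fun x v w => ?_⟩ (fun x => ?_) (fun a x => ?_)
    fun x => ?_
  · have c : ∀ f : M → ℝ, HasCompactSupport f := HasCompactSupport.of_compactSpace
    obtain ⟨a, ha⟩ := Q.even h
    obtain ⟨b, hb⟩ := C0.even h
    refine ⟨a - b, ?_⟩
    rw [Int.cast_sub, mul_sub, ← ha, ← hb, ← integral_sub (integ (sm_dn h Q.cc.sp Q.cc.sm) (c _))
      (integ (sm_dn h C0.cc.sp C0.cc.sm) (c _))]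
    refine congrArg _ (_root_.funext fun x => eq_sub_of_add_eq' ?_)
    by_cases k : x ∈ K
    swap
    · have k' := hK.isOpen_compl.mem_nhds k
      simp only [wf, f_off L hK (fun x hx => (h0 x hx).2) k, c4, zero_mul, mul_zero, sum_const_zero,
        sub_self, zero_div, add_zero, dn, (q0 x k').eq_of_nhds, curv_congr (W := V + T) (T := V)
          fun a => (T0 x k' a).mono fun y hy => by simp [hy]]
    replace k := hO k
    have cv : ∀ a b, curv I F.e F.c (V + T) a b x = ix 1 (curv I F.e F.c W a b x) +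
        ix (mt (curv I F.e F.c A a b x)) (s x) := fun a b => by
      rw [curv_addA (B0.cc.sm · x) (sT · x), dA, nb x k a (sA b x) (S.sm x k) (S.par x k a),
        nb x k b (sA a x) (S.sm x k) (S.par x k b), hV,
        curv_tA (fun a => sm_mt (L0.sub.con.sm a x)) (D.cc.sm · x), cm_mt (L0.sub.con.sm · x)]
      simp only [T, curv, ix_mul, S.idem, map_sub, map_add, map_sum, map_smul, mt_mul,
        LinearMap.sub_apply, LinearMap.add_apply, LinearMap.sum_apply, LinearMap.smul_apply,
        Pi.zero_apply, dv_zero, map_zero, mul_zero, smul_zero, sum_const_zero, sub_self, add_zero,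
        LinearMap.zero_apply, zero_add]
      abel
    have cW := fun a b => (frm F).curv_par (D.cc.sm · x) (S.sm x k)
      (fun a => mem_of_superset (S.op.mem_nhds k) fun y hy => S.par y hy a) a b
    have cp := fun a b => D.cc.curv_p (frm F) a b x
    have e1 : dn F o (fun y => tt J (s y) il (l y)) (V + T) x =
        dn F o (fun y => tt J (s y) il (l y)) (tA (fun a y => mt (A a y)) W) x := by
      simp only [dn, Ind95.dens, cv, curv_tA (fun a => sm_mt (sA a x)) (D.cc.sm · x), cm_mt (sA · x)]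
      rw [cw_congr (e := ix 1 (s x)) (by rw [tt_one, S.idem])] <;> intro a b <;>
        simp only [mul_add, add_mul, ix_mul, one_mul, mul_one, S.idem, cW, add_comm]
    have e2 : dn F o (fun y => tt J (p y - s y) il l₀) (V + T) x =
        dn F o (fun y => tt J (p y - s y) il l₀) V x := by
      simp only [dn, Ind95.dens, cv]
      simp only [hV, curv_tA (fun a => sm_mt (L0.sub.con.sm a x)) (D.cc.sm · x),
        cm_mt (L0.sub.con.sm · x)]
      rw [cw_congr (e := ix 1 (p x - s x)) (by rw [tt_one, mul_sub, z2, sub_mul, sp, D.idem h, sub_zero])] <;>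
        intro a b
      · have : curv I F.e F.c (0 : ι → M → Y →L[ℝ] Y) a b x = 0 := by simp [curv]
        simp only [mul_add, ix_mul, z2, map_zero, this, LinearMap.zero_apply, add_zero, zero_add]
      · simp only [mul_add, add_mul, ix_mul, one_mul, mul_one, mul_sub, sub_mul, cW, cp]
    have e3 : dn F o q (V + T) x = _ := dens_add _ _ _ _ _
    have e4 : dn F o (fun y => p y - s y) W x = dn F o p W x - dn F o s W x := dens_sub _ _ _ _ _
    have e5 := dn_tt (J := J) L0 h (D.cc.sm · x) p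
    have e6 := dn_tt (J := J) L0 h (D.cc.sm · x) fun y => p y - s y
    simp only [wf, c4, Pi.zero_apply, zero_mul, mul_zero, sum_const_zero, sub_self, zero_div,
      add_zero] at e5 e6
    refine Eq.symm (e3.trans ((congrArg₂ _ (e1.trans (dn_tt L h (D.cc.sm · x) s))
      (e2.trans (e6.trans e4))).trans ?_))
    rw [show dn F o (Cm.tp p J (fun _ => l₀) il) V x = _ from e5]
    ring
  · rw [nabE_addA]
    rcases cs x with k | k
    swap
    · rw [nabE_congr a (q0 x k), (T0 x k a).eq_of_nhds, show nabE I F.e V a _ x = 0 from C0.cc.par a x]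
      simp
    have n1 := S.par x k a
    have n2 : nabE I F.e W a (fun y => p y - s y) x = 0 := by
      rw [nabE_sub a (D.cc.sp x) (S.sm x k), n1, D.sb.par, sub_zero]
    have m : ∀ {u : M → Y →L[ℝ] Y} {r : M → X →L[ℝ] X}, SA I u x → SA I r x →
        nabE I F.e W a r x = 0 → nabE I F.e V a (fun y => tt J (r y) il (u y)) x = (1 / 2 : ℝ) •
          (ix (mt (dv I (F.e a) u x)) (r x) -
            ix (mt (dv I (F.e a) (fun y => il * u y) x)) (J * r x)) := fun {u r} hu hr e => by
      unfold tt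
      rw [nabE_smul a contMDiffAt_const (st x hu hr), nabE_sub a ((sm_mt hu).ix hr)
        ((sm_mt (SA.mul contMDiffAt_const hu)).ix (SA.mul contMDiffAt_const hr)), nb x k a hu hr e,
        nb x k a (SA.mul contMDiffAt_const hu) (SA.mul contMDiffAt_const hr) (nJ x a hr e)]
      simp
    have a1 := eq_neg_of_add_eq_zero_left (L.sub.par a x)
    have a2 := eq_neg_of_add_eq_zero_left (S1.par a x)
    have e : ∀ r, s x * (J * r) = J * (s x * r) := fun r => by rw [← mul_assoc, ← S.J, mul_assoc]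
    rw [show nabE I F.e V a q x = nabE I F.e V a (fun y => tt J (s y) il (l y)) x +
      nabE I F.e V a (fun y => tt J (p y - s y) il l₀) x from nabE_add a (s1 x k) (s2 x k), m (L.sub.sm x) (S.sm x k) n1, m contMDiffAt_const (sc x k) n2,
      a1, a2]
    simp only [q, tt, T, mul_add, add_mul, mul_smul_comm, smul_mul_assoc, mul_sub _ (ix _ _),
      sub_mul (ix _ _), ix_mul, e, z1, mul_assoc J, z2, S.idem, dv_const, Pi.zero_apply, map_zero,
      mul_zero, LinearMap.zero_apply, map_neg, map_sub mt, mt_mul, map_sub ix, LinearMap.neg_apply,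
      LinearMap.sub_apply]
    module
  · simp only [q, mul_add, add_mul, tt_mul D.Jsq L.sq (S.J x) (L.ill x),
      tt_mul D.Jsq L.sq (Jc x) (L0.ill x), z1, z2, tt_zero, S.idem, L.idem, L0.idem x, add_zero, zero_add]
    rw [mul_sub, z2, sub_mul, sp, D.idem h, sub_zero]
  · simp only [q, add_apply, inner_add_left, inner_add_right,
      tt_sym D.Jsk L.sk (S.J x) (L.ill x) (S.sym x) (L.sym x), tt_sym D.Jsk L.sk (Jc x) (L0.ill x)
        (fun v w => by rw [sub_apply, sub_apply, inner_sub_left, inner_sub_right, D.sym h, S.sym])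
        (L0.sym x)]
  · simp only [q, mul_add, one_tt (D.Jp x), mul_sub, S.p, D.idem h]
  · simp only [q, mul_add, add_mul, one_tt (D.Jρ a x), tt_one, mul_sub, sub_mul, S.ρ,
      (D.cc.cl x).pl, (D.cc.cl x).pr]
  · simp only [q, mul_add, add_mul, one_tt (J := J) (r := J) rfl, tt_one, S.J, Jc]

variable {lam : Type} [Fintype lam] {m : Md M ι lam} {B : Base M ι lam} {G : Geo I M ι lam}
  {V : m.Cn} {ξ : M → m.A}

/-- **`Λ + 2 ξ` is characteristic** for lines that are trivial off a closed subset of `O` -/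
theorem Rd.char [CompactSpace M] (R : Rd G.F m V O ξ) (hB : B.OK I) (hG : G.OK B) (H : m.OK I B)
    (C : m.IsConn B G V) (h4 : finrank ℝ E = 4) (L : Li G.F l il A f)
    (L1 : Li G.F (fun _ => l₀) il A' f') (hK : IsClosed K) (hO : K ⊆ O)
    (h0 : ∀ x, x ∉ K → l x = l₀ ∧ ∀ a, A a x = 0) : ∃ n : ℤ, ∫ x, (wf B.o f f x + wf B.o f
      (fun a b x => fl B G a b x + 2 * fF G.F m V ξ a b x) x) / (16 * Real.pi ^ 2) ∂G.F.μ =
      2 * (n : ℝ) := by
  have e : ∀ x ∈ O, (O.indicator fun x => hf m x (ξ x)) =ᶠ[𝓝 x] fun x => hf m x (ξ x) := fun x hx =>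
    mem_of_superset (R.op.mem_nhds hx) fun _ hy => Set.indicator_of_mem hy _
  have s1 := fun x hx => SA.mul (contMDiffAt_const (c := m.J)) (R.sm_opL (x := x) hx)
  refine (char_sub (s := O.indicator fun x => hf m x (ξ x)) (cm_md hG H C) (OK.of_base h4 hB hG)
    ⟨R.op, fun x hx => (SA.smul contMDiffAt_const ((H.sp x).sub (s1 x hx))).congr_of_eventuallyEq
      (e x hx), fun x hx a => ?_, fun x v w => ?_, fun x => ?_, fun x => ?_, fun a x => ?_,
      fun x => ?_⟩ L L1 hK hO h0).imp fun n hn => (congrArg _ (_root_.funext fun x => ?_)).trans hn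
  · rw [nabE_congr a (e x hx)]
    simp only [hf]
    rw [nabE_smul a contMDiffAt_const ((H.sp x).sub (s1 x hx)), nabE_sub a (H.sp x) (s1 x hx),
      nabE_mul a contMDiffAt_const (R.sm_opL hx), nabE_J C, R.nE hx,
      show nabE I G.F.e V a m.p x = 0 from C.cc.par a x]
    simp
  rotate_right
  · by_cases hx : x ∈ K
    · have := kf_pt hB hG H C (R.mem x (hO hx)) (Set.indicator_of_mem (hO hx) fun x => hf m x (ξ x))
      rw [← wf_congr (g' := fun a b x => fl B G a b x + 2 * fF G.F m V ξ a b x) this,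
        (wf_congr (g := fun a b x => trL (m.J * O.indicator (fun x => hf m x (ξ x)) x *
          curv I G.F.e G.F.c V a b x)) (g' := fun a b x => -4 * kf G.F (O.indicator fun x => hf m x (ξ x))
        V m.J a b x) fun a b => by rw [kf]; ring).trans (wf_smul _), Set.indicator_of_mem (hO hx),
        trL_hf' hB H (R.mem x (hO hx))]
      ring
    · simp [wf, c4, f_off L hK (fun x hx => (h0 x hx).2) hx]
  all_goals by_cases hx : x ∈ O
  all_goals simp only [hx, Set.indicator_of_mem, Set.indicator_of_notMem, not_false_eq_true,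
    zero_apply, inner_zero_left, inner_zero_right, mul_zero, zero_mul]
  exacts [Abel74.hf_sym H (R.mem x hx) v w, Abel74.hf_hf H (R.mem x hx) (R.sq x hx),
    Abel74.p_hf H (R.mem x hx), (Abel74.rho_hf H (R.mem x hx) a).symm, Abel74.J_hf H (R.mem x hx)]

end Crest.Agent.X212.Loc8
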