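import Crest.Agent.X212.Loc8.Rl
import Crest.Agent.X212.Loc8.Sc

/-!
# Row 212, LOC (helper8): flat lines on simply connected sets; cutting a line along a neck
-/

set_option autoImplicit false
set_option linter.unusedSectionVars false
noncomputable section
open scoped Manifold ContDiff Topology Matrix
open Filter Set
open Crest.Agent.R208.F (Ext)

namespace Crest.Agent.X212.Loc8
open Line51 Dfl49
open Dr59 (Cs Cl Ex HZ df dM Cz)

variable {E : Type} [NormedAddCommGroup E] [NormedSpace ℝ E] [FiniteDimensional ℝ E]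
  [MeasurableSpace E] [BorelSpace E]
  {HM : Type} [TopologicalSpace HM] {I : ModelWithCorners ℝ E HM} [I.Boundaryless]
  {M : Type} [TopologicalSpace M] [ChartedSpace HM M] [IsManifold I ∞ M]
  [MeasurableSpace M] [BorelSpace M] [SecondCountableTopology M] [T2Space M] {K U V C : Set M}
  {κ : Type} [Fintype κ] {L : Ln E M κ}

theorem unit_const {g : M → Matrix Unit Unit ℂ} (hU : IsOpen U) (hc : IsPreconnected U)
    (h : Iso I (triv 0) (triv 0) g U) : ∃ r : ℝ, ∀ x ∈ U, (g x () ()).re = r := by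
  refine Weil93.const_of_df (I := I) hU hc fun x hx => ⟨fsm_re (h.sm x hx () ()),
    (congrArg _ (LinearMap.ext fun v => ?_)).trans (map_zero _)⟩
  have e := dm_congr (I := I) (u := fun y => (g y)ᴴ * g y) (u' := fun _ => 1)
    (eventually_of_mem (hU.mem_nhds hx) fun y hy => (h.iso y hy).src) v
  rw [dm_mul (h.sm x hx).ct (h.sm x hx), dm_ct (h.sm x hx), dm_const] at e
  have e2 := congrArg Complex.re (congrFun (congrFun e ()) ())
  have e3 : tl I g x v = 0 := LinearMap.congr_fun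
    ((ExteriorAlgebra.ι_eq_zero_iff _).1 (show th I g x = 0 by simpa [triv] using h.par x hx)) v
  have e4 := congrArg Complex.re (congrFun (congrFun (h.iso x hx).src ()) ())
  rw [tl_eq_sum] at e3
  refine (mf_re (md_of (h.sm x hx () ())) v).trans ?_
  simp [Matrix.mul_apply, dm_apply, triv] at e2 e3 e4 ⊢
  linear_combination (g x () ()).re / 2 * e2 - (g x () ()).im * e3 -
    (dc I (fun y => g y () ()) x v).re * e4

theorem par_loc (hU : IsOpen U) (hL : L.On I U) (h0 : ∀ x ∈ U, L.F I x = 0) {x : M} (hx : x ∈ U) :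
    ∃ W ∈ 𝓝 x, IsOpen W ∧ ∃ s, L.Fr I s 0 W := by
  obtain ⟨V, s, α, h1, h2, h3, h4, h5, h6, h7⟩ := hL.exists_pot hU hx
  obtain ⟨W, w1, w2, w3⟩ := Weil93.exists_nice (I := I) x _ (h1.mem_nhds h2)
  obtain ⟨g, hg⟩ := Weil93.exists_df w2.op (w2.hz 0 _ (Cl.neg ⟨h5.mono w3, h6.mono w3, fun y hy => by
    rw [← h7 (w3 hy), h0 y (h3 (w3 hy))]⟩)) (h6.mono w3).neg
  exact ⟨W, w1, w2.op, _, ((h4.mono w3).mul_sc (g := fun y => Circle.exp (g y))
    fun y hy => (contMDiff_circleExp _).comp y (hg y hy).1).of_eq (fun _ _ => rfl)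
      (fun y hy => by simp [triv, ang_exp (hg y hy).1, (hg y hy).2]) (fun _ _ => rfl) fun _ _ => rfl⟩

theorem ls_par (hU : IsOpen U) (hL : L.On I U) (h0 : ∀ x ∈ U, L.F I x = 0) :
    LS U fun x s => ∀ᶠ y in 𝓝 x, L.Fr I s 0 {y} := by
  refine ⟨fun x s s' h e => (h.and e.eventually_nhds).mono fun y k => ⟨⟨?_, ?_⟩, ?_⟩,
    fun x _ s s' h h' k => ?_, fun x hx => ?_⟩
  · rintro _ rfl; exact (k.1.sm _ rfl).congr k.2
  · rintro _ rfl; exact k.2.self_of_nhds.symm ▸ k.1.iso _ rfl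
  · rintro _ rfl; rw [th_congr k.2]; exact k.1.par _ rfl
  · obtain ⟨W, w1, w2, w3⟩ := Weil93.exists_nice (I := I) x _ (h.and h')
    have f1 : L.Fr I s 0 W := iso_of_loc fun y hy => ⟨{y}, rfl, (w3 hy).1⟩
    have f2 : L.Fr I s' 0 W := iso_of_loc fun y hy => ⟨{y}, rfl, (w3 hy).2⟩
    have f := f2.trans f1.symm
    obtain ⟨r, hr⟩ := unit_const w2.op w2.pc f
    obtain ⟨z, z1, z2⟩ := (k.and_eventually w1).exists
    refine eventually_of_mem w1 fun y hy => ?_
    have e1 := (hr y hy).trans (hr z z2).symm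
    have e2 := congrArg Complex.re (congrFun (congrFun (f.iso y hy).src ()) ())
    rw [← z1, (f1.iso z z2).src] at e1
    have e : (s y)ᴴ * s' y = 1 := by
      generalize (s y)ᴴ * s' y = c at e1 e2
      ext _ _
      simp [Matrix.mul_apply, triv] at e1 e2 ⊢
      exact Complex.ext e1 (by rw [e1] at e2; simpa using e2)
    rw [← (f2.iso y hy).left, ← (f1.iso y hy).tgt, Matrix.mul_assoc, e, Matrix.mul_one]
  · obtain ⟨W, w1, w2, s, f⟩ := par_loc hU hL h0 hx
    refine ⟨W, w1, fun y hy t ht => ?_⟩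
    have k := (ht.self_of_nhds.iso y rfl).trans (f.iso y hy).symm
    have f' := Iso.trans (L := triv 0) ⟨⟨fun _ _ => .const _, fun _ _ => k⟩, fun _ _ => by simp⟩ f
    exact ⟨_, fun z hz => eventually_of_mem (w2.mem_nhds hz) fun u hu => f'.mono (singleton_subset_iff.2 hu),
      by rw [← Matrix.mul_assoc, (f.iso y hy).tgt, (ht.self_of_nhds.iso y rfl).left]⟩

variable (I) in
/-- flat lines on `U` have parallel frames -/
def PF (U : Set M) : Prop := ∀ (κ : Type) [Fintype κ] (L : Ln E M κ), L.On I U →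
  (∀ x ∈ U, L.F I x = 0) → ∃ s, L.Fr I s 0 U

theorem pf_of_h1 (hU : IsOpen U) (hc : IsPreconnected U) (h : ∀ (G : Type) [Group G], Hz56.H1 G U) :
    PF I U := fun κ _ L hL h0 => by
  have := I.toHomeomorph.locallyConnectedSpace
  have := ChartedSpace.locallyConnectedSpace HM M
  rcases U.eq_empty_or_nonempty with rfl | ⟨x, hx⟩
  · exact ⟨0, iso_of_loc fun _ k => k.elim⟩
  obtain ⟨W, w1, -, s, f⟩ := par_loc hU hL h0 hx
  obtain ⟨t, ht, -⟩ := sur_of_h1 hU hc h hx _ _ (ls_par hU hL h0) s (by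
    rintro _ rfl; exact eventually_of_mem w1 fun u hu => f.mono (singleton_subset_iff.2 hu))
  exact ⟨t, iso_of_loc fun y hy => ⟨{y}, rfl, (ht y hy).self_of_nhds⟩⟩

/-- **cutting a line along a neck** -/
theorem rl_cut (hU : IsOpen U) (hV : IsOpen V) (hC : IsCompact C) (h1 : U ∩ V ⊆ C) (h2 : C ⊆ U ∪ V)
    (hp : PF I (U ∩ V)) (hK : IsCompact K) (hs : K ⊆ U ∪ V) {c : M → Ext E} (h : RL I K c)
    (hx : Ex I V c) : ∃ e K', IsCompact K' ∧ K' ⊆ U ∧ RL I K' e ∧ Ex I (U ∪ V) (c - e) := by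
  classical
  have := Int54.sigmaCompact (I := I) M
  obtain ⟨κ, _, L, p₀, l1, l2, l3, l4, rfl⟩ := h
  obtain ⟨χ, hχ⟩ := Dr59.exists_cut (I := I) hU hV
  obtain ⟨q, q1, q2, q3⟩ := hx.deg (k := 1) ((l1.cl_F isOpen_univ).dg.mono (subset_univ _))
  have z : Cz I (U ∪ V) V (1 - χ) := ⟨fun x hx => contMDiffAt_const.sub (hχ.sm x hx),
    fun x hx hw => (hχ.o x (hx.resolve_right hw) hw).mono fun y hy => by simp [hy]⟩
  have b1 := (z.sm_smul q1).neg.mono (subset_union_left (t := V))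
  have l := l1.mono (subset_univ U)
  have l' := l1.mono (subset_univ (U ∩ V))
  have q' := q1.neg.mono (inter_subset_right (s := U))
  obtain ⟨s, hs'⟩ := hp κ _ (l'.shift q' (q2.neg.mono inter_subset_right)) fun x k => by
    rw [l'.F_shift (hU.inter hV) q' k, Dr59.dM_neg, Pi.neg_apply, q3 x k.2, add_neg_cancel]
  obtain ⟨s₀, hs₀⟩ := exists_unit l2 l3
  have o : IsOpen (interior {x | χ x = 0} ∩ V) := isOpen_interior.inter hV
  have o' := hU.sdiff (hK.union hC).isClosed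
  obtain ⟨K', k1, k2, k3⟩ := rl_of_par hU ((hK.union hC).diff o) (fun x k => by_contra fun k' =>
      have v := (union_subset hs h2 k.1).resolve_left k'
      k.2 ⟨mem_interior_iff_mem_nhds.2 (hχ.z x v k'), v⟩)
    (l.shift b1 ((z.dg_smul q2).neg.mono subset_union_left)) (s := fun x => if x ∈ C then s x else s₀)
    (iso_of_loc fun x k => (em (x ∈ interior {x | χ x = 0} ∩ V)).elim
      (fun k' => ⟨U ∩ _, ⟨k.1, k'⟩, ((hs'.mono fun y hy => ⟨hy.1, hy.2.2⟩).congr (hU.inter o)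
        fun y hy => if_pos (h1 ⟨hy.1, hy.2.2⟩)).of_eq (fun _ _ => rfl) (fun _ _ => rfl) (fun _ _ => rfl)
          fun y hy => by simp [Ln.shift, show χ y = 0 from (interior_subset hy.2.1 :)]⟩)
      fun k' => ⟨U \ (K ∪ C), ⟨k.1, fun e => k.2 ⟨e, k'⟩⟩, Iso.congr (u := fun _ => s₀) o'
        ⟨⟨fun _ _ => .const _, fun y hy => ((l4 y fun e => hy.2 (.inl e)).1).symm ▸ hs₀⟩, fun y hy => by
          simp [Ln.shift, triv, (l4 y fun e => hy.2 (.inl e)).2,
            (hχ.o y hy.1 fun e => hy.2 (.inr (h1 ⟨hy.1, e⟩))).eq_of_nhds]⟩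
        fun y hy => if_neg fun e => hy.2 (.inr e)⟩)
  refine ⟨_, K', k1, k2, k3, (Dr59.ex_dM (z.sm_smul q1)).congr fun x k => ?_⟩
  by_cases k' : x ∈ U
  · rw [Pi.sub_apply, indicator_of_mem k', l.F_shift hU b1 k', Dr59.dM_neg, Pi.neg_apply]
    abel
  · rw [Pi.sub_apply, indicator_of_notMem k', sub_zero, ← q3 x (k.resolve_left k')]
    exact Dr59.dM_congr ((hχ.z x (k.resolve_left k') k').mono fun y hy => by simp [hy])

end Crest.Agent.X212.Loc8
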