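import Crest.Agent.X212.Loc8.Rl
import Crest.Agent.X212.Dr59.Tex

/-!
# Row 212, LOC (helper8): compactly supported toric forms with integral characters are curvatures
-/

set_option autoImplicit false
set_option linter.unusedSectionVars false
noncomputable section
open Set Filter Topology Function
open scoped ContDiff Manifold
open Crest.Agent.R208.F (Ext)

namespace Crest.Agent.X212.Loc8
open Dr59 Rod53
open Line51 hiding tp Uni

variable {EN HN : Type} [NormedAddCommGroup EN] [NormedSpace ℝ EN] [FiniteDimensional ℝ EN]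
  [TopologicalSpace HN] {IN : ModelWithCorners ℝ EN HN} [IN.Boundaryless]
  {N : Type} [TopologicalSpace N] [ChartedSpace HN N] [IsManifold IN ∞ N] [T2Space N]
  {T : Tb IN N} {v : ℝ → Z2} {r : ℝ} {θ : N → Circle} {δ : Z2}

theorem ang_thx (h : Ang T θ δ) {p : X T v} (hp : p ∈ off T v) :
    ang (𝓡 4) (thx T v θ δ) p = ax T v (ang IN θ) p := by
  rw [ax, pm_ang (h.sm _ (mp_ax.maps hp)) ((mp_ax.sm p hp).mdifferentiableAt ne0)]
  refine ang_congr (eventually_of_mem (isOpen_off.mem_nhds hp) fun z hz => ?_)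
  conv_lhs => rw [← (T.ext v).right_inv (off_eq.le hz)]
  exact thx_ext (mp_ax.maps hz)

variable [MeasurableSpace E4] [BorelSpace E4]

theorem tg_rl [MeasurableSpace (X T v)] [BorelSpace (X T v)] [SecondCountableTopology (X T v)]
    {A : ℝ → ℝ × ℝ} {c : ℝ → ℝ} {F : X T v → Ext E4} (h : TG T v r (ang IN θ) A c F) (hθ : Ang T θ δ)
    {m : ℝ → ℤ} (hm : ∀ t, dr (A t) (v t) = m t) {κ : Type} [Fintype κ] {q : X T v → Matrix κ κ ℂ}
    {s : X T v → Matrix κ Unit ℂ} (hL : TL T v m q s univ) {K V : Set (X T v)} (hV : IsOpen V)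
    (hK : IsCompact K) (hs : K ⊆ V) (σ : X T v → ℤ) (k : ∀ p, p ∉ K → (∀ᶠ y in 𝓝 p, σ y = σ p) ∧
      c (T.time v p) = σ p ∧ (p ∈ T.tor v ∧ T.yy v p ≤ 2 * r →
        ∀ᶠ t in 𝓝 (T.time v p), A t = (σ p : ℝ) • rc2 δ)) :
    ∃ K', IsCompact K' ∧ K' ⊆ V ∧ RL (𝓡 4) K' F := by
  classical
  obtain ⟨a, h1, h2, h3⟩ := h.exists_conn hm isOpen_univ hL
  have o := hK.isClosed.isOpen_compl
  have e : ∀ p, p ∉ K → (fun y => thx T v θ δ y ^ σ y) =ᶠ[𝓝 p] thx T v θ δ ^ σ p := fun p hp =>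
    (k p hp).1.mono fun y hy => by simp only [hy, Pi.pow_apply]
  obtain ⟨S, s1, s2⟩ := (hL.mono (subset_univ _)).exists_fr o (g := fun y => thx T v θ δ y ^ σ y)
    (tl_of_loc fun p hp => ⟨interior {y | y ∉ K ∧ σ y = σ p}, mem_interior_iff_mem_nhds.2
      (inter_mem (o.mem_nhds hp) (k p hp).1), (hθ.tl (σ p) fun y hy n =>
        (((k y (interior_subset hy).1).2.2 ⟨tor_of_not_off n, (yy_axis n).trans_le
          (by linarith [h.pos])⟩).mono fun t ht => by
          have := hm t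
          rw [ht, (interior_subset hy).2] at this
          refine Int.cast_injective (α := ℝ) (Eq.trans ?_ this)
          simp [dr, rc2, dot, mul_assoc])).congr_s isOpen_interior fun y hy => by
        simp only [sc, (interior_subset hy.1).2, Pi.pow_apply]⟩)
  have fr := fr_of_pot o (h1.mono (subset_univ _)) (h2.mono (inter_subset_inter_left _ (subset_univ _))) s1
    (fun p hp n => ((hθ.csm_off n).zpow _).congr_of_eventuallyEq (e p hp)) s2 Sm.zero fun p hp n => by
      rw [ang_congr (e p hp), ang_zpow (hθ.csm_off n), ang_thx hθ n, pot_apply, (k p hp).2.1,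
        Pi.zero_apply, zero_add]
      by_cases l : p ∈ T.tor v ∧ T.yy v p ≤ 2 * r
      · rw [(xa_ang hθ (2 * r + 1)).ax_eq ⟨l.1, n, l.2.trans_lt (lt_add_one _)⟩, tq_apply, tq_apply,
          ((k p hp).2.2 l).self_of_nhds]
        simp only [rc2, Prod.smul_fst, Prod.smul_snd, smul_eq_mul]
        module
      · rw [(gw_one h.pos l).self_of_nhds]
        simp
  refine (rl_of_par hV hK hs (h1.mono (subset_univ _)) (fr.mono fun _ hy => hy.2)).imp fun K' l =>
    ⟨l.1, l.2.1, ?_⟩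
  rw [← eqOn_univ .. |>.1 h3, ← indicator_eq_self.2 (support_subset_iff'.2 fun y hy =>
    (fr.F_fr o (h1.sa.mono (subset_univ _)) fun l => hy (hs l)).trans (congrFun dM_zero y))]
  exact l.2.2

variable {a : ℤ → Z2} {e : ℤ → Z2} {n : ℤ → ℝ} {F : X T (wd a) → Ext E4} {i j s s' : ℤ}
  [MeasurableSpace (X T (wd a))] [BorelSpace (X T (wd a))] [SecondCountableTopology (X T (wd a))]
  {V : Set (X T (wd a))}

theorem wf_tl (h : WF T a r (ang IN θ) (fun k => rc2 (e k)) n F) : ∃ (q : X T (wd a) → Matrix (Option Bool) (Option Bool) ℂ)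
    (s : _), TL T (wd a) (wm a fun k => dot (e k) (a k)) q s univ := by
  have := Orx52.sigmaCompact (𝓡 4) (X T (wd a))
  refine exists_TL_wd T fun k => ⟨e k, ?_, rfl⟩
  have := h.step (k - 1)
  rw [dr_sub, dr_rc2, dr_rc2, sub_add_cancel, sub_eq_zero] at this
  exact_mod_cast this

/-- tests in a time window -/
theorem wf_rl_time [CompactSpace N] (h : WF T a r (ang IN θ) (fun k => rc2 (e k)) n F) (hθ : Ang T θ δ)
    (ha : IsWd a) (h1 : ∀ k, k ≤ i → e k = s • δ ∧ n k = s) (h2 : ∀ k, j ≤ k → e k = s' • δ ∧ n k = s')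
    (hij : i < j) (hV : IsOpen V) (hs : T.time (wd a) ⁻¹' Icc (i + 1 / 3) (j - 1 / 3) ⊆ V) :
    ∃ K', IsCompact K' ∧ K' ⊆ V ∧ RL (𝓡 4) K' F := by
  obtain ⟨q, u, hq⟩ := wf_tl h
  have c : ∀ z : ℤ, rc2 (z • δ) = (z : ℝ) • rc2 δ := fun z => by simp [rc2]
  have l : (i : ℝ) + 1 ≤ j := by exact_mod_cast hij
  refine tg_rl h.tg hθ (dr_wd h.step fun k => dr_rc2 _ _) hq hV
    (T.isCompact_time isCompact_Icc fun x _ => ha.loc x) hs
    (fun p => if T.time _ p < i + 1 / 2 then s else s') fun p hp => ?_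
  have t := T.continuous_time (v := wd a).continuousAt (x := p)
  rcases out_Icc hp with k | k
  · have k' := k.mono fun u hu => show u < i + 1 / 2 by linarith
    simp only [if_pos k'.self_of_nhds]
    exact ⟨(t.eventually k').mono fun _ hy => if_pos hy, pth_lo (fun l b => (h1 l b).2) k.self_of_nhds,
      fun _ => k.mono fun _ => pth_lo fun l b => by rw [(h1 l b).1, c]⟩
  · have k' := k.mono fun u hu => show ¬u < i + 1 / 2 by linarith
    simp only [if_neg k'.self_of_nhds]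
    exact ⟨(t.eventually k').mono fun _ hy => if_neg hy, pth_hi (fun l b => (h2 l b).2) k.self_of_nhds,
      fun _ => k.mono fun _ => pth_hi fun l b => by rw [(h2 l b).1, c]⟩

/-- tests near the axis -/
theorem wf_rl_ov (h : WF T a r (ang IN θ) (fun k => rc2 (e k)) (fun _ => s) F) (hθ : Ang T θ δ)
    (ha : IsWd a) (h1 : ∀ k, k ≤ i → e k = s • δ) (h2 : ∀ k, j ≤ k → e k = s • δ) (hV : IsOpen V)
    (hs : T.ov (wd a) (Icc ((i : ℝ) + 1 / 3) (j - 1 / 3) ×ˢ Icc 0 (2 * r)) ⊆ V) :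
    ∃ K', IsCompact K' ∧ K' ⊆ V ∧ RL (𝓡 4) K' F := by
  obtain ⟨q, u, hq⟩ := wf_tl h
  have c : rc2 (s • δ) = (s : ℝ) • rc2 δ := by simp [rc2]
  exact tg_rl h.tg hθ (dr_wd h.step fun k => dr_rc2 _ _) hq hV
    (T.isCompact_ov (isCompact_Icc.prod isCompact_Icc) fun q _ => ha.loc q.1) hs (fun _ => s)
    fun p hp => ⟨.of_forall fun _ => rfl, congrFun (pth_const _) _, fun l =>
      (out_Icc fun b => hp ⟨l.1, b, (T.eta_of_tor l.1).1, l.2⟩).elim
        (fun k => k.mono fun _ => pth_lo fun l b => by rw [h1 l b, c])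
        fun k => k.mono fun _ => pth_hi fun l b => by rw [h2 l b, c]⟩

end Crest.Agent.X212.Loc8
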