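import Crest.Agent.X212.Loc8.Ab
import Crest.Agent.X212.Loc8.Tor
import Crest.Agent.X212.Pi52.Stmt

/-!
# Row 212, layer G (helper8): abelian points on toric pieces

* `exists_odd`, `q_top`, `q_odd`, `hg0`.
-/

set_option autoImplicit false
set_option linter.unusedSectionVars false
noncomputable section
open Set Function Filter Topology
open scoped ContDiff Manifold Real
open Crest.Agent.R208.F (Ext)
open Crest.GeometryTopology.DehnSurgery (S3)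

namespace Crest.Agent.X212.Loc8
open M G75 Wd38 Nm96 Cyl58 Br55 Orx52
open Rod53 (Z2 Tb wd E3 E4)
open Dr59 hiding rho
open Int54 (Ori SameOn)
open Line51 (Ln LCx WL ang ang_KD dot vch op_tm)
open Num57 (isq)
open Sid48 (sd sw OK_hi)

section tr

variable {E HM : Type} [NormedAddCommGroup E] [NormedSpace ℝ E] [FiniteDimensional ℝ E]
  [MeasurableSpace E] [BorelSpace E] [TopologicalSpace HM] {I : ModelWithCorners ℝ E HM} [I.Boundaryless]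
  {M : Type} [TopologicalSpace M] [ChartedSpace HM M] [IsManifold I ∞ M]
  [MeasurableSpace M] [BorelSpace M] [SecondCountableTopology M] [T2Space M]
  {E' H' : Type} [NormedAddCommGroup E'] [NormedSpace ℝ E'] [FiniteDimensional ℝ E']
  [MeasurableSpace E'] [BorelSpace E'] [TopologicalSpace H'] {J : ModelWithCorners ℝ E' H'} [J.Boundaryless]
  {N : Type} [TopologicalSpace N] [ChartedSpace H' N] [IsManifold J ∞ N]
  [MeasurableSpace N] [BorelSpace N] [SecondCountableTopology N] [T2Space N]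

theorem pm_F {κ : Type} [Fintype κ] {p : M → Matrix κ κ ℂ} (h : (⟨p, 0⟩ : Ln E M κ).On I univ) {W : Set N}
    (hW : IsOpen W) {f : N → M} (hf : Mp J I W univ f) {y : N} (hy : y ∈ W) :
    Dr59.pm J I f (Ln.F I ⟨p, 0⟩) y = Ln.F J ⟨fun z => p (f z), 0⟩ y := by
  rw [← h.F_pull isOpen_univ hW hf hy]
  exact (Line51.on_comp h hf).F_congr hW (fun _ _ => rfl) (fun z _ => congrFun (pm_zero _) z) hy

theorem tr_chr (φ : PartialDiffeomorph J I N M ∞) {K : Set N} {a v : N → Ext E'} {o : M → Ext E}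
    (ha : Cs J 2 K a) (hs : K ⊆ φ.source) (ho : Ori I o) (hv : Ori J v) (hp : SameOn v (Dr59.pm J I φ o) K)
    (c : M → Ext E) : ip I o c (psh φ a) + ip I o (psh φ a) (psh φ a) = ip J v (Dr59.pm J I φ c) a + ip J v a a := by
  rw [ha.ip_psh φ hs ho hv hp, ha.ip_psh φ hs ho hv hp,
    ha.ip_congr (c := Dr59.pm J I φ (psh φ a)) fun y hy => pm_psh φ (hs hy) _]

theorem rl_dif {X : Mf 4} {f : X.M → Ext X.E} (Φ : X.M ≃ₘ^∞⟮X.I, X.I⟯ X.M) {K : Set X.M} (hK : IsCompact K)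
    (h : RL X.I K f) : RL X.I (Φ '' K) (psh Φ.toPartialDiffeomorph f) ∧ Cs X.I 2 K f :=
  ⟨h.psh Φ.toPartialDiffeomorph hK (subset_univ K), h.cs hK⟩

theorem tr_dif {X : Mf 4} {o f : X.M → Ext X.E} {Φ : X.M ≃ₘ^∞⟮X.I, X.I⟯ X.M} (ho : Ori X.I o)
    (hΦ : Pos X.I X.I Φ univ o o) {κ : Type} [Fintype κ] {p : X.M → Matrix κ κ ℂ}
    (h : (⟨p, 0⟩ : Ln X.E X.M κ).On X.I univ) {K : Set X.M} (hf : Cs X.I 2 K f) :
    ip X.I o (Ln.F X.I ⟨p, 0⟩) (psh Φ.toPartialDiffeomorph f) +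
      ip X.I o (psh Φ.toPartialDiffeomorph f) (psh Φ.toPartialDiffeomorph f) =
    ip X.I o (Ln.F X.I ⟨fun z => p (Φ z), 0⟩) f + ip X.I o f f := by
  have s : SameOn o (Dr59.pm X.I X.I Φ.toPartialDiffeomorph o) K := (same_symm hΦ).mono (subset_univ K)
  have e : ip X.I o (Dr59.pm X.I X.I Φ.toPartialDiffeomorph (Ln.F X.I ⟨p, 0⟩)) f =
      ip X.I o (Ln.F X.I ⟨fun z => p (Φ z), 0⟩) f := hf.ip_congr fun y _ =>
    pm_F (f := Φ) h isOpen_univ (.of_contMDiff Φ.contMDiff (mapsTo_univ _ _)) trivial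
  rw [tr_chr Φ.toPartialDiffeomorph hf (subset_univ K) ho ho s, e]

end tr

variable {Γ : Nm} {κ lam : Type} [Fintype κ] [Fintype lam] [DecidableEq lam] {C : Cx Γ}

section tor

variable {w : Shp Γ} {hw : w.OK} {X : TP V4} (R : Rz C hw X) {B B' : Finset Bs} {η η' : Bs → Bool} {s : ℤ}

local instance hgE (X : TP V4) : MeasurableSpace X.P.E := borel _
local instance hgE' (X : TP V4) : BorelSpace X.P.E := ⟨rfl⟩
local instance hgM (X : TP V4) : MeasurableSpace X.P.M := borel _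
local instance hgM' (X : TP V4) : BorelSpace X.P.M := ⟨rfl⟩

/-- the Borel structure -/
local instance hgMs (T : Tb (𝓡 3) S3) (v : ℝ → Z2) : MeasurableSpace (Rod53.X T v) := borel _

local instance hgBs (T : Tb (𝓡 3) S3) (v : ℝ → Z2) : BorelSpace (Rod53.X T v) := ⟨rfl⟩

/-- **the dual of a Seifert surface times the interval** -/
theorem exists_odd {Λ : NmL Γ} {L : LCx C Λ} {m : Wd38.Wt} (W : WL L R m lam) (h1 : w.l ≤ s) (h2 : s < w.r)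
    (h0 : (w.s s).r.2.2 = 0) (ho : Odd (m.nr s)) : ∃ K f, IsCompact K ∧ K ⊆ R.bd (.yS s) ∧ RL X.mf.I K f ∧
      ∃ z : ℤ, Odd z ∧ ip X.mf.I (-R.O) (Ln.F X.mf.I ⟨W.p, 0⟩) f + ip X.mf.I (-R.O) f f = z * (2 * π) ^ 2 := by
  have h := Shp.rg_one h1 h2
  have : SecondCountableTopology (Rod53.X (C.T (w.kn s)) (wd (w.bz s (s + 1)))) := (C.tp w s (s + 1)).sc
  have : SecondCountableTopology (C.XR w s (s + 1)) := this
  let φ : PartialDiffeomorph (𝓡 4) X.mf.I (Rod53.X (C.T (w.kn s)) (wd (w.bz s (s + 1)))) X.mf.M ∞ := (R.B h).φ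
  have ea : w.bz s (s + 1) s = (w.s s).r.2 := by rw [h.bz_eq hw, Shp.bw_le le_rfl]
  have hθ := ang_KD (C.kd (w.kn s))
  have ne : ∀ j, j ≠ s → (j + 1 ≤ s ↔ j ≤ s) := fun j _ => by omega
  obtain ⟨F, hF⟩ := exists_WF (a := w.bz s (s + 1)) (m := fun k => rc2 (if k ≤ s then 0 else (0, 1))) one_pos
    (xa_ang hθ 1) (fun j => (eq_or_ne j s).elim (fun e => by simp [e, dr, rc2, ea, h0]) fun e => by
      simp [ne j e, dr]) fun k => if k ≤ s then 0 else 1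
  have u : II s s ⊆ II s (s + 1) := II_mono le_rfl (by omega)
  obtain ⟨K, k1, k2, k3⟩ := wf_rl_time hF hθ (w.isWd_bz _ _) (i := s) (j := s + 1) (s := 0) (s' := 1)
    (fun k e => by simp [e]) (fun k e => by simp [show ¬k ≤ s by omega]) (lt_add_one s)
    ((isOpen_II s s).preimage (C.T _).continuous_time)
    (preimage_mono (Icc_subset_Ioo (by linarith) (by push_cast; linarith)))
  have k4 := k2.trans (preimage_mono u)
  have k5 : K ⊆ φ.source := k4.trans (R.B h).src.ge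
  have c := k3.cs k1
  have o := op_tm C w s (s + 1)
  have mp : Mp (𝓡 4) X.mf.I (C.tm ⁻¹' II s (s + 1)) univ φ :=
    ⟨fun _ k => ((R.B h).ld k).contMDiffAt, mapsTo_univ _ _⟩
  choose e he using vch hw W.ok h
  have hS : ∀ j, j ∉ ({s} : Finset ℤ) → rc2 (if j + 1 ≤ s then 0 else (0, 1)) = rc2 (if j ≤ s then 0 else (0, 1)) :=
    fun j k => by simp only [ne j (by simpa using k)]
  have e1 := (wc_line' he o (Line51.on_comp W.ln mp) (W.tl h)).ip_eq (C.ok_spec rfl) (pos_τ _ _) (w.isWd_bz _ _) o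
    hF (c.mono k4) hS
  have e2 := (hF.wc _).ip_eq (C.ok_spec rfl) (pos_τ _ _) (w.isWd_bz _ _) o hF (c.mono k4) hS
  refine ⟨φ '' K, psh φ F, k1.image_of_continuousOn (φ.contMDiffOn_toFun.continuousOn.mono k5), ?_,
    k3.psh φ k1 k5, (e s).1, ?_, ?_⟩
  · rintro _ ⟨y, hy, rfl⟩
    exact (Rz.half_II s).ge (((R.B h).tm y (k4 hy)).symm ▸ k2 hy)
  · rw [← Line51.bn_le (y := s + 1) le_rfl, ← (he s).2, ea, dot, h0, mul_zero, add_zero] at ho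
    exact (Int.odd_mul.1 ho).1
  · rw [tr_chr φ c k5 (ori_neg R.O_spec.ori) (ori_neg C.ori_ok) (same_symm ((R.O_spec.B h).neg.mono k4)),
      c.ip_congr (c := Dr59.pm (𝓡 4) X.mf.I φ (Ln.F X.mf.I ⟨W.p, 0⟩)) fun y hy => pm_F W.ln o mp (k4 hy),
      ip_neg_ori, ip_neg_ori]
    refine (congrArg₂ (-· + -·) e1 e2).trans ?_
    simp [det2, rc2, mul_comm]

end tor

variable {G : Tab C.kd κ} {P : Pm Γ} {L : LP C G P lam} {D : Dt Γ} {h : D.OK P} {μ : ℤ × ℤ} {i : D.L}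
  {σ c : Finset D.A} {ϖ : Reg D.A} {n : Wd38.Wt} {η : Bs → Bool} (Q : Pres L h μ i c ϖ n η)

/-- the word part of the piece -/
def qO : Set (L.scn h μ).X.M :=
  Q.Φ '' (pc (C.rz h.h0.w) (c.image fun a => a.1.b) η ∩ Pi52.wp (C.rz h.h0.w))

theorem qO_sub : qO Q ⊆ (L.scn h μ).M.sys.U ϖ := (image_mono inter_subset_left).trans Q.U.le

theorem mem_fz {a : D.A} (ha : IsL D.F.fz a.1) : a ∈ (L.scn h μ).fz := Finset.mem_filter.2 ⟨Finset.mem_univ _, ha⟩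

theorem band_eq {a : D.A} (ha : a ∈ c ∨ IsL (D.F.fz ∪ D.F.ls) a.1) :
    ((L.scn h μ).M.sys.w a).band = Q.Φ '' (C.rz h.h0.w).bd a.1.b := Set.ext fun z => by
  obtain ⟨y, rfl⟩ := Q.Φ.surjective z
  exact (Q.trc.bd a ha y).trans Q.Φ.injective.mem_set_image.symm

theorem band_sub {a : D.A} (ha : IsL D.F.fz a.1) (k : ∀ b ∈ c, sw b.1.b a.1.b = η b.1.b) :
    ((L.scn h μ).M.sys.w a).band ⊆ qO Q := fun z hz => by
  have ha' : a ∈ c ∨ IsL (D.F.fz ∪ D.F.ls) a.1 := .inr ⟨ha.1, Finset.mem_union_left _ ha.2⟩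
  obtain ⟨y, hy, rfl⟩ := (band_eq Q ha').le hz
  refine ⟨y, ⟨fun b hb => ?_, Pi52.II_wp _ (OK_hi (Q.trc.ok a ha')).2 (Rz.bd_II _ hy)⟩, rfl⟩
  obtain ⟨b, hb', rfl⟩ := Finset.mem_image.1 hb
  exact k b hb' ▸ (Q.trc.sd b (.inl hb') _ y).1 (Q.trc.far_sd (.inl hb') ha' (Q.tp.fz _ hb _ ha.2) hz)

include Q in
theorem q_pin : ∀ a ∈ c, (L.scn h μ).M.pin a :=
  fun _ ha => Bs.ty_sph.2 (Q.tp.ok _ (Finset.mem_image_of_mem _ ha)).2

theorem q_top (hπ : (L.scn h μ).M.sys.Piece (↑c : Set D.A) ϖ) (hf : ¬D.F.Fst (c.image fun a => a.1.b) η) :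
    IsOpen (qO Q) ∧ ∃ x ∈ qO Q, Dfl49.Sur {x} (qO Q) := by
  obtain ⟨h1, h2, -, h3⟩ := Pi52.pi1 (F := D.F) (C.rz h.h0.w) Q.tp hf
  have : LocallyConnectedSpace (C.X h.h0.w).P.M := Hz56.locConn (M := (L.scn h μ).X.M) (L.scn h μ).X.I
  obtain ⟨b, hb, k⟩ := Q.tp.ne.resolve_left fun e => hf (by rw [e]; exact fun _ t => absurd t (Finset.notMem_empty _))
  obtain ⟨a, ha, rfl⟩ := Finset.mem_image.1 hb
  obtain ⟨x, hx⟩ := ((L.scn h μ).M.sys.w a).ne (η a.1.b)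
  obtain ⟨y, y1, rfl⟩ := Q.U.ge (hπ.adj a _ ((Q.sd a _).2 ⟨ha, k, rfl⟩) hx)
  have y2 := And.intro y1 (Pi52.II_wp (C.rz h.h0.w) (OK_hi (Q.trc.ok a (.inl ha))).2
    ((C.rz h.h0.w).bd_II ((Q.trc.bd a (.inl ha) y).1 hx.1)))
  exact ⟨Q.Φ.toHomeomorph.isOpenMap _ h1, _, ⟨y, y2, rfl⟩, image_singleton ▸ (sur_of_h1 h1 h2 h3 y2).image
    Q.Φ.toHomeomorph.toOpenPartialHomeomorph (subset_univ _) (singleton_subset_iff.2 y2)⟩

/-- the odd test line of a piece -/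
theorem q_odd (hg : D.F.Hg n (c.image fun a => a.1.b) η) : ∃ a ∈ (L.scn h μ).fz,
    ((L.scn h μ).M.sys.w a).band ⊆ qO Q ∧ ∃ K f, IsCompact K ∧ K ⊆ ((L.scn h μ).M.sys.w a).band ∧
      RL (L.scn h μ).X.I K f ∧ ∃ z : ℤ, Odd z ∧ ip (L.scn h μ).X.I (L.scn h μ).M.o (Num57.FL (L.scn h μ) i) f +
        ip (L.scn h μ).X.I (L.scn h μ).M.o f f = z * (2 * π) ^ 2 := by
  obtain ⟨s, s1, s2, s3, s4⟩ := hg
  have ok := (h.ok.fz _ s1).1
  obtain ⟨K, f, k1, k2, k3, z, k4, k5⟩ := exists_odd _ (Q.W.push Q.uni) ok.1 ok.2 s2 s3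
  have ha : IsL D.F.fz (Bs.yS s : Wl) := ⟨rfl, s1⟩
  have k := rl_dif (X := (C.X h.h0.w).mf) Q.Φ k1 k3
  refine ⟨⟨_, h.fz _ s1⟩, mem_fz ha,
    band_sub Q ha fun b hb => s4 _ (Finset.mem_erase.2 ⟨fun e => ?_, Finset.mem_image_of_mem _ hb⟩), _, _,
    k1.image Q.Φ.continuous, (image_mono k2).trans (band_eq Q (a := ⟨_, h.fz _ s1⟩)
      (.inr ⟨rfl, Finset.mem_union_left _ s1⟩)).ge, k.1, z, k4, ?_⟩
  · exact (e ▸ (Q.tp.ok _ (Finset.mem_image_of_mem _ hb)).2 : (Bs.yS s).pin)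
  · exact (tr_dif (X := (C.X h.h0.w).mf) (ori_neg (C.rz h.h0.w).O_spec.ori) Q.pos.neg ((L.scn h μ).N i).ok
      k.2).trans k5

include Q in
/-- **BR-HG** when only the pinch walls are broken -/
theorem hg0 (hS : (L.scn h μ).OK) (hσ : σ ∈ (L.scn h μ).K i) (hπ : (L.scn h μ).M.sys.Piece (↑c : Set D.A) ϖ)
    (hf : ¬D.F.Fst (c.image fun a => a.1.b) η) (hg : D.F.Hg n (c.image fun a => a.1.b) η) (k₀ : ℝ) :
    Ab0 (S := L.scn h μ) i σ c ϖ (k₀ ≤ ·) :=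
  let ⟨o, _, hx, hu⟩ := q_top Q hπ hf
  let ⟨_, a1, a2, _, _, k1, k2, k3, _, k4, k5⟩ := q_odd Q hg
  ab_huge hS hσ (q_pin Q) hπ o (qO_sub Q) hx hu a1 a2 k1 k2 k3 k4 k5 k₀

end Crest.Agent.X212.Loc8
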