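import Crest.Agent.X212.Loc8.Hg
import Crest.Agent.X212.Loc8.Nk2
import Crest.Agent.X212.Brk99.Main
import Crest.Agent.X212.Geo48.Xi
import Crest.Agent.X212.Po96.Out
import Crest.Agent.X212.Br55.Cel

/-!
# Row 212, layer G (helper8): BR-HG
-/

set_option autoImplicit false
set_option linter.unusedSectionVars false
noncomputable section
open Set Function Filter

namespace Crest.Agent.X212.Loc8
open M G75 Wd38 Nm96 Cyl58 Br55

variable {Γ : Nm} {κ lam : Type} [Fintype κ] [Fintype lam] [DecidableEq lam] {C : Cx Γ}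
  {G : Tab C.kd κ} {P : Pm Γ} {L : LP C G P lam} {D : Dt Γ} {h : D.OK P} {μ : ℤ × ℤ} {i : D.L}
  {σ c : Finset D.A} {ϖ : Reg D.A} {n : Wd38.Wt} {η : Bs → Bool}

theorem q_out (Q : PresS L h μ i σ c ϖ n η) (hl : Cel D.F.ls (σ.map (.subtype _))) (hc : c ⊆ σ)
    (hf : ¬D.F.Fst (c.image fun a => a.1.b) η) : Brk99.Out (L.scn h μ) σ ϖ (qO Q.toPres) := by
  intro (T : Set D.A) hT np
  obtain ⟨T', m⟩ : ∃ T' : Finset Bs, ∀ {b}, b ∈ T' ↔ ∃ a ∈ T, a.1.b = b :=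
    ⟨((toFinite T).image _).toFinset, Finite.mem_toFinset _⟩
  have fr : ∀ a ∈ T, ∀ b ∈ c, a.1.b.Far b.1.b := fun a ha b hb => Q.far a (hT ha).1 b (hc hb)
    fun e => np a ha (e ▸ q_pin Q.toPres b hb)
  obtain ⟨k1, -, x, k2, k3⟩ := Po96.pi1_out (F := D.F) (C.rz h.h0.w) Q.tp hf (T := T') (fun _ k => by
      obtain ⟨a, ha, rfl⟩ := m.1 k
      have p : ¬a.1.b.pin := fun e => np a ha (Bs.ty_sph.2 e)
      refine ⟨Q.trs.ok a (.inl (hT ha).1), ?_, p, fun d hd => ?_⟩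
      · rcases hl _ (Finset.mem_map_of_mem _ (hT ha).1) with e | e | ⟨x, y, e, -⟩
        · exact absurd e p
        · obtain ⟨x, e, -⟩ := h.ok.ls _ e.2
          exact (show a.1.b = _ from e) ▸ trivial
        · exact (show a.1 = _ from e) ▸ trivial
      · obtain ⟨b, hb, rfl⟩ := Finset.mem_image.1 (Finset.mem_of_mem_erase hd)
        refine Q.trs.eq_lo (.inl (hc hb)) (.inl (hT ha).1) (fun z hz => ?_) (Q.trs.fr (.inl (hc hb))
          (.inl (hT ha).1) (Sid48.far_symm (fr a ha b hb))).1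
        obtain ⟨y, hy, rfl⟩ := Q.U.ge ((hT ha).2.2.1 hz)
        exact (Q.trs.sd b (.inl (hc hb)) _ y).2 (hy _ (Finset.mem_image_of_mem _ hb)))
    (fun _ k _ k' e => by
      obtain ⟨a, ha, rfl⟩ := m.1 k
      obtain ⟨b, hb, rfl⟩ := m.1 k'
      exact Q.far a (hT ha).1 b (hT hb).1 fun q => e (q ▸ rfl))
    fun _ k _ k' => by
      obtain ⟨a, ha, rfl⟩ := m.1 k
      obtain ⟨b, hb, rfl⟩ := Finset.mem_image.1 k'
      exact fr a ha b hb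
  have e : qO Q.toPres ∩ ⋂ a ∈ T, ((L.scn h μ).M.sys.w a).sd true = Q.Φ '' (pc (C.rz h.h0.w)
      (c.image fun a => a.1.b) η ∩ Pi52.wp (C.rz h.h0.w) ∩ ⋂ a ∈ T', Sid48.sd (C.rz h.h0.w) a true) := by
    refine (congrArg _ (Set.ext fun z => ?_)).trans (image_inter Q.Φ.injective).symm
    obtain ⟨y, rfl⟩ := Q.Φ.surjective z
    refine Iff.trans ?_ Q.Φ.injective.mem_set_image.symm
    simp only [mem_iInter]
    exact ⟨fun k _ q => let ⟨a, ha, e⟩ := m.1 q; e ▸ (Q.trs.sd a (.inl (hT ha).1) _ y).1 (k a ha),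
      fun k a ha => (Q.trs.sd a (.inl (hT ha).1) _ y).2 (k _ (m.2 ⟨a, ha, rfl⟩))⟩
  refine ⟨fun a ha z hz => ?_, Q.Φ x, e.ge ⟨x, k2, rfl⟩, e ▸ image_singleton ▸ k3.image
    Q.Φ.toHomeomorph.toOpenPartialHomeomorph (subset_univ _) (singleton_subset_iff.2 k2)⟩
  obtain ⟨y, rfl⟩ := Q.Φ.surjective z
  exact ⟨y, k1 _ (m.2 ⟨a, ha, rfl⟩) ((Q.trs.bd a (.inl (hT ha).1) y).1 hz), rfl⟩

/-- **BR-HG** -/
theorem hgS (L : LP C G P lam) : HgS L := fun _ _ _ _ _ _ _ _ _ k₀ hS hσ hl hc _ hπ hπ₀ Q hf hg =>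
  let ⟨_, a1, a2, _, _, k1, k2, k3, _, k4, k5⟩ := q_odd Q.toPres hg
  Brk99.ab_huge neck (Geo48.xi κ lam) hS hσ hπ₀ (fun a ha => q_pin Q.toPres a (hπ.bd_subset ha))
    (q_top Q.toPres hπ hf).1 (qO_sub Q.toPres) (q_out Q hl hc hf) a1 a2 k1 k2 k3 k4 k5 k₀

end Crest.Agent.X212.Loc8
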