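import Crest.Agent.X212.Loc8.Thin
import Crest.Agent.X212.Dr59.Lat

/-!
# Row 212, LOC (helper8): thin necks, periods across long necks, removal of points
-/

set_option autoImplicit false
set_option linter.unusedSectionVars false
noncomputable section
open scoped Manifold ContDiff Topology InnerProductSpace
open MeasureTheory Function Filter Set Module
open Crest.Agent.R208.F (Ext)
open Crest.Agent.R208.FI (IsDeg)

namespace Crest.Agent.X212.Loc8
open An Int54 Qab60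
open Num57 hiding c1 c2
open Dr59 (SmAt dM df CAt Dg Cl Ex Cs ip cut ne0 pm HZ)
open Cyf70 (IC cyl)

theorem sq_le_of {x A B : ℝ} (hA : 0 < A) (hB : 0 ≤ B)
    (h : ∀ l : ℝ, 0 < l → 2 * |x| ≤ l * A + B / l) : x ^ 2 ≤ A * B := by
  rcases eq_or_ne x 0 with rfl | h0
  · simpa using mul_nonneg hA.le hB
  have h1 := abs_pos.2 h0
  have h2 := h (|x| / A) (div_pos h1 hA)
  rw [div_mul_cancel₀ _ hA.ne', div_div_eq_mul_div] at h2
  have h3 : |x| ≤ B * A / |x| := by linarith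
  rw [le_div_iff₀ h1, abs_mul_abs_self] at h3
  linarith

theorem two_inner_le {V : Type*} [NormedAddCommGroup V] [InnerProductSpace ℝ V] (x y : V) {l : ℝ}
    (hl : 0 < l) : ‖⟪x, y⟫_ℝ‖ ≤ (l * ‖x‖ ^ 2 + ‖y‖ ^ 2 / l) / 2 := by
  have e : l * ‖x‖ ^ 2 + ‖y‖ ^ 2 / l - 2 * (‖x‖ * ‖y‖) = (l * ‖x‖ - ‖y‖) ^ 2 / l := by
    field_simp; ring
  have : 0 ≤ (l * ‖x‖ - ‖y‖) ^ 2 / l := by positivity
  linarith [norm_inner_le_norm (𝕜 := ℝ) x y]

variable {E : Type} [NormedAddCommGroup E] [NormedSpace ℝ E] [FiniteDimensional ℝ E]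
  [MeasurableSpace E] [BorelSpace E]
  {H : Type} [TopologicalSpace H] {I : ModelWithCorners ℝ E H} [I.Boundaryless]
  {Y : Type} [TopologicalSpace Y] [ChartedSpace H Y] [IsManifold I ∞ Y]
  [MeasurableSpace Y] [BorelSpace Y] [SecondCountableTopology Y] [T2Space Y]
  {E' : Type} [NormedAddCommGroup E'] [NormedSpace ℝ E'] [FiniteDimensional ℝ E']
  [MeasurableSpace E'] [BorelSpace E']
  {H' : Type} [TopologicalSpace H'] {J : ModelWithCorners ℝ E' H'} [J.Boundaryless]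
  {N : Type} [TopologicalSpace N] [ChartedSpace H' N] [IsManifold J ∞ N]
  [MeasurableSpace N] [BorelSpace N] [SecondCountableTopology N] [T2Space N]
  {ι κ : Type} [Fintype ι] [Fintype κ]

/-- the pairing with a fixed form is bounded by the energy -/
theorem pair_le {F : Fr J N ι} (hF : F.IsVol) {O e : N → Ext E'} (hO : Ori J O)
    (he : ∀ x, SmAt J e x) {K : Set N} (hK : IsCompact K) (h0 : ∀ x, x ∉ K → e x = 0) :
    ∃ C, 0 ≤ C ∧ ∀ u, Fo J 2 u → ip J O u e ^ 2 ≤ C * en F K u := by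
  let R : N → V2 ι := fun x => WithLp.toLp 2 fun s =>
    1 / 2 * rat (volF O F.e) (th F s.1 * th F s.2 * e) x
  have hR : Continuous R := (sm_toLp fun s => contMDiff_const.mul ((hO.vol F.toPre).contMDiff_rat
    fun x => ((smAt_th F s.1 x).mul (smAt_th F s.2 x)).mul (he x))).continuous
  have iR : IntegrableOn (fun x => ‖R x‖ ^ 2) K F.μ :=
    (hR.norm.pow 2).continuousOn.integrableOn_compact hK
  have R0 : 0 ≤ ∫ x in K, ‖R x‖ ^ 2 ∂F.μ := integral_nonneg fun _ => sq_nonneg _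
  refine ⟨(∫ x in K, ‖R x‖ ^ 2 ∂F.μ) + 1, by linarith, fun u hu =>
    sq_le_of (by linarith) (en_nonneg _ _ _) fun l hl => ?_⟩
  have iu := intOn_en F hK hu.sm
  have e1 : ∀ x, rat (volF O F.e) (u * e) x = ⟪R x, c2 F u x⟫_ℝ := fun x => by
    rw [rat, Pi.mul_apply, Map77.inner_fm, Fintype.sum_prod_type]
    conv_lhs => rw [(cf F x).eq2 (hu.dg x)]
    simp only [Finset.sum_mul, smul_mul_assoc, map_sum, map_smul, Finset.sum_div, smul_eq_mul, R,
      rat, Pi.mul_apply, th, RCLike.inner_apply, conj_trivial, c2, k2]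
    exact Finset.sum_congr rfl fun s _ => Finset.sum_congr rfl fun t _ => by ring
  have := norm_integral_le_of_norm_le (((iR.const_mul l).add (iu.div_const l)).div_const 2)
    (.of_forall fun x => two_inner_le (R x) (c2 F u x) hl)
  simp only [Pi.add_apply] at this
  rw [integral_div, integral_add (iR.const_mul l) (iu.div_const l), integral_const_mul,
    integral_div, Real.norm_eq_abs] at this
  rw [ip, hO.integ_vol hF, ← setIntegral_eq_integral_of_forall_compl_eq_zero (s := K)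
    fun x hx => by rw [rat, Pi.mul_apply, h0 x hx, mul_zero, map_zero, zero_div], en]
  simp only [e1]
  linarith

/-- a closed form can be made to vanish near finitely many points -/
theorem exists_rm {T : Set N} (hT : T.Finite) (h : ∀ z ∈ T, ∃ U, IsOpen U ∧ z ∈ U ∧ HZ J 2 U)
    {V : Set N} (hV : IsOpen V) {c : N → Ext E'} (hc : Cs J 2 V c) :
    ∃ c', Cs J 2 (V \ T) c' ∧ Ex J univ (c - c') := by
  induction T, hT using Set.Finite.induction_on with
  | empty => exact ⟨c, by simpa using hc, by simpa using Ex.zero⟩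
  | @insert z T _ hT ih =>
    obtain ⟨c', h1, h2⟩ := ih fun y hy => h y (.inr hy)
    by_cases hz : z ∈ V \ T
    swap
    · exact ⟨c', ⟨h1.cl, h1.hc, fun x hx => ⟨(h1.sub hx).1, fun k =>
        k.elim (fun e => hz (e ▸ h1.sub hx)) (h1.sub hx).2⟩⟩, h2⟩
    obtain ⟨U, hU, hzU, hH⟩ := h z (.inl rfl)
    obtain ⟨b, b1, b2, b3⟩ := (hH c' (h1.on U)).deg (h1.on U).dg
    obtain ⟨a, a1, a2, a3, a4⟩ := exists_fo isCompact_singleton
      (hU.inter (hV.sdiff hT.isClosed)) (singleton_subset_iff.2 ⟨hzU, hz⟩)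
      (b1.mono inter_subset_left) (b2.mono inter_subset_left)
    have t : tsupport (dM J a) ⊆ tsupport a := closure_minimal (fun x hx => by_contra fun k =>
      hx ((Dr59.dM_congr (notMem_tsupport_iff_eventuallyEq.1 k)).trans
        (congrFun Dr59.dM_zero x))) (isClosed_tsupport _)
    have k := h1.sub' ⟨a1.d.cl a1.dd, a2.of_isClosed_subset (isClosed_tsupport _) t,
      t.trans (a3.trans inter_subset_right)⟩
    refine ⟨_, ⟨k.cl, k.hc, fun x hx => ⟨(k.sub hx).1, fun k' => k'.elim (fun e => ?_) (k.sub hx).2⟩⟩,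
      h2.trans (by simpa using Dr59.ex_dM fun x _ => a1.sm x)⟩
    subst e
    refine notMem_tsupport_iff_eventuallyEq.2 ?_ hx
    filter_upwards [Dr59.dM_congr_nhds (I := J) (a4 x rfl), hU.mem_nhds hzU] with y h3 h4
    rw [Pi.sub_apply, h3, b3 y h4, sub_self, Pi.zero_apply]

theorem ex_biUnion {α : Type*} {s : Set α} (hs : s.Finite) {U : α → Set N} {f : N → Ext E'}
    (ho : ∀ i ∈ s, IsOpen (U i)) (hd : s.Pairwise (Disjoint on U)) (h : ∀ i ∈ s, Ex J (U i) f) :
    Ex J (⋃ i ∈ s, U i) f := by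
  induction s, hs using Set.Finite.induction_on with
  | empty => exact Dr59.ex_of_zero (by simp)
  | @insert i s hi _ ih =>
    obtain ⟨p, p1, p2⟩ := h i (.inl rfl)
    obtain ⟨q, q1, q2⟩ := ih (fun k hk => ho k (.inr hk)) (hd.mono (subset_insert i s))
      fun k hk => h k (.inr hk)
    rw [biUnion_insert]
    refine Dr59.ex_glue (ho i (.inl rfl)) (isOpen_biUnion fun k hk => ho k (.inr hk)) p1 q1
      (fun x hx => ?_) p2 q2
    obtain ⟨k, hk, h2⟩ := mem_iUnion₂.1 hx.2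
    exact (disjoint_left.1 (hd (.inl rfl) (.inr hk) fun e => hi (e ▸ hk)) hx.1 h2).elim

variable [CompactSpace Y]

/-! ### the cross-section -/

/-- the pairing of `e` with translation invariant forms is bounded by the energy -/
def Pr (G : Fr I Y κ) (O e : Y × ℝ → Ext (E × ℝ)) (C : ℝ) : Prop :=
  ∀ c, Fo I 2 c → ip (IC I) O (pm (IC I) I Prod.fst c) e ^ 2 ≤ C * en G univ c

theorem norm_c2_fst (G : Fr I Y κ) (c : Y → Ext E) (q : Y × ℝ) :
    ‖c2 (cyl G) (pm (IC I) I Prod.fst c) q‖ ^ 2 = ‖c2 G c q.1‖ ^ 2 := by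
  have z : ∀ v, e2 (c q.1) 0 v = 0 ∧ e2 (c q.1) v 0 = 0 := fun v => by
    simpa using And.intro (e2_vsm (c q.1) 0 1 0 v) (e2_vsm (c q.1) 1 0 v 0)
  simp only [norm_c2_eq, pm_fst, e2_pb, Fintype.sum_option]
  change e2 (c q.1) 0 0 ^ 2 + ∑ b, e2 (c q.1) 0 _ ^ 2 + ∑ a, (e2 (c q.1) _ 0 ^ 2 + _) = _
  simp only [(z _).1, (z _).2, zero_pow two_ne_zero, Finset.sum_const_zero, zero_add]
  rfl

theorem exists_pr {G : Fr I Y κ} (hG : G.IsVol) {O e : Y × ℝ → Ext (E × ℝ)} (hO : Ori (IC I) O)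
    {k : ℕ} (he : Cs (IC I) k univ e) : ∃ C, 0 ≤ C ∧ Pr G O e C := by
  have hT : IsCompact (Prod.snd '' tsupport e) := he.hc.isCompact.image continuous_snd
  obtain ⟨C, h0, h⟩ := pair_le (isVol_cyl hG) hO (fun x => he.cl.sm x trivial)
    (isCompact_univ.prod hT) fun x hx =>
      image_eq_zero_of_notMem_tsupport fun k => hx ⟨trivial, x, k, rfl⟩
  refine ⟨C * volume.real (Prod.snd '' tsupport e), by positivity, fun c hc => (h _
    ⟨fun q => (hc.sm _).pm contMDiffAt_fst, fun q => (hc.dg _).pb _⟩).trans_eq ?_⟩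
  simp only [en, norm_c2_fst]
  rw [show (cyl G).μ = G.μ.prod volume from rfl, ← Measure.prod_restrict,
    integral_fun_fst fun y => ‖c2 G c y‖ ^ 2, smul_eq_mul, mul_assoc, measureReal_restrict_apply_univ]

/-! ### necks -/

variable {G : Fr I Y κ} {F : Fr J N ι} {j : Y × ℝ → N} {w0 w1 χ : ℝ → ℝ} {S T : Set ℝ}
  {o : Y → Ext E} {O f : N → Ext E'} {g : N → ℝ} {c δ p : ℝ} {K : Set N}

theorem cpt_band (h : Bnd G F j w0 w1 S) (hT : IsCompact T) (hs : T ⊆ S) :
    IsCompact (j '' (univ ×ˢ T)) := (isCompact_univ.prod hT).image_of_continuousOn fun q hq =>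
  (h.sm q (hs hq.2)).continuousAt.continuousWithinAt

variable (h : Bnd G F j w0 w1 S) (h3 : finrank ℝ E = 3) (hG : G.IsVol) (hF : F.IsVol) (ho : Ori I o)
include h h3 hG hF ho

/-- the energy of a band dominates the weighted energy of its slices -/
theorem slices (hT : IsCompact T) (hs : T ⊆ S) (hf : ∀ x, SmAt J f x) :
    ∃ V : ℝ → ℝ, IntegrableOn V T ∧ ∫ t in T, V t = en F (j '' (univ ×ˢ T)) f ∧
      ∀ t ∈ T, en G univ (pm I J (slc j t) f) * (w1 t / w0 t) ≤ V t := by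
  have hn := cont_en F hf
  have hw : ∀ s ∈ T, 0 < w0 s * w1 s ^ 3 := fun s k =>
    mul_pos (h.p0 s (hs k)) (pow_pos (h.p1 s (hs k)) _)
  have hi : IntegrableOn (fun q : Y × ℝ => (w0 q.2 * w1 q.2 ^ 3)⁻¹ * ‖c2 F f (j q)‖ ^ 2)
      (univ ×ˢ T) (G.μ.prod volume) :=
    ContinuousOn.integrableOn_compact (isCompact_univ.prod hT)
      (((((h.c0.mul (h.c1.pow 3)).mono hs).inv₀ fun s k => (hw s k).ne').comp
        continuousOn_snd fun q hq => hq.2).mul (hn.comp_continuousOn fun q hq =>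
          (h.sm q (hs hq.2)).continuousAt.continuousWithinAt))
  rw [IntegrableOn, ← Measure.prod_restrict, Measure.restrict_univ] at hi
  refine ⟨_, hi.integral_prod_right, ?_, fun t ht => ?_⟩
  · rw [en, h.integral hG hF ho hT.measurableSet hs, h3, ← Measure.prod_restrict,
      Measure.restrict_univ, integral_prod_symm _ hi]
  have h2 : w1 t ^ 4 * en G univ (pm I J (slc j t) f) ≤ ∫ y, ‖c2 F f (j (y, t))‖ ^ 2 ∂G.μ := by
    rw [en, Measure.restrict_univ, ← integral_const_mul]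
    exact integral_mono_of_nonneg (.of_forall fun _ => by positivity)
      ((hn.comp (h.sm_slc (hs ht)).continuous).integrable_of_hasCompactSupport (.of_compactSpace _))
      (.of_forall fun y => h.norm_slc (hs ht) _ y)
  have p0 := h.p0 t (hs ht)
  have p1 := h.p1 t (hs ht)
  simp only [integral_const_mul]
  refine le_trans (le_of_eq ?_) (mul_le_mul_of_nonneg_left h2 (inv_pos.2 (hw t ht)).le)
  field_simp

/-- a quantity bounded by the energy of every slice is small on a long neck -/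
theorem le_of_slices (hT : IsCompact T) (hs : T ⊆ S) (hf : ∀ x, SmAt J f x) (h0 : 0 ≤ c)
    (hp : ∀ t ∈ T, p ≤ c * en G univ (pm I J (slc j t) f)) :
    p * ∫ t in T, w1 t / w0 t ≤ c * en F (j '' (univ ×ˢ T)) f := by
  obtain ⟨V, i, e, le⟩ := slices h h3 hG hF ho hT hs hf
  rw [← e, ← integral_const_mul, ← integral_const_mul]
  refine setIntegral_mono_on ((((h.c1.div h.c0 fun s k => (h.p0 s k).ne').mono hs).integrableOn_compact
    hT).const_mul p) (i.const_mul c) hT.measurableSet fun t ht => ?_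
  exact (mul_le_mul_of_nonneg_right (hp t ht) (div_pos (h.p1 t (hs ht)) (h.p0 t (hs ht))).le).trans
    ((mul_assoc _ _ _).trans_le (mul_le_mul_of_nonneg_left (le t ht) h0))

/-- **LONG**: a period across a long neck costs energy -/
theorem long {O e : Y × ℝ → Ext (E × ℝ)} {k : ℕ} (hj : ContMDiff (IC I) J ∞ j) (hO : Ori (IC I) O)
    (he : Cs (IC I) k univ e) (hP : Pr G O e c) (h0 : 0 ≤ c) (hT : IsCompact T) (hs : T ⊆ S)
    (hK : IsOpen K) (hr : range j ⊆ K) (hf : Cl J 2 K f) :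
    ip (IC I) O (pm (IC I) J j f) e ^ 2 * ∫ t in T, w1 t / w0 t ≤
      c * en F (j '' (univ ×ˢ T)) f := by
  have cp := cpt_band h hT hs
  obtain ⟨a, a1, -, -, a2⟩ := exists_fo cp hK ((image_subset_range _ _).trans hr) hf.sm hf.dg
  rw [← en_congr cp.measurableSet fun x hx => (a2 x hx).eq_of_nhds]
  refine le_of_slices h h3 hG hF ho hT hs a1.sm h0 fun t ht => ?_
  have h1 : Cl (IC I) 2 (univ ×ˢ univ) (pm (IC I) J j f) :=
    hf.pm ⟨fun q _ => hj q, fun q _ => hr ⟨q, rfl⟩⟩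
  have h2 := Dr59.st_fst_inl isOpen_univ isOpen_univ (mem_univ t) (convex_univ.starConvex trivial)
    h1.cls
  rw [Dr59.Mp.st_cls, Dr59.Mp.st_cls, eq_comm, Dr59.cls_eq, univ_prod_univ] at h2
  rw [univ_prod_univ] at h1
  have h4 : Fo I 2 (pm I J (slc j t) a) := a1.pm (h.sm_slc (hs ht))
  rw [show pm I J (slc j t) a = pm I J (slc j t) f from funext fun y =>
    Dr59.pm_congr_right (a2 _ ⟨(y, t), ⟨trivial, ht⟩, rfl⟩).eq_of_nhds, ← h.sl_pm (hs ht)] at h4 ⊢
  rw [he.ip_coh hO h1.sm (fun q _ => (h4.sm _).pm contMDiffAt_fst) h2]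
  exact hP _ h4

/-- a long neck is thin -/
theorem thin (hg : Hgt J j S χ g) (hO : Ori J O) (hp : SameOn (cy o) (pm (IC I) J j O) (univ ×ˢ S))
    (hc : CS G o c) (h0 : 0 ≤ c) (hδ0 : 0 ≤ δ) (hδ : ∀ s ∈ S, |deriv χ s| * w0 s ≤ δ * w1 s)
    (hK : IsCompact K) (hs : j '' (univ ×ˢ tsupport (deriv χ)) ⊆ K)
    (h1 : ∀ x, x ∉ K → df J g x = 0) : Thin O F g K (c * δ) :=
  ⟨hO, hg.sm, hK, h1, mul_nonneg h0 hδ0, fun _ ha =>
    (h.neck hg h3 hG hF ho hO hp hc h0 hδ ha).trans (mul_le_mul_of_nonneg_left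
      (en_mono hs (intOn_en F hK ha.d.sm)) (mul_nonneg h0 hδ0))⟩

end Crest.Agent.X212.Loc8
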