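import Crest.Agent.X212.Bki64.G1
import Crest.Agent.X212.Loc8.Red
import Crest.Agent.X212.Pj41.Cm

/-!
# Row 212, NECK (helper8): a parallel unit section along an end and its limit
-/

set_option autoImplicit false
set_option linter.unusedSectionVars false
noncomputable section
open scoped Manifold ContDiff Topology InnerProductSpace
open Set Function Filter

namespace Crest.Agent.X212.Loc8
open An Cyf70 Neck67 Pj41 Tmp64 Nd18 Bki64
open Eqv71 (cj)
open Std94 (hs)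
open Abel74 (RedOn)

section alg
variable {κ κ' : Type} [Fintype κ] [Fintype κ'] {u : CL (Eu κ) (Eu κ')} {T p g : En κ} {q : En κ'}

theorem conj_skw (i : CIso u p q) (t : CIso T p p) (s : ad T = -T) :
    ad ((u ∘L T) ∘L ad u) = -((u ∘L T) ∘L ad u) ∧ ((u ∘L T) ∘L ad u) ∘L u = u ∘L T :=
  ⟨by rw [ad_comp, ad_comp, ad_ad, s, ContinuousLinearMap.neg_comp, ContinuousLinearMap.comp_neg,
    ContinuousLinearMap.comp_assoc], by
    rw [ContinuousLinearMap.comp_assoc, i.src, ContinuousLinearMap.comp_assoc, t.idem]⟩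

theorem norm_skw (s : ad T = -T) : ‖ad g + g‖ = ‖ad (T - g) + (T - g)‖ := by
  rw [ad_sub, s, ← norm_neg]; congr 1; abel

theorem ad_comp_sub (i : CIso g p p) : ad g ∘L T - p = ad g ∘L (T - g) := by
  rw [ContinuousLinearMap.comp_sub, i.src]

theorem comp_fin {a τ g : En κ'} (h : g ∘L a = a ∘L τ) (h' : τ ∘L u = u ∘L T) :
    g ∘L a ∘L u = (a ∘L u) ∘L T := by
  rw [← ContinuousLinearMap.comp_assoc, h, ContinuousLinearMap.comp_assoc, h',
    ContinuousLinearMap.comp_assoc]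

end alg

section gen
variable {E : Type} [NormedAddCommGroup E] [NormedSpace ℝ E] [FiniteDimensional ℝ E]
  [MeasurableSpace E] [BorelSpace E]
  {HM : Type} [TopologicalSpace HM] {I : ModelWithCorners ℝ E HM} [I.Boundaryless]
  {M : Type} [TopologicalSpace M] [ChartedSpace HM M] [IsManifold I ∞ M]
  [MeasurableSpace M] [BorelSpace M] [SecondCountableTopology M] [T2Space M]
  {ι : Type} [Fintype ι] {lam : Type} [Fintype lam] {r r' : ℕ}
  {B : Base M ι lam} {G : Geo I M ι lam} {F : Fr I M ι} {c : Cfg M ι lam r} {O : Set M} {x : M}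
  {T T' : M → En (Fin c.m.N)}

/-- forget the spinor -/
abbrev z0 (c : Cfg M ι lam r) : Cfg M ι lam r := ⟨c.m, c.W, fun _ => 0, c.z⟩

theorem admOn_z0 (h : AdmOn c B G O) : AdmOn (z0 c) B G O :=
  ⟨h.ok, h.conn, fun _ _ => contMDiffAt_const, fun _ _ => map_zero _, h.z⟩

variable (F c O) in
/-- skew parallel automorphisms -/
structure Sk (T : M → En (Fin c.m.N)) : Prop where
  iso : Iso0 I c.m c.m O T
  sk : ∀ x ∈ O, ad (T x) = -T x
  par : ∀ a, ∀ x ∈ O, cov F c c T a x = 0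

theorem sk_of_red (hm : OKOn I B c.m O) {ξ : M → c.m.A} (R : RedOn F c.m c.W O ξ) :
    Sk F c O fun x => opL (ξ x) := by
  have a := fun x hx => ad_skew.2 (R.mem x hx).1
  refine ⟨⟨fun x hx => Wz78.SA.clm opL (R.sm x hx), fun x hx => CIso.of_prj (hm.pidem x hx) ?_ ?_,
    fun x hx => (R.mem x hx).2.2.1, fun x hx => (R.mem x hx).2.2.2.1,
    fun x hx => (R.mem x hx).2.2.2.2⟩, a, fun b x hx => ?_⟩
  · rw [a x hx, ContinuousLinearMap.neg_comp]; exact neg_eq_iff_eq_neg.2 (R.sq x hx)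
  · rw [a x hx, ContinuousLinearMap.comp_neg]; exact neg_eq_iff_eq_neg.2 (R.sq x hx)
  · have := Wz78.opL_nab (e := F.e) (W := c.W) b (R.sm x hx)
    rw [R.par x hx, map_zero] at this
    rw [← this, cov, add_sub_assoc]; rfl

namespace Sk
variable (h : Sk F c O T)
include h

theorem sq (hx : x ∈ O) : T x ∘L T x = -c.m.p x := by
  rw [← (h.iso.iso x hx).src, h.sk x hx, ContinuousLinearMap.neg_comp, neg_neg]

theorem red : RedOn F c.m c.W O fun x => hsL (T x) := by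
  refine ⟨fun x hx => Wz78.SA.clm hsL (h.iso.su x hx), fun x hx => Wz78.mem_g
    (ad_skew.1 (h.sk x hx)) (h.iso.iso x hx).left (h.iso.J x hx) (h.iso.ρ x hx) (h.iso.j x hx),
    fun x hx => by rw [Wz78.opL_hsL]; exact h.sq hx, fun x hx a => ?_⟩
  rw [Wz78.hsL_nab a (h.iso.su x hx), ← map_zero hsL, ← h.par a x hx, cov, add_sub_assoc]; rfl

theorem mono {O' : Set M} (hs : O' ⊆ O) : Sk F c O' T :=
  ⟨h.iso.mono hs, fun x hx => h.sk x (hs hx), fun a x hx => h.par a x (hs hx)⟩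

theorem neg : Sk F c O fun x => -T x := by
  refine ⟨⟨fun x hx => (h.iso.su x hx).neg, fun x hx => h.sk x hx ▸ (h.iso.iso x hx).symm,
    fun x hx => ?_, fun x hx a => ?_, fun x hx s => ?_⟩, fun x hx => ?_, fun a x hx => ?_⟩
  · rw [ContinuousLinearMap.comp_neg, ContinuousLinearMap.neg_comp, h.iso.J x hx]
  · rw [ContinuousLinearMap.comp_neg, ContinuousLinearMap.neg_comp, h.iso.ρ x hx]
  · rw [ContinuousLinearMap.comp_neg, ContinuousLinearMap.neg_comp, h.iso.j x hx]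
  · rw [← h.sk x hx, ad_ad, h.sk x hx, neg_neg]
  · have e := Sob92.dv_clm (e := F.e a) (-ContinuousLinearMap.id ℝ _) (h.iso.su x hx).md
    rw [← neg_zero, ← h.par a x hx, cov, cov, ContinuousLinearMap.comp_neg,
      ContinuousLinearMap.neg_comp, show F.D a (fun x => -T x) x = -F.D a T x from e]
    abel

theorem smul {e : ℝ} (he : e = 1 ∨ e = -1) : Sk F c O fun x => e • T x := by
  rcases he with rfl | rfl
  · simpa only [one_smul] using h
  · simpa only [neg_one_smul] using h.neg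

end Sk

/-- the normalised mean intertwines two skew automorphisms -/
theorem itp_half {T T' : En (Fin c.m.N)} {t : M → En (Fin c.m.N)} (i : CIso T (c.m.p x) (c.m.p x))
    (i' : CIso T' (c.m.p x) (c.m.p x)) (s : ad T = -T) (s' : ad T' = -T') (e : t x = ad T' ∘L T) :
    T' ∘L nz (itp c.m (fun _ => 1 / 2) t x) = nz (itp c.m (fun _ => 1 / 2) t x) ∘L T := by
  have q : T ∘L T = -c.m.p x := by rw [← i.src, s, ContinuousLinearMap.neg_comp, neg_neg]
  rw [nz, ContinuousLinearMap.comp_smul, ContinuousLinearMap.smul_comp]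
  congr 1
  simp only [itp, e, ContinuousLinearMap.comp_smul, ContinuousLinearMap.smul_comp,
    ContinuousLinearMap.comp_add, ContinuousLinearMap.add_comp, ContinuousLinearMap.comp_sub,
    ContinuousLinearMap.sub_comp, i'.idem, i.left]
  rw [← ContinuousLinearMap.comp_assoc, i'.tgt, i.left, ContinuousLinearMap.comp_assoc, q, s',
    ContinuousLinearMap.comp_neg, ContinuousLinearMap.neg_comp, neg_neg, i'.idem]
  module

theorem const_of_D [PreconnectedSpace M] {f : M → ℝ} (hs : ∀ x, FSm I f x)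
    (h : ∀ a x, F.D a f x = 0) (x y : M) : f x = f y :=
  ((IsLocallyConstant.iff_eventually_eq f).2 fun x => Dfl49.par_uniq (F := F)
    (A := fun _ _ => (0 : ℝ →L[ℝ] ℝ)) (s' := fun _ => f x)
    (.of_forall fun y a => ⟨contMDiffAt_const, by simp⟩)
    (.of_forall fun y => ⟨hs y, fun a => (add_zero _).trans (h a y)⟩)
    (.of_forall fun y => ⟨contMDiffAt_const, fun a => by simp [Wz78.nab]⟩)
    rfl).apply_eq_of_preconnectedSpace x y

theorem cov_add {u v : M → En (Fin c.m.N)} (hu : FSm I u x) (hv : FSm I v x) (s : ℝ) (a : ι) :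
    cov F c c (fun x => u x + s • v x) a x = cov F c c u a x + s • cov F c c v a x := by
  have e : F.D a (fun x => u x + s • v x) x = F.D a u x + s • F.D a v x :=
    (Sob92.dv_add hu.md (hv.md.const_smul s)).trans (congrArg _ (Sob92.dv_const_smul s hv.md))
  simp only [cov, e, ContinuousLinearMap.comp_smul, ContinuousLinearMap.smul_comp,
    ContinuousLinearMap.comp_add, ContinuousLinearMap.add_comp]
  module

/-- two skew parallel automorphisms are conjugate up to a sign -/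
theorem sk_match [PreconnectedSpace M] (hB : B.OK I) (A : c.Adm B G) (h : Sk G.F c univ T)
    (h' : Sk G.F c univ T') : ∃ e : ℝ, (e = 1 ∨ e = -1) ∧ Sk G.F c univ (fun x => e • T x) ∧
      Iso0 I c.m c.m univ (fun x => nz (itp c.m (fun _ => 1 / 2) (fun x => ad (T' x) ∘L (e • T x)) x))
      ∧ ∀ a x, cov G.F c c (fun x => nz (itp c.m (fun _ => 1 / 2)
        (fun x => ad (T' x) ∘L (e • T x)) x)) a x = 0 := by
  have A' := admOn_univ.2 A
  have p0 : ∀ a x, cov G.F c c c.m.p a x = 0 := fun a x => (Eq0.refl A').par x trivial a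
  have sp := fun x => A'.ok.sp x trivial
  have key : ∀ {T : M → En (Fin c.m.N)}, Sk G.F c univ T →
      Iso0 I c.m c.m univ (fun x => ad (T' x) ∘L T x) ∧
      (∀ a x, cov G.F c c (fun x => ad (T' x) ∘L T x) a x = 0) ∧
      ∀ x y, ⟪hsL (c.m.p x), hsL (ad (T' x) ∘L T x)⟫_ℝ =
        ⟪hsL (c.m.p y), hsL (ad (T' y) ∘L T y)⟫_ℝ := fun {T} h => by
    have i := h.iso.trans (h'.iso.symm A'.ok A'.ok)
    have p : ∀ a x, cov G.F c c (fun x => ad (T' x) ∘L T x) a x = 0 := fun a x => by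
      rw [cov_comp (c' := c) (h.iso.su x trivial) (h'.iso.su x trivial).ad,
        cov_ad (h'.iso.su x trivial) (A.conn.sk a x) (A.conn.sk a x), h.par a x trivial,
        h'.par a x trivial, ad_zero]
      simp
    have s1 := fun x => Wz78.SA.clm hsL (sp x)
    have s2 := fun x => Wz78.SA.clm hsL (i.su x trivial)
    refine ⟨i, p, const_of_D (F := G.F) (fun x => (s1 x).inner (s2 x)) fun a x => ?_⟩
    have e : ∀ {u : M → En (Fin c.m.N)}, Wz78.nabE I G.F.e c.W a u x = cov G.F c c u a x := by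
      intro u; rw [cov, add_sub_assoc]; rfl
    rw [Pre.D_def, Wz78.dv_inner (A := c.m.adW c.W) a (Wz78.adc_skw (A.conn.sk a x)) (s1 x) (s2 x),
      Wz78.hsL_nab a (sp x), Wz78.hsL_nab a (i.su x trivial), e, e, p0, p]
    simp
  obtain ⟨e, he, k, h0⟩ : ∃ e : ℝ, (e = 1 ∨ e = -1) ∧ Sk G.F c univ (fun x => e • T x) ∧
      ∀ x, 0 ≤ ⟪hsL (c.m.p x), hsL (ad (T' x) ∘L (e • T x))⟫_ℝ := by
    by_cases hf : ∀ x, 0 ≤ ⟪hsL (c.m.p x), hsL (ad (T' x) ∘L T x)⟫_ℝ
    · exact ⟨1, .inl rfl, h.smul (.inl rfl), by simpa only [one_smul] using hf⟩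
    · push Not at hf
      obtain ⟨y, hy⟩ := hf
      refine ⟨-1, .inr rfl, h.smul (.inr rfl), fun x => ?_⟩
      rw [neg_one_smul, ContinuousLinearMap.comp_neg, map_neg, inner_neg_right, (key h).2.2 x y]
      linarith
  obtain ⟨i, p, q⟩ := key k
  refine ⟨e, he, k, ?_⟩
  obtain ⟨t, ht⟩ : ∃ t, t = fun x => ad (T' x) ∘L (e • T x) := ⟨_, rfl⟩
  simp only [← congrFun ht] at q h0
  rw [← ht] at i p ⊢
  have n : ∀ x, hs (itp c.m (fun _ => 1 / 2) t x) (itp c.m (fun _ => 1 / 2) t x) =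
      8 + ⟪hsL (c.m.p x), hsL (t x)⟫_ℝ / 2 := fun x => by
    have a := hs_iso A'.ok (mem_univ x) (A'.ok.prj trivial).refl
    have b := hs_iso A'.ok (mem_univ x) (i.iso x trivial)
    rw [← Std94.inner_hs] at a b ⊢
    simp only [itp, map_add, map_smul, map_sub, inner_add_left, inner_add_right, inner_sub_left,
      inner_sub_right, real_inner_smul_left, real_inner_smul_right, a, b,
      real_inner_comm (hsL (c.m.p x)) (hsL (t x))]
    ring
  have s1 := fun x => (i.su x trivial).sub (sp x)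
  have e2 : ∀ x, (fun y => nz (itp c.m (fun _ => 1 / 2) t y)) = fun y => 0 + (√(1 + ((8 +
      ⟪hsL (c.m.p x), hsL (t x)⟫_ℝ / 2) / 16 - 1)))⁻¹ • (c.m.p y + (1 / 2 : ℝ) • (t y - c.m.p y)) :=
    fun x => funext fun y => by rw [nz, n, q y x, zero_add, itp]
  have s2 : ∀ x, FSm I (fun y => c.m.p y + (1 / 2 : ℝ) • (t y - c.m.p y)) x := fun x =>
    (sp x).add (Wz78.SA.smul (f := fun _ => 1 / 2) contMDiffAt_const (s1 x))
  refine ⟨itp_iso hB A'.ok i (fun x _ => ?_) fun x _ => by rw [n]; linarith [h0 x], fun a x => ?_⟩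
  · rw [e2 x]; exact contMDiffAt_const.add (Wz78.SA.smul contMDiffAt_const (s2 x))
  · have e3 : (fun x => t x - c.m.p x) = fun x => t x + (-1 : ℝ) • c.m.p x :=
      funext fun _ => by rw [neg_one_smul, sub_eq_add_neg]
    rw [e2 x, cov_add contMDiffAt_const (s2 x), cov_add (sp x) (s1 x), e3,
      cov_add (i.su x trivial) (sp x), p, p0]
    simp [cov, Pre.D_def]

theorem cz_fix (hB : B.OK I) {α : Type} {l : Filter α} {S : α → Set M} {c' : Cfg M ι lam r'}
    {u : M → CL c'.m.V c.m.V} {k : ℕ} (f1 : Fx B G l S k c)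
    (H : CZ G.F l S k (fun _ => c') c (fun _ => u) fun _ _ => 1)
    (i : ∀ᶠ n in l, Iso0 I c.m c.m (S n) T) (i' : Iso0 I c.m c.m univ T')
    (hb : BB G.F.toPre l S (k + 1) fun _ => T')
    (hZ : ZZ G.F.toPre l S (k + 1) fun _ x => T x - T' x) : CZ G.F l S k (fun _ => c') c
      (fun _ x => nz (itp c.m (fun _ => 1 / 2) (fun x => ad (T' x) ∘L T x) x) ∘L u x)
      fun _ _ => 1 := by
  have Z := itp_cz (χ := fun _ _ => 1 / 2) (ξ := fun _ _ => 1)
    (t := fun _ x => ad (T' x) ∘L T x) hB f1 ((i.and f1.adm).mono fun s h =>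
      h.1.trans ((i'.mono (subset_univ _)).symm h.2.ok h.2.ok))
    ((hb.ad.compZ hZ).congr' fun n x => ad_comp_sub (i'.iso x trivial))
    (BB.const H.op _) ((ZZ.zero H.op).congr' fun n x => by simp)
  exact (H.comp Z f1 f1 (bb_circ H.op _)).congr (.of_forall fun _ _ _ => ⟨rfl, (one_mul _).symm⟩)

end gen

variable {E3 : Type} [NormedAddCommGroup E3] [NormedSpace ℝ E3] [FiniteDimensional ℝ E3]
  [MeasurableSpace E3] [BorelSpace E3]
  {H3 : Type} [TopologicalSpace H3] {I3 : ModelWithCorners ℝ E3 H3} [I3.Boundaryless]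
  {Y : Type} [TopologicalSpace Y] [ChartedSpace H3 Y] [IsManifold I3 ∞ Y] [T2Space Y]
  [MeasurableSpace Y] [BorelSpace Y] [SecondCountableTopology Y] [CompactSpace Y]
  {κ : Type} [Fintype κ] {lam : Type} [Fintype lam] {D : YD I3 Y κ lam} {β : YC Y κ lam}
  {r : ℕ} {c : Cfg (Y × ℝ) (Option κ) lam r} {T : Y × ℝ → En (Fin c.m.N)}
  {g g' : Y → En (Fin β.m.N)} {l : Filter ℝ} {s : ℝ → ℝ} {v : ℝ → Y × ℝ → CL c.m.V β.m.V}

theorem adm_z0 (h : D.Adm β) : D.Adm (z0 β) :=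
  ⟨admOn_univ.1 (admOn_z0 (admOn_univ.2 h.adm)), h.tmp⟩

variable (D c β T g l s v) in
/-- gauges on windows in which `c` converges to `β` and `T` is equal to `g` -/
structure NkZ : Prop where
  cz : ∀ k, CZ D.Z l (fun n => win Y (s n) 2) k (fun _ => z0 c) (cy (z0 β)) v fun _ _ => 1
  eq : ∀ᶠ n in l, ∀ x ∈ win Y (s n) 2, g x.1 ∘L v n x = v n x ∘L T x

theorem NkZ.smul (h : NkZ D β c T g l s v) (e : ℝ) :
    NkZ D β c (fun x => e • T x) (fun y => e • g y) l s v :=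
  ⟨h.cz, h.eq.mono fun _ k x hx => by
    rw [ContinuousLinearMap.smul_comp, ContinuousLinearMap.comp_smul, k x hx]⟩

theorem NkZ.act (h : NkZ D β c T g l s v) (hβ : D.Adm β) {a : Y → En (Fin β.m.N)}
    (ha : Stb D (z0 β) (z0 β) a 1) (e : ∀ y, g' y ∘L a y = a y ∘L g y) :
    NkZ D β c T g' l s fun n x => a x.1 ∘L v n x :=
  have o := (h.cz 0).op
  ⟨fun k => (((h.cz k).comp (G := D.G) (stb_cz (D := D) o (.of_forall fun _ => ha))
    (fx_cy (adm_z0 hβ) o) (fx_cy (adm_z0 hβ) o) (bb_circ o _))).congr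
      (.of_forall fun _ _ _ => ⟨rfl, (one_mul _).symm⟩), h.eq.mono fun _ k x hx =>
      comp_fin (e x.1) (k x hx)⟩

/-- **one end** -/
theorem nk_one (hD : D.OK) (hβ : D.Adm β) {𝒰 : Ultrafilter ℝ}
    (A : ∀ᶠ n in 𝒰, AdmOn c D.B D.G (win Y (s n) 3)) (T' : ∀ᶠ n in 𝒰, Sk D.Z c (win Y (s n) 3) T)
    {u : Y × ℝ → CL c.m.V β.m.V} {ζ : Circle}
    (hu : ∀ k, ∀ η > 0, ∀ᶠ n in 𝒰, D.Cls c β u ζ (Ioo (s n - 3) (s n + 3)) k η) :
    ∃ g v, Sk D.Z (cy β) univ (fun x => g x.1) ∧ NkZ D β c T g 𝒰 s v := by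
  have hβ0 := adm_z0 hβ
  have B' := fun O => (admOn_univ.2 hβ0.adm).mono (subset_univ O)
  have A' := A.mono fun _ => admOn_z0
  have H0 : ∀ k, CZ D.Z 𝒰 (fun n => win Y (s n) 3) k (fun _ => c) (cy β) (fun _ => u)
      fun _ _ => ζ := fun k ε hε => (A.and (hu k ε hε)).mono fun _ h => cl_of_cls hβ h.1 h.2
  have o := (H0 0).op
  have zP : ∀ (k : ℕ) (w : Y × ℝ → CL c.m.V β.m.V), ZZ D.Z.toPre 𝒰 (fun n => win Y (s n) 3) k
      fun _ x => dP (z0 c) (cy (z0 β)) w 1 x := fun k w => (ZZ.zero o).congr' fun n x => by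
    rw [dP, Circle.coe_one, Eqv71.cs_one]; exact (sub_zero _).trans (map_zero _)
  have H : ∀ k, CZ D.Z 𝒰 (fun n => win Y (s n) 3) k (fun _ => z0 c) (cy (z0 β)) (fun _ => u)
      fun _ _ => 1 := fun k => CZ.mk (H0 k).iso (H0 k).A (zP k u)
  have H' : ∀ k, CZ D.Z 𝒰 (fun n => win Y (s n) 3) k (fun _ => z0 c) (cy (z0 β))
      (fun _ x => u x ∘L T x) fun _ _ => 1 := fun k => by
    refine CZ.mk ((T'.and (H k).iso).mono fun _ h => h.1.iso.trans h.2) (fun a => ((H k).A a).congr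
      ((T'.and (H k).iso).mono fun s h x hx => ?_)) (zP k _)
    refine (dA_comp (c := z0 c) (c' := z0 c) h.1.iso h.2 hx a).trans ?_
    rw [dA, dA, show cov D.Z (z0 c) (z0 c) T a x = 0 from h.1.par a x hx]
    simp
  obtain ⟨g, ξ, hg, -, hZ⟩ := step_fam hβ0 hβ0 (L' := 2) (by norm_num) (by norm_num) A' H H'
  have ws : ∀ s, win Y s 2 ⊆ win Y s 3 := fun s => win_sub (by norm_num)
  have o' := (hZ 0).op
  have K : ∀ᶠ n in (𝒰 : Filter ℝ), (Iso0 (IC I3) (cy β).m (cy β).m (win Y (s n) 2) fun x =>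
      (u x ∘L T x) ∘L ad (u x)) ∧ ∀ x ∈ win Y (s n) 2, ad ((u x ∘L T x) ∘L ad (u x)) =
      -((u x ∘L T x) ∘L ad (u x)) ∧ ((u x ∘L T x) ∘L ad (u x)) ∘L u x = u x ∘L T x := by
    filter_upwards [A', T', (H 0).iso, (H' 0).iso] with s a t i i'
    exact ⟨((i.symm a.ok (B' _).ok).trans i').mono (ws _), fun x hx =>
      conj_skw (i.iso x (ws _ hx)) (t.iso.iso x (ws _ hx)) (t.sk x (ws _ hx))⟩
  have sk : ∀ y, ad (g y) = -g y := fun y => by
    refine eq_neg_of_add_eq_zero_left (norm_le_zero_iff.1 (le_of_forall_pos_le_add fun ε hε => ?_))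
    obtain ⟨n, h1, h2⟩ := ((((hZ 0).ad.add (hZ 0)).le hε).and K).exists
    have m : (y, s n) ∈ win Y (s n) 2 := ⟨trivial, by simp, by simp⟩
    exact ((norm_skw (h2.2 _ m).1).trans_le (h1 _ m)).trans (zero_add ε).ge
  have hb : ∀ k, BB D.Z.toPre 𝒰 (fun n => win Y (s n) 2) k fun _ x => g x.1 := fun k =>
    BB.fst (N := En (Fin β.m.N)) o' k fun _ => sm_slice (t := 0) (hg.iso.su _ trivial)
  refine ⟨g, fun _ x => nz (itp (cy (z0 β)).m (fun _ => 1 / 2)
    (fun x => ad (g x.1) ∘L (u x ∘L T x) ∘L ad (u x)) x) ∘L u x,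
    ⟨hg.iso, fun x _ => sk x.1, fun a x _ => hg.par a x⟩, fun k => ?_, K.mono fun s h x hx => ?_⟩
  · exact cz_fix (G := D.G) (c := cy (z0 β)) (T := fun x => (u x ∘L T x) ∘L ad (u x))
      (T' := fun x => g x.1) hD.B (fx_cy hβ0 o') ((H k).mono le_rfl le_rfl (.of_forall fun n =>
        ⟨win_op _ _, ws _⟩)) (K.mono fun _ h => h.1) hg.iso (hb _) (hZ _)
  · exact comp_fin (itp_half (c := cy (z0 β)) (t := fun x => ad (g x.1) ∘L (u x ∘L T x) ∘L ad (u x))
      (h.1.iso x hx) (hg.iso.iso x trivial) (h.2 x hx).1 (sk x.1) rfl) (h.2 x hx).2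

/-- the limit can be replaced by any parallel section, up to a sign -/
theorem NkZ.any [PreconnectedSpace Y] (h : NkZ D β c T g l s v) (hD : D.OK) (hβ : D.Adm β)
    (hg : Sk D.Z (cy β) univ fun x => g x.1) (hg' : Sk D.Z (cy β) univ fun x => g' x.1) :
    ∃ e : ℝ, (e = 1 ∨ e = -1) ∧ ∃ v, NkZ D β c (fun x => e • T x) g' l s v := by
  obtain ⟨e, he, k, i, p⟩ := sk_match (G := D.G) hD.B hβ.adm hg hg'
  refine ⟨e, he, _, (h.smul e).act hβ (a := fun y => nz (itp β.m (fun _ => 1 / 2)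
    (fun y => ad (g' y) ∘L (e • g y)) y)) ⟨i, p, fun y => ?_⟩ fun y => ?_⟩
  · rw [Circle.coe_one, Eqv71.cs_one]; exact map_zero _
  · exact itp_half (c := β) (k.iso.iso (y, 0) trivial) (hg'.iso.iso (y, 0) trivial)
      (k.sk (y, 0) trivial) (hg'.sk (y, 0) trivial) rfl

end Crest.Agent.X212.Loc8
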