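import Crest.Agent.X212.Iz83.Pk
import Crest.Agent.X212.Gb50.Geo

/-!
# Row 212, WALL (helper8): the linear estimate `ZL`; preparations for `IsoZ`
-/

set_option autoImplicit false
set_option linter.unusedSectionVars false
noncomputable section
open scoped Manifold ContDiff Topology InnerProductSpace ENNReal NNReal
open MeasureTheory Set Function Filter Real

namespace Crest.Agent.X212.Loc8
open An An.Pre Map77 Sob92 Nd18 Cyf70 Dec35 Hm83 Iz83
open Gl67 (Sid Cm PP WW ka g0 g0_eq cd_ka ka_lin ka_lip ka_mono ka_nonneg ka_deriv)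
open Gj67 (rho cd_rho)
open Gb50 (UC UB)
open Nk89 (cst)
open Ink3 (pz)

section cyl
variable {E3 : Type} [NormedAddCommGroup E3] [NormedSpace ℝ E3] [FiniteDimensional ℝ E3]
  [MeasurableSpace E3] [BorelSpace E3]
  {H3 : Type} [TopologicalSpace H3] {I3 : ModelWithCorners ℝ E3 H3} [I3.Boundaryless]
  {Y : Type} [TopologicalSpace Y] [ChartedSpace H3 Y] [IsManifold I3 ∞ Y] [T2Space Y]
  [MeasurableSpace Y] [BorelSpace Y] [SecondCountableTopology Y] [CompactSpace Y]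
  {κ : Type} [Fintype κ] {lam : Type} [Fintype lam] (D : YD I3 Y κ lam) (β : YC Y κ lam)
  {T U Up R h : Type} [NormedAddCommGroup T] [NormedSpace ℝ T] [NormedAddCommGroup U]
  [NormedSpace ℝ U] [NormedAddCommGroup Up] [NormedSpace ℝ Up] [NormedAddCommGroup R]
  [NormedSpace ℝ R] [Fintype h]

/-- the gauge row with a drift -/
def rwd (dr : Option κ → Y × ℝ → ℝ) (w : Cz β) : Y × ℝ → (cy β).m.A := fun x =>
  sig D.B D.Z (cy β) 1 w x + ∑ a, dr a x • fa (w x) a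

/-- **the linear estimate** for the peaked weight -/
def ZL (δ : ℝ) (dr : Option κ → Y × ℝ → ℝ) (mo : Y × ℝ → CL (Cv (cy β)) Up) : Prop :=
  ∃ C ≥ 0, ∀ w : Cz β, Sm (IC I3) w → HasCompactSupport w → Tg D.B (cy β) w →
    nw D.Z.toPre 0 (fun z => -δ * rho z.2) w ≤
      C * (nw D.Z.toPre 0 (fun z => -δ * rho z.2) (rwd D β dr w) +
        nw D.Z.toPre 0 (fun z => -δ * rho z.2) (lin D.B D.Z (cy β) w) + ‖∫ x, mo x (w x) ∂D.Z.μ‖)

variable (T R) in
/-- the side -/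
def zS (b : Y → CL U (Fm (Option κ) (HS (Fin β.m.N)))) (dr : Option κ → Y × ℝ → ℝ)
    (mo : Y × ℝ → CL (Cv (cy β)) Up) (L : ℝ) : Sid (cst T D.B D.G univ univ) β.m.N β.m.J U Up R :=
  ⟨fun z => β.m.p z.1, fun i z => β.m.ρ i z.1, fun z => β.m.j z.1, fun i z => β.W i z.1,
    fun z => β.Φ z.1, fun z => b z.1, dr, fun z => bm z.2, mo, 0, fun z => ka (L - rho z.2),
    (cd_ka.comp (contDiff_const.sub cd_rho)).contMDiff.comp contMDiff_snd⟩

/-- the equations -/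
def zE (r n m : ℕ) (_ : T) : Mod61.PtX (Y × ℝ) (Option κ) lam r n m where
  D x := x.eD D.G (pz : Pt _ _ _ r n)
  C x := x.eC D.B D.G (pz : Pt _ _ _ r n)
  S _ := 0
  R _ := 0

variable {D β} {b : Y → CL U (Fm (Option κ) (HS (Fin β.m.N)))} {dr : Option κ → Y × ℝ → ℝ}
  {mo : Y × ℝ → CL (Cv (cy β)) Up} {L δ : ℝ} {w : Cz β} {r n m : ℕ}

theorem bd_eq : (zS D β T R b dr mo L).bd = mbd D.B (cy β).m := by
  simp only [Gl67.Sid.bd, funext (Gl67.Sid.P1.eq_1 _), funext (Gl67.Sid.P2.eq_1 _), Gl67.Sid.Pg,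
    Gl67.Sid.Pp, Gl67.Sid.Pm, cst, indicator_univ]
  rfl

theorem W0_eq (A : D.Adm β) (t : T) : (cst T D.B D.G univ univ).W0 (zS D β T R b dr mo L).md
    (zS D β T R b dr mo L).A0 t = (cy β).W := funext fun a => funext fun x => by
  have : ∑ b, D.B.P a b x • β.W b x.1 = β.W a x.1 := A.adm.conn.cc.proj a x
  show _ = β.W a x.1
  simpa [Mod61.Fam.W0, cst, zS] using this

theorem idx_fa (t : Tg D.B (cy β) w) (x : Y × ℝ) :
    idx (fun a b => D.B.P a b x) (.id ℝ _) (fa (w x)) = fa (w x) :=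
  fm_ext fun a => (idx_apply _ _ _ a).trans ((Spn45.p1_iff.1 (t.p1 x)).2 a)

theorem row_eq (A : D.Adm β) (t : Tg D.B (cy β) w) (s : T) (x : Y × ℝ) :
    (zS D β T R b dr mo L).row s w x = rwd D β dr w x := by
  rw [Gl67.Sid.row, bd_eq, W0_eq A, rwd, Ie.sig_one (G := ⟨D.Z, ca D.a⟩), dO]
  refine congrArg₂ (· + ·) (congrArg₂ (fun (Φ : Y × ℝ → (cy β).m.V) (v : Cz β) =>
    (((mbd D.B (cy β).m).d0 D.Z (base (cy β).W Φ)).adj D.Z).app D.Z v x)
    (funext fun x => (one_smul _ _).symm) (funext fun x => ext2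
      ((f2_sm2 _ _ _).trans (idx_fa t x)) (s2_sm2 _ _ _))) (Finset.sum_congr rfl fun a _ => ?_)
  simp only [zS, Gl67.Sid.Pg, cst, indicator_univ]
  exact congrArg (dr a x • ·) (Wz78.pg_of_mem (t.mem x a))

theorem eq_pz (c : Cfg (Y × ℝ) (Option κ) lam r) {W : c.m.Cn} {Φ : Y × ℝ → c.m.V} (e : c.W = W)
    (e' : c.Φ = Φ) (z : EuclideanSpace ℂ (Fin 0)) (x : Y × ℝ) :
    c.eD D.G (pz : Pt _ _ _ r n) x = (⟨c.m, W, Φ, z⟩ : Cfg _ _ _ 0).eD D.G (pz : Pt _ _ _ 0 0) x ∧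
    c.eC D.B D.G (pz : Pt _ _ _ r n) x =
      (⟨c.m, W, Φ, z⟩ : Cfg _ _ _ 0).eC D.B D.G (pz : Pt _ _ _ 0 0) x := by
  subst e e'
  exact ⟨rfl, rfl⟩

variable (b) in
/-- the moving limit as a variation -/
def bv (u : U) : Cz β := fun x => i1 _ _ (b x.1 u)

theorem E_eq (A : D.Adm β) (t : Tg D.B (cy β) w) (c : Cm β.m.N r h R) (p : PP T U r h β.m.N)
    (tb : Tg D.B (cy β) (bv b p.2.1)) : (zS D β T R b dr mo L).eF c (zE D r n m) w p = fun x =>
      (rwd D β dr w x, f2 _ _ (sz D β pz (w + bv b p.2.1) x), s2 _ _ (sz D β pz (w + bv b p.2.1) x),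
        bm x.2 • ∫ x, mo x (w x) ∂D.Z.μ) := funext fun x => by
  have := eq_pz (D := D) (n := n) ((zS D β T R b dr mo L).cfg c w p)
    (W := (cf (cy β) (w + bv b p.2.1)).W) (Φ := (cf (cy β) (w + bv b p.2.1)).Φ)
    (congrArg₂ (cy β).m.addC (W0_eq A _) (funext fun x => (congrArg _ (by simp [bv, zS]; rfl)).trans
      (idx_fa (t.add tb) x))) (funext fun x => congrArg (β.Φ x.1 + ·) (by simp [bv]; rfl)) β.z x
  exact Prod.ext (row_eq A t _ x) (Prod.ext (this.1.trans (add_zero _).symm)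
    (Prod.ext (this.2.trans (zero_add _).symm) rfl))

/-- the expansion at a moving solution -/
theorem sz_mv (hD : D.OK) (A : D.Adm β) (s : Sm (IC I3) w) (t : Tg D.B (cy β) w) {v : Cz β}
    (s' : Sm (IC I3) v) (t' : Tg D.B (cy β) v) (z : sz D β pz v = 0) :
    lin D.B D.Z (cy β) w = sz D β pz (w + v) - (fun x => qd D.B (cy β) x (w x) (w x)) -
      fun x => (qd D.B (cy β) x + (qd D.B (cy β) x).flip) (v x) (w x) := funext fun x => by
  have h1 := se_eq hD.B hD.G A.adm (pz : Pt _ _ _ 0 0) (s.add s') (t.add t') x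
  have h2 := se_eq hD.B hD.G A.adm (pz : Pt _ _ _ 0 0) s' t' x
  have h3 : ∀ u, te (pz : Pt _ _ _ 0 0) (cy β) u x - te (pz : Pt _ _ _ 0 0) (cy β) 0 x = 0 :=
    fun u => sub_self _
  rw [show se D.B D.G pz (cy β) v x = 0 from congrFun z x] at h2
  rw [show lin D.B D.G.F (cy β) (w + v) x = _ from Ell97.app_add s s' x] at h1
  simp only [h3, Pi.add_apply, map_add, _root_.add_apply, sub_zero] at h1 h2
  simp only [Pi.sub_apply, _root_.add_apply, ContinuousLinearMap.flip_apply]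
  rw [show sz D β pz (w + v) x = _ from h1, eq_neg_of_add_eq_zero_left
    ((add_assoc _ _ _).symm.trans h2.symm)]
  show _ = _ + (lin D.B D.Z (cy β) w x + _) + _ - _ - _
  abel

theorem sz_of {β' : YC Y κ lam} {v : Cz β} (e : cf (cy β) v = cy β')
    (h : (cy β').Sol D.B D.G (pz : Pt _ _ _ 0 0)) : sz D β pz v = 0 := funext fun x => by
  have k : ∀ c, c = cy β' → c.eD D.G (pz : Pt _ _ _ 0 0) x = 0 ∧
      c.eC D.B D.G (pz : Pt _ _ _ 0 0) x = 0 := fun c e => e ▸ ⟨h.D x, h.C x⟩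
  have := k _ e
  exact (congrArg₂ (fun (p : (cy β).m.V) (q : Fm _ (cy β).m.A) => i1 _ _ p + i2 _ _ q) this.1
    this.2).trans ((congrArg₂ (· + ·) (map_zero _) (map_zero _)).trans (add_zero _))

/-! ### the weight -/

theorem ka_ge (s : ℝ) : s + (ka 1 - 1) ≤ ka s := by
  rcases le_total s 1 with k | k
  · linarith [ka_lip k]
  · linarith [ka_lin le_rfl k]

theorem ka_eq {s : ℝ} (h : 1 ≤ ka s) : ka (ka s) = s + 2 * (ka 1 - 1) := by
  have : 1 ≤ s := by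
    have := (ka_bd s).2
    rcases le_total s 0 with k | k
    · rw [max_eq_left k] at this; linarith
    · rw [max_eq_right k] at this; linarith
  linarith [ka_lin le_rfl this, ka_lin le_rfl h]

theorem wd_ex (hδ : 0 ≤ δ) : ∃ d Dd, ∀ L : ℝ,
    Wd D.Z.toPre (fun z => δ * ka (ka (L - rho z.2))) d Dd := by
  have e : ∀ s : ℝ, (deriv fun u => δ * ka u) s = δ * smoothTransition (1 * s + 0) := fun s =>
    ((ka_deriv s).const_mul δ).deriv.trans (by simp)
  have s0 : Sm (IC I3) fun z : Y × ℝ => z.2 := contMDiff_snd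
  have k0 : ∀ a, UC (⊤ : Filter ℝ) (fun _ => D.Z.toPre) fun _ => D.Z.D a fun z => z.2 := fun a =>
    (show D.Z.Cb (D.Z.D a fun z => z.2) from (show D.nk.τ = Prod.snd from funext fun x => by
      simp [Nk.τ, YD.nk, tf]) ▸ D.nk.cd_τ.2 a).imp fun _ k => .of_forall fun _ => k
  have c1 : ∀ L : ℝ, ContDiff ℝ ∞ fun u => L - rho u := fun L => contDiff_const.sub cd_rho
  have k1 := UC.dcomp (b := fun L u => L - rho u) c1 (by
    convert UB.of (Gb50.sm_drho.smul (-1)) (s := 1) (by simp) fun _ : ℝ => 0 using 3 with L u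
    simp [deriv_const_sub]) (fun _ => s0) k0
  have s1 := fun L => (c1 L).contMDiff.comp s0
  have k2 := UC.dcomp (b := fun _ => ka) (fun _ => cd_ka) (by
    convert UB.of Neck67.sm_step (s := 1) (by simp) fun _ : ℝ => 0 using 3 with u
    simp [(ka_deriv u).deriv]) s1 k1
  have s2 := fun L => cd_ka.contMDiff.comp (s1 L)
  have c3 : ContDiff ℝ ∞ fun u => δ * ka u := contDiff_const.mul cd_ka
  obtain ⟨C, hC⟩ := (Gb50.EC.all fun a => (UC.dcomp (b := fun _ u => δ * ka u) (fun _ => c3) (by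
    convert UB.of (Neck67.sm_step.smul δ) (s := 1) (by simp) fun _ : ℝ => 0 using 3 with u
    exact e u) s2 k2 a).ec).ex
  refine ⟨C 0, C, fun L => ⟨c3.contMDiff.comp (s2 L), fun _ => mul_nonneg hδ (ka_nonneg _),
    ⟨δ * ka (ka L), fun z => mul_le_mul_of_nonneg_left (ka_mono (ka_mono ?_)) hδ⟩,
    fun a x => CB_zero.1 ((eventually_top.1 hC L a).2 0) x, eventually_top.1 hC L⟩⟩
  linarith [(rho_bd z.2).1, abs_nonneg z.2]

theorem arith {x s l y R Z P K K₁ K₂ C q ρ u x₀ : ℝ} (hK : 0 ≤ K) (hP : 0 ≤ P) (k1 : 0 ≤ K₁)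
    (hx : 0 ≤ x) (hq : 0 ≤ q) (hs : s ≤ R + P * y) (h1 : x ≤ K * (s + l + y))
    (h2 : y ≤ (2 * (K * (P + 1)) + 1)⁻¹ * x + K₁ * x₀) (h3 : x₀ ≤ C * (R + l + u))
    (hR : 0 ≤ R) (hl : 0 ≤ l) (hu : 0 ≤ u) (h4 : l ≤ Z + K₂ * ρ * x) (hq' : q = 2 * K +
      2 * (K * (P + 1)) * (K₁ * C)) (h5 : K₂ * ρ ≤ (2 * q + 1)⁻¹) : x ≤ 2 * q * (R + Z + u) := by
  have a0 : K * (P + 1) * ((2 * (K * (P + 1)) + 1)⁻¹ * x) ≤ x / 2 := by
    rw [← mul_assoc, ← div_eq_mul_inv, div_mul_eq_mul_div, div_le_div_iff₀ (by positivity) two_pos]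
    nlinarith
  have a1 := mul_le_mul_of_nonneg_left (h2.trans (add_le_add le_rfl
    (mul_le_mul_of_nonneg_left h3 k1))) (show 0 ≤ K * (P + 1) by positivity)
  have a2 : x ≤ q * (R + l + u) := by
    nlinarith [mul_le_mul_of_nonneg_left hs hK, mul_nonneg hK hu]
  have a3 : q * (K₂ * ρ * x) ≤ x / 2 := by
    refine (mul_le_mul_of_nonneg_left (mul_le_mul_of_nonneg_right h5 hx) hq).trans ?_
    rw [← mul_assoc, ← div_eq_mul_inv, div_mul_eq_mul_div, div_le_div_iff₀ (by positivity) two_pos]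
    nlinarith
  nlinarith [mul_le_mul_of_nonneg_left h4 hq]

end cyl

end Crest.Agent.X212.Loc8
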