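import Crest.Agent.X212.Loc8.Zl
import Crest.Agent.X212.Nd18.Gj
import Crest.Agent.X212.Eqv71.Job
import Crest.Agent.X212.Pj41.Grl

/-!
# Row 212, WALL (helper8): `IsoZ` from the linear `L²` estimate, at walls without neck terms
-/

set_option autoImplicit false
set_option linter.unusedSectionVars false
noncomputable section
open scoped Manifold ContDiff Topology InnerProductSpace ENNReal NNReal
open MeasureTheory Set Function Filter Real

namespace Crest.Agent.X212.Loc8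
open An An.Pre Map77 Sob92 Nd18 Cyf70 Dec35 Hm83 Iz83
open Gl67 (Sid Cm PP WW ka g0 g0_eq cd_ka ka_lin ka_lip ka_mono ka_nonneg ka_deriv)
open Gj67 (rho cd_rho)
open Gb50 (UC UB)
open Nk89 (cst)
open Ink3 (pz)

section cyl
variable {E3 : Type} [NormedAddCommGroup E3] [NormedSpace ℝ E3] [FiniteDimensional ℝ E3]
  [MeasurableSpace E3] [BorelSpace E3]
  {H3 : Type} [TopologicalSpace H3] {I3 : ModelWithCorners ℝ E3 H3} [I3.Boundaryless]
  {Y : Type} [TopologicalSpace Y] [ChartedSpace H3 Y] [IsManifold I3 ∞ Y] [T2Space Y]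
  [MeasurableSpace Y] [BorelSpace Y] [SecondCountableTopology Y] [CompactSpace Y]
  {κ : Type} [Fintype κ] {lam : Type} [Fintype lam] (D : YD I3 Y κ lam) (β : YC Y κ lam)
  {T U Up R h : Type} [NormedAddCommGroup T] [NormedSpace ℝ T] [NormedAddCommGroup U]
  [NormedSpace ℝ U] [NormedAddCommGroup Up] [NormedSpace ℝ Up] [NormedAddCommGroup R]
  [NormedSpace ℝ R] [Fintype h]

variable {D β} {b : Y → CL U (Fm (Option κ) (HS (Fin β.m.N)))} {dr : Option κ → Y × ℝ → ℝ}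
  {mo : Y × ℝ → CL (Cv (cy β)) Up} {L δ : ℝ} {w : Cz β} {r n m : ℕ}

/-- **the nonlinear estimate** -/
theorem zn0 [Nonempty Y] (hD : D.OK) (A : D.Adm β) (hδ : 0 ≤ δ) (cb : D.Z.Cb fun z => b z.1)
    (tb : ∀ u, Tg D.B (cy β) (bv b u)) (cd : ∀ a, D.Z.Cb (dr a)) {ρ₀ : ℝ} (p0 : 0 < ρ₀)
    (hz : ∀ u, ‖u‖ ≤ ρ₀ → sz D β pz (bv b u) = 0) (H : ZL D β δ dr mo) {k : ℕ} (hk : 7 ≤ k)
    (c : Cm β.m.N r h R) : ∃ (K ρ : ℝ≥0), 0 < ρ ∧ ∀ L : ℝ,
    ∀ w ∈ Sec (IC I3) (zS D β T R b dr mo L).bd.pC,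
      tsupport w ⊆ (fun z : Y × ℝ => ka (L - rho z.2)) ⁻¹' Ici 1 → ∀ p : PP T U r h β.m.N, ‖p‖ ≤ ρ →
      ((zS D β T R b dr mo L).sd0 c (zE D r n m)).Q (g0 δ) univ (k + 1) w ≤ ρ →
      ((zS D β T R b dr mo L).sd0 c (zE D r n m)).Q (g0 δ) univ (k + 1) w ≤
        K * ((zS D β T R b dr mo L).sd0 c (zE D r n m)).Q (g0 δ) univ k
          (((zS D β T R b dr mo L).sd0 c (zE D r n m)).E w p) := by
  have bs : Bs D.B ⟨D.Z, ca D.a⟩ (cy β) := bs_cy hD A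
  obtain ⟨_, hF, gL⟩ := bs.good_lin
  obtain ⟨C, c0, H⟩ := H
  obtain ⟨d, Dd, hW⟩ := wd_ex (D := D) hδ
  let Td : Y × ℝ → Cv (cy β) →L[ℝ] (cy β).m.A := fun x => ∑ a, dr a x • (Grp76.pj _ a ∘L fa)
  have cT : D.Z.Cb Td := Cb_sum _ fun a _ => Cb_smul (cd a) (Cb_const _)
  let Q : Y × ℝ → U →L[ℝ] Cv (cy β) →L[ℝ] Ev (cy β) := fun x =>
    (qd D.B (cy β) x + (qd D.B (cy β) x).flip) ∘L (i1 _ _ ∘L b x.1)
  have cf := Cb_clm (N' := Cv (cy β) →L[ℝ] Cv (cy β) →L[ℝ] Ev (cy β)) (ContinuousLinearMap.flipₗᵢ ℝ (Cv (cy β)) (Cv (cy β))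
    (Ev (cy β))).toContinuousLinearEquiv.toContinuousLinearMap bs.cb_qd
  have cQ : D.Z.Cb Q := Cb_comp (Cb_add bs.cb_qd cf) (Cb_comp (Cb_const _) cb)
  obtain ⟨S, s1, s5⟩ := id cT
  obtain ⟨S', s3, s4⟩ := id cQ
  have ck := cK_nonneg (ι := Option κ) k
  obtain ⟨K5, k5, hf⟩ := nw_full bs 1 Dd k
  obtain ⟨P, hP⟩ : ∃ P, P = cK (Option κ) k * |S k| := ⟨_, rfl⟩
  have p1 : 0 ≤ P := by rw [hP]; positivity
  obtain ⟨K6, k6, hi⟩ := nrm_itp (V := Cv (cy β)) hF (δ := (2 * (K5 * (P + 1)) + 1)⁻¹)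
    (by positivity) k
  obtain ⟨K7, k7, hq⟩ := nw_qd hF bs.cb_qd Dd hk
  obtain ⟨c3, p3, h3⟩ := peak_le hD (2 * δ)
  obtain ⟨c4, p4, h4⟩ := N_nw (I := IC I3) (M := Y × ℝ) (ι := Option κ) (V := Cv (cy β)) Dd (k + 1) 0
  obtain ⟨a1, b1, g1⟩ := nw_N (I := IC I3) (M := Y × ℝ) (ι := Option κ)
    (.fst ℝ _ _ : WW (Option κ) (cy β).m.N Up →L[ℝ] (cy β).m.A) Dd k 0
  obtain ⟨a2, b2, g2⟩ := nw_N (I := IC I3) (M := Y × ℝ) (ι := Option κ)
    ((i1 _ _ ∘L .fst ℝ _ _ + i2 _ _ ∘L .fst ℝ _ _ ∘L .snd ℝ _ _) ∘L .snd ℝ _ _ :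
      WW (Option κ) (cy β).m.N Up →L[ℝ] Ev (cy β)) Dd k 0
  obtain ⟨a3, b3, g3⟩ := N_nw (I := IC I3) (M := Y × ℝ) (ι := Option κ) (V := ℝ) Dd 0 0
  obtain ⟨q, hq'⟩ : ∃ q, q = 2 * K5 + 2 * (K5 * (P + 1)) * (K6 * C) := ⟨_, rfl⟩
  have q0 : 0 ≤ q := by rw [hq']; positivity
  obtain ⟨K8, h8⟩ : ∃ K, K = K7 + cK (Option κ) k * |S' k| + 1 := ⟨_, rfl⟩
  have k8 : 0 < K8 := by rw [h8]; positivity
  obtain ⟨r₁, r1, r2, r3⟩ : ∃ r > 0, r ≤ ρ₀ ∧ K8 * r ≤ (2 * q + 1)⁻¹ :=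
    ⟨min ρ₀ ((2 * q + 1)⁻¹ / K8), by positivity, min_le_left _ _,
      (le_div_iff₀' k8).1 (min_le_right _ _)⟩
  refine ⟨NNReal.mk (c4 * (3 * (2 * q) ^ 2 * (a1 + a2 + (exp δ * c3) ^ 2 * a3))) (by positivity) + 1,
    NNReal.mk (min r₁ (r₁ ^ 2 / (c4 + 1))) (by positivity),
    NNReal.coe_pos.1 (show 0 < min r₁ (r₁ ^ 2 / (c4 + 1)) by positivity),
    fun L (w : Cz β) hw hs p hp hr => ?_⟩
  have t : Tg D.B (cy β) w := fun x =>
    (congrArg (fun b : Bd _ _ (Fin β.m.N) => b.pC x (w x)) bd_eq).symm.trans (hw.2.2 x)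
  have fw : Fl D.Z.toPre w := .of_hcs hw.1 hw.2.1
  have W := hW L
  have hu : ‖p.2.1‖ ≤ r₁ := (norm_fst_le _).trans ((norm_snd_le _).trans
    (hp.trans (min_le_left _ _)))
  have l1 := fun x : Y × ℝ => (g0_eq δ (ka (L - rho x.2))).le
  have l2 := fun x : Y × ℝ => (g0_eq δ (ka (L - rho x.2))).ge.trans_eq (add_zero _).symm
  obtain ⟨n1, n2⟩ := h4 D.Z _ _ _ W l1 l2 w fw
  generalize hψ : (fun z : Y × ℝ => δ * ka (ka (L - rho z.2))) = ψ at W n1 n2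
  have n3 : nw D.Z.toPre (k + 1) ψ w ≤ r₁ := (abs_le_of_sq_le_sq' (by
    have := n1.trans (mul_le_mul_right (hr.trans (ENNReal.coe_le_coe.2
      (show _ ≤ NNReal.mk (r₁ ^ 2 / (c4 + 1)) (by positivity) from
        NNReal.coe_le_coe.1 (min_le_right _ _)))) _)
    rw [← ENNReal.ofReal_coe_nnreal, ← ENNReal.ofReal_mul p4,
      ENNReal.ofReal_le_ofReal_iff (by positivity), NNReal.coe_mk, ← mul_div_assoc] at this
    exact this.trans ((div_le_iff₀' (by positivity)).2 (by nlinarith [sq_nonneg r₁]))) r1.le).2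
  have sb : Sm (IC I3) (bv b p.2.1) := sm_clm _ (cb.choose_spec.1.clm_apply contMDiff_const)
  have e1 := sz_mv hD A hw.1 t sb (tb _) (hz _ (hu.trans r2))
  obtain ⟨fq, nq⟩ := hq _ _ W w fw
  have fL : Fl D.Z.toPre (lin D.B D.Z (cy β) w) := fw.opA gL
  have fQ : Fl D.Z.toPre fun x => Q x p.2.1 (w x) := fw.app (Cb_app cQ (Cb_const _))
  have fz : Fl D.Z.toPre (sz D β pz (w + bv b p.2.1)) := by
    rw [← eq_add_of_sub_eq (eq_add_of_sub_eq e1.symm) |>.symm]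
    exact (fL.add fQ).add fq
  have e2 : rwd D β dr w = sig D.B D.Z (cy β) 1 w + fun x => Td x (w x) := funext fun x => by
    simp [rwd, Td]
  have fT := fw.app cT
  have f1 : Fl D.Z.toPre (rwd D β dr w) := e2 ▸ (fl_sig bs 1 fw).add fT
  have n0 := nw_nonneg (F := D.Z) (ψ := ψ) k w
  have m1 : nw D.Z.toPre k ψ w ≤ _ := nw_mono k.le_succ w
  obtain ⟨a, ha⟩ : ∃ a, a = δ * (L + 2 * (ka 1 - 1)) := ⟨_, rfl⟩
  have lo : ∀ x : Y × ℝ, -δ * rho x.2 + a ≤ ψ x := fun x => by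
    have := mul_le_mul_of_nonneg_left ((add_le_add_left (ka_ge (L - rho x.2)) _).trans
      (ka_ge (ka (L - rho x.2)))) hδ
    rw [← hψ, ha]; linarith
  have up : ∀ {V : Type} [NormedAddCommGroup V] [InnerProductSpace ℝ V] [FiniteDimensional ℝ V]
      {f : Y × ℝ → V},
      Fl D.Z.toPre f → exp a * nw D.Z.toPre 0 (fun z => -δ * rho z.2) f ≤ nw D.Z.toPre k ψ f :=
    fun {V _ _ _ f} hf => by
      rw [← le_div_iff₀' (exp_pos a), div_eq_inv_mul]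
      refine (nrm0_le (by positivity) ((W.fl hf).fl 0) fun x => ?_).trans
        (mul_le_mul_of_nonneg_left (nw_mono k.zero_le f) (by positivity))
      rw [norm_smul, norm_smul, Real.norm_of_nonneg (exp_pos _).le, Real.norm_of_nonneg (exp_pos _).le, ← mul_assoc, ← exp_neg, ← exp_add]
      exact mul_le_mul_of_nonneg_right (exp_le_exp.2 (by linarith [lo x])) (norm_nonneg _)
  have dn : nw D.Z.toPre 0 ψ w ≤ exp a * nw D.Z.toPre 0 (fun z => -δ * rho z.2) w := by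
    refine nrm0_le (exp_pos a).le ((Fl.of_hcs (F := D.Z) ((sm_snd (contDiff_exp.comp
      (contDiff_const.mul cd_rho))).smul hw.1) hw.2.1.smul_left).fl 0) fun x => ?_
    by_cases e : x ∈ tsupport w
    · rw [norm_smul, norm_smul, Real.norm_of_nonneg (exp_pos _).le, Real.norm_of_nonneg (exp_pos _).le, ← mul_assoc, ← exp_add, ← hψ, ha]
      beta_reduce
      rw [ka_eq (hs e)]
      exact le_of_eq (by congr 2; ring)
    · simp [image_eq_zero_of_notMem_tsupport e]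
  set y := ‖∫ x, mo x (w x) ∂D.Z.μ‖
  have pk : exp a * y ≤ exp δ * c3 * nw D.Z.toPre 0 ψ fun x => bm x.2 • y := by
    have := h3 (fun t => δ * ka (ka (L - rho t))) d Dd (hψ ▸ W) 0 (fun t ht => by
      have k1 : L - rho 0 - 2 ≤ L - rho t := by
        linarith [(rho_bd t).2, (rho_bd 0).1, abs_nonneg (0 : ℝ)]
      have k2 := ka_lip (show L - rho 0 - 2 ≤ L - rho 0 by linarith)
      have k3 := ka_lip (show ka (L - rho 0) - 2 ≤ ka (L - rho 0) by linarith)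
      have k4 := ka_mono (show ka (L - rho 0) - 2 ≤ ka (L - rho t) by linarith [ka_mono k1])
      nlinarith) y 0
    rw [abs_of_nonneg (norm_nonneg _), hψ] at this
    rw [mul_assoc]
    refine le_trans ?_ (mul_le_mul_of_nonneg_left this (exp_pos δ).le)
    rw [← mul_assoc, ← exp_add]
    refine mul_le_mul_of_nonneg_right (exp_le_exp.2 ?_) (norm_nonneg _)
    have k1 := lo (Classical.arbitrary Y, 0)
    have k2 := (rho_bd 0).2
    rw [← hψ] at k1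
    rw [abs_zero, zero_add] at k2
    nlinarith
  have hz := arith k5 p1 k6 (nw_nonneg _ _) q0 (s := nw D.Z.toPre k ψ (sig D.B D.Z (cy β) 1 w))
    (R := nw D.Z.toPre k ψ (rwd D β dr w)) (Z := nw D.Z.toPre k ψ (sz D β pz (w + bv b p.2.1)))
    (by
      rw [eq_sub_of_add_eq e2.symm, hP]
      exact (nw_sub hF W f1 fT k).trans (add_le_add le_rfl (nw_app W s1 (s5 k) fw)))
    (hf _ _ W w fw t) (hi _ (W.fl fw)) (u := exp a * y) (dn.trans (by
      refine (mul_le_mul_of_nonneg_left (H w hw.1 hw.2.1 t) (exp_pos a).le).trans ?_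
      rw [mul_left_comm, mul_add (exp a), mul_add (exp a)]
      exact mul_le_mul_of_nonneg_left (add_le_add (add_le_add (up f1) (up fL)) le_rfl) c0))
    (nw_nonneg _ _) (nw_nonneg _ _) (by positivity) (K₂ := K8) (ρ := r₁) (by
      have x1 := nw_mul W (ContinuousLinearMap.apply ℝ _ p.2.1) s3 (s4 k) fw
      have x2 : ‖ContinuousLinearMap.apply ℝ (Cv (cy β) →L[ℝ] Ev (cy β)) p.2.1‖ ≤ r₁ :=
        ContinuousLinearMap.opNorm_le_bound _ r1.le fun f => (f.le_opNorm _).trans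
          (by rw [mul_comm]; exact mul_le_mul_of_nonneg_right hu (norm_nonneg _))
      have x3 := (nw_sub hF W (fz.sub fq) fQ k).trans (add_le_add (nw_sub hF W fz fq k)
        (x1.trans (mul_le_mul (mul_le_mul_of_nonneg_right (mul_le_mul_of_nonneg_left x2 ck)
          (abs_nonneg _)) m1 n0 (by positivity))))
      have x4 := mul_le_mul_of_nonneg_left (mul_le_mul (m1.trans n3) m1 n0 r1.le) k7
      refine (congrArg _ e1).trans_le (x3.trans ?_)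
      rw [h8]
      nlinarith [mul_nonneg r1.le (n0.trans m1)]) hq' r3
  refine enn fun X hX => n2.trans (ENNReal.ofReal_le_ofReal ?_)
  have eE := E_eq (T := T) (n := n) (m := m) (L := L) (dr := dr) (mo := mo) A t c p (tb _)
  replace hX := (congrArg (Gl67.N D.Z.toPre (fun x => g0 δ (ka (L - rho x.2))) univ k)
    eE).symm.trans_le hX
  have sE := f1.sm.prodMk_space ((sm_clm (f2 _ _) fz.sm).prodMk_space
    ((sm_clm (s2 _ _) fz.sm).prodMk_space ((sm_snd (I := I3) bm_cd).smul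
      (contMDiff_const (c := ∫ x, mo x (w x) ∂D.Z.μ)))))
  subst hψ
  rw [NNReal.coe_mk, mul_assoc]
  refine mul_le_mul_of_nonneg_left (ar3 (nw_nonneg _ _) (by positivity) hz pk
    (g1 D.Z _ _ _ W l1 l2 _ sE _ (fun _ => rfl) f1 X hX)
    (g2 D.Z _ _ _ W l1 l2 _ sE _ (fun _ => (i1_add_i2 _).symm) fz X hX) ?_) p4
  have := (g3 D.Z _ _ _ W l1 l2 _ (fl_bm y)).1.trans (mul_le_mul_right ((Gl67.N_le .univ zero_le_one
    fun x _ => ?_).trans ((mul_le_mul_right hX _))) _)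
  · rwa [ENNReal.ofReal_one, one_mul, ← ENNReal.ofReal_coe_nnreal, ← ENNReal.ofReal_mul b3,
      ENNReal.ofReal_le_ofReal_iff (by positivity)] at this
  · rw [one_mul]
    refine mul_le_mul_of_nonneg_left (le_trans ?_ (monotone_nat_of_le_succ
      (fun k => Gl67.J_succ k _) k.zero_le)) (exp_pos _).le
    refine pow_le_pow_left₀ (norm_nonneg _) ?_ 2
    refine le_trans ?_ ((norm_snd_le _).trans ((norm_snd_le _).trans (norm_snd_le _)))
    simp [norm_smul, y]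

end cyl

open M Gj67

variable {Wi : Type} {X : Mf 4} {A κ lam : Type} [Fintype A] [Fintype κ] [Fintype lam]
  [DecidableEq lam] {M : Mark X A κ} {W : World M} {L : ML M lam} {Λ : Lns W L}
  {A' h : Type} [Fintype A'] [DecidableEq A'] [Fintype h] {r n : ℕ}
  {J : Job Wi Λ A' h r n} {σ : Cel A'} {a : A'}
  {U Up R : Type} [NormedAddCommGroup U] [NormedSpace ℝ U] [NormedAddCommGroup Up]
  [NormedSpace ℝ Up] [NormedAddCommGroup R] [NormedSpace ℝ R] {d : Dat J σ a U Up R}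
  {q₀ : Wi →₀ ℝ} {δ : ℝ}

/-- **ZN** -/
theorem zn (H : d.OK q₀ δ) (hN : Nl J d.x) (hb : d.bp = fun z => bm z.2)
    (hZ : ZL d.D (d.β 0) δ d.dZ d.mo) : d.IsoZ q₀ δ 8 := by
  intro α l τ q _ _
  have := J.conn_xs d.x
  have c0 := H.crit.self_of_nhds
  obtain ⟨ρ₀, p0, k⟩ := Metric.nhds_basis_closedBall.eventually_iff.1 H.crit
  have o := H.okZ 0
  obtain ⟨K, ρ, h0, k⟩ := zn0 (T := Tc σ a) (n := n) (m := min r 1) (D := d.D) (β := d.β 0)
    (b := d.bZ) (dr := d.dZ) (H.ok.xs d.x).1.yd ⟨c0.sol.toAdm, c0.tmp⟩ H.δ0.le o.cb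
    (fun u => .of (fun x => o.pb x u) fun x => map_zero _) o.cd p0 (fun u hu => sz_of (β' := d.β u)
      (Pj41.cfg_ext rfl rfl rfl (funext₂ fun i x => congrArg (· + opL (d.bZ x.1 u i))
        (show d.AZ i x.1 + opL (d.bZ x.1 0 i) = d.AZ i x.1 by simp)) (funext fun x => add_zero _))
      (hN.1.crit.1 (k (mem_closedBall_zero_iff.2 hu))).1) hZ (k := 8) (by norm_num) d.cm
  refine ⟨K, ρ, 1, h0, .of_forall fun i => ?_⟩
  have e : zS d.D (d.β 0) (Tc σ a) R d.bZ d.dZ d.mo (nl (τ i) / 2 - d.R0) = d.Z (τ i) := by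
    simp only [zS, Dat.Z, Dat.β, hb]
    congr 1
    ext1 i; ext1 z; simp
  have e' : zE d.D r n (min r 1) = d.eZ (q i) := funext fun t => by
    simp only [zE, Dat.eZ, show (J.xs d.x).q (q i) = 0 by simp [Xs.q, hN.2], hN.1.pt]
  have := k (nl (τ i) / 2 - d.R0)
  rw [e, e'] at this
  exact this

end Crest.Agent.X212.Loc8
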